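import Mathlib

/-!
Definitions used in the statement of the Benjamini–Schramm nonuniqueness theorem.
-/

open MeasureTheory ProbabilityTheory unitInterval

namespace Vale.Agent.P165

/-- The automorphism group of `G` has finitely many orbits on the vertices. -/
def QuasiTransitive {V : Type*} (G : SimpleGraph V) : Prop :=
  ∃ S : Set V, S.Finite ∧ ∀ x : V, ∃ a ∈ S, ∃ φ : G ≃g G, φ a = x

/-- The vertices outside `A` with a neighbour in `A`. -/
def vertexBoundary {V : Type*} (G : SimpleGraph V) (A : Set V) : Set V :=
  {v | v ∉ A ∧ ∃ a ∈ A, G.Adj a v}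

/-- The vertex-isoperimetric constant of `G` is positive. -/
def Nonamenable {V : Type*} (G : SimpleGraph V) : Prop :=
  ∃ h : ℝ, 0 < h ∧ ∀ A : Finset V, A.Nonempty →
    h * (A.card : ℝ) ≤ ((vertexBoundary G (A : Set V)).ncard : ℝ)

/-- Bernoulli bond percolation: the law of the random set of open edges. -/
noncomputable def perc {V : Type*} (G : SimpleGraph V) (p : I) : Measure (Set (Sym2 V)) :=
  setBernoulli G.edgeSet p

/-- The number of infinite clusters of the configuration `ω`. -/
noncomputable def numInf {V : Type*} (ω : Set (Sym2 V)) : ℕ∞ :=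
  {C : (SimpleGraph.fromEdgeSet ω).ConnectedComponent | C.supp.Infinite}.encard

/-- The critical probability for existence of an infinite cluster. -/
noncomputable def pc {V : Type*} (G : SimpleGraph V) : I :=
  sInf {p : I | 0 < perc G p {ω | 1 ≤ numInf ω}}

/-- The uniqueness threshold. -/
noncomputable def pu {V : Type*} (G : SimpleGraph V) : I :=
  sInf {p : I | perc G p {ω | numInf ω = 1} = 1}

end Vale.Agent.P165
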