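import Mathlib
import Vale.Agent.P165.Stmt

/-!
Working definitions for the proof of `p_c < p_u`. Everything is `ℝ≥0∞`-valued.
-/

open scoped ENNReal

namespace Vale.Agent.P165

/-! ### Finite product expectations -/

open Classical in
/-- indicator of a proposition -/
noncomputable def ind (P : Prop) : ℝ≥0∞ := if P then 1 else 0

/-- probability that the random subset of `J` equals `ω` -/
noncomputable def wt {ι : Type*} [DecidableEq ι] (p : ι → ℝ≥0∞) (J ω : Finset ι) : ℝ≥0∞ :=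
  ∏ e ∈ J, if e ∈ ω then p e else 1 - p e

/-- expectation of `f` at the random subset of `J` holding each `e` independently with
probability `p e` -/
noncomputable def Ex {ι : Type*} [DecidableEq ι] (p : ι → ℝ≥0∞) (J : Finset ι)
    (f : Finset ι → ℝ≥0∞) : ℝ≥0∞ :=
  ∑ ω ∈ J.powerset, wt p J ω * f ω

/-- `f` depends only on the coordinates in `D` -/
def Dep {ι α : Type*} (D : Set ι) (f : Finset ι → α) : Prop :=
  ∀ ω ω' : Finset ι, (∀ e ∈ D, (e ∈ ω ↔ e ∈ ω')) → f ω = f ω'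

/-! ### Kernels -/

/-- nonnegative kernels -/
abbrev Ker (V : Type*) := V → V → ℝ≥0∞

section Kernels

variable {V : Type*}

/-- operator product -/
noncomputable def kmul (K L : Ker V) : Ker V := fun x z => ∑' y, K x y * L y z

/-- transpose -/
def ktr (K : Ker V) : Ker V := fun x y => K y x

/-- identity -/
noncomputable def kid : Ker V := fun x y => ind (x = y)

/-- operator power -/
noncomputable def kpow (K : Ker V) : ℕ → Ker V
  | 0 => kid
  | n + 1 => kmul K (kpow K n)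

/-- Green kernel `∑ K^n` -/
noncomputable def ksum (K : Ker V) : Ker V := fun x y => ∑' n, kpow K n x y

/-- the operator norm on `ℓ²` -/
noncomputable def nrm (K : Ker V) : ℝ≥0∞ :=
  ⨆ (f : V → ℝ≥0∞) (g : V → ℝ≥0∞) (_ : ∑' x, f x ^ 2 ≤ 1) (_ : ∑' y, g y ^ 2 ≤ 1),
    ∑' x, ∑' y, f x * K x y * g y

open Classical in
/-- probability that the chain `K` started at `x` visits `A` within `n` steps -/
noncomputable def hitN (K : Ker V) (A : Finset V) : ℕ → V → ℝ≥0∞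
  | 0 => fun x => ind (x ∈ A)
  | n + 1 => fun x => if x ∈ A then 1 else ∑' y, K x y * hitN K A n y

/-- `PiK π u f` is the total `π`-weight of the lists from `u` to `f` -/
noncomputable def PiK (π : List V → ℝ≥0∞) : Ker V :=
  fun u f => ∑' η : List V, ind (η.head? = some u ∧ η.getLast? = some f) * π η

/-- invariance under automorphisms -/
def KInv (G : SimpleGraph V) (K : Ker V) : Prop := ∀ (φ : G ≃g G) x y, K (φ x) (φ y) = K x y

end Kernels

/-! ### Geometry -/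

section Graph

variable {V : Type*} [DecidableEq V] (G : SimpleGraph V) [G.LocallyFinite]

/-- the ball of radius `L` -/
def ball (x : V) : ℕ → Finset V
  | 0 => {x}
  | L + 1 => ball x L ∪ (ball x L).biUnion (fun v => G.neighborFinset v)

/-- indicator kernel of distance at most `L` -/
noncomputable def ballK (L : ℕ) : Ker V := fun x y => ind (y ∈ ball G x L)

/-- lazy symmetric random walk for the degree bound `D` -/
noncomputable def Pk (D : ℕ) : Ker V := fun x y =>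
  ind (G.Adj x y) * (2 * (D : ℝ≥0∞))⁻¹ +
    ind (x = y) * (1 - (G.degree x : ℝ≥0∞) * (2 * (D : ℝ≥0∞))⁻¹)

/-- All geometric data: degree bound, orbit representatives, a `2n`-th root `τ` of the modular
function with the mass-transport principle, and the spectral gap. -/
structure Env where
  D : ℕ
  D_pos : 0 < D
  deg_le : ∀ x, G.degree x ≤ D
  reps : Finset V
  cover : ∀ x, ∃ a ∈ reps, ∃ φ : G ≃g G, φ a = x
  D0 : ℕ
  near : ∀ x y, ∃ φ : G ≃g G, φ y ∈ ball G x D0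
  exh : ∀ x y, ∃ L, y ∈ ball G x L
  n : ℕ
  n_ge : 12 ≤ n
  τ : V → V → ℝ≥0∞
  τ_self : ∀ x, τ x x = 1
  τ_mul : ∀ x y z, τ x y * τ y z = τ x z
  τ_inv : KInv G τ
  r : ℝ≥0∞
  one_le_r : 1 ≤ r
  r_ne_top : r ≠ ⊤
  τ_adj : ∀ x y, G.Adj x y → τ x y ≤ r
  mtp : ∀ F : V → V → ℝ≥0∞, KInv G F →
    ∑ a ∈ reps, ∑' y, F a y * τ a y ^ (2 * n) = ∑ b ∈ reps, ∑' x, F x b
  ρ : ℝ≥0∞
  ρ_ne_zero : ρ ≠ 0
  ρ_lt : ρ < 1
  hρ : r ^ 6 * nrm (Pk G D) ≤ ρ

namespace Env

variable {G} (E : Env G)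

/-- symmetric weight -/
noncomputable def w1 (x y : V) : ℝ≥0∞ := max (E.τ x y) (E.τ y x)

/-- weighted norm -/
noncomputable def nw (i : ℕ) (K : Ker V) : ℝ≥0∞ := nrm fun x y => K x y * E.w1 x y ^ i

/-- tilted kernel -/
noncomputable def tl (i : ℕ) (K : Ker V) : Ker V := fun x y => K x y * E.τ y x ^ i

/-- left test norm -/
noncomputable def Np (K : Ker V) : ℝ≥0∞ := max (nrm K) (nrm (E.tl (E.n - 1) K))

/-- right test norm -/
noncomputable def Nm (K : Ker V) : ℝ≥0∞ := max (nrm K) (nrm (E.tl (E.n + 1) K))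

/-- the trace size of `K` is at most `β` -/
def Tr (K : Ker V) (β : ℝ≥0∞) : Prop :=
  ∀ X Y : Ker V, KInv G X → KInv G Y → ∀ u,
    kmul (kmul X K) (ktr Y) u u ≤ β * E.Np X * E.Nm Y

/-- the walk -/
noncomputable def P : Ker V := Pk G E.D

/-- its Green kernel -/
noncomputable def H : Ker V := ksum E.P

/-- `1/(1-ρ)` -/
noncomputable def CH : ℝ≥0∞ := (1 - E.ρ)⁻¹

/-- probability that the walk from `x` ever visits `A` -/
noncomputable def hit (A : Finset V) (x : V) : ℝ≥0∞ := ⨆ n, hitN E.P A n x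

/-- escape probability -/
noncomputable def esc (A : Finset V) (x : V) : ℝ≥0∞ := 1 - E.hit A x

/-- the pattern measure: loop erasures of `k`-step walks, continued to the last exit from the
range of the walk -/
structure IsPat (k : ℕ) (π : List V → ℝ≥0∞) : Prop where
  supp : ∀ η, π η ≠ 0 → η.Nodup ∧ η.IsChain G.Adj ∧ 2 ≤ η.length ∧ η.length ≤ k + 2
  inv : ∀ (φ : G ≃g G) (η : List V), π (η.map φ) = π η
  ker_le : ∀ u f, PiK π u f ≤ kmul (kmul (kpow E.P k) E.H) E.P u f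
  mass : ∀ u, ∑' η : List V, ind (η.head? = some u) * π η ≤ E.CH ^ 2
  loop : ∀ (K : Ker V) (t : ℕ → ℝ≥0∞),
    (∀ i a, kmul (kmul (kmul (kpow E.P i) E.H) E.P) K a a ≤ t i) → ∀ u,
      ∑' η : List V, ind (η.head? = some u) * π η *
        ∑ z ∈ η.dropLast.toFinset, K (η.getLastD u) z ≤ ∑ i ∈ Finset.range (k + 1), t i
  esc : ∀ u (B : Finset V), ∑' x, E.P u x * E.esc B x ≤
    ∑' η : List V, ind (η.head? = some u ∧ ∀ v ∈ η.tail, v ∉ B) * π η *
      E.esc (B ∪ η.dropLast.toFinset) (η.getLastD u)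

/-- a soft window; exits from `u` seen from the root `y` are kept with probability `φ y u ^ 2` -/
structure IsWin (φ : Ker V) (φ₀ : ℝ≥0∞) : Prop where
  le_one : ∀ y u, φ y u ≤ 1
  inv : KInv G φ
  left : ∀ y z u, φ y u ≤ E.w1 y z ^ 2 * φ z u
  right : ∀ y u z, φ y u ≤ E.w1 u z ^ 2 * φ y z
  diag : ∀ y, φ y y = φ₀
  pos : φ₀ ≠ 0

end Env

/-! ### Configurations, marked paths -/

/-- `a b` is an edge of `G` lying in `ω` -/
def Op (ω : Finset (Sym2 V)) (a b : V) : Prop := G.Adj a b ∧ s(a, b) ∈ ω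

/-- `x` is joined to `v` by edges of `ω` inside `R` -/
def Conn (R : Finset V) (ω : Finset (Sym2 V)) (x v : V) : Prop :=
  x ∈ R ∧ Relation.ReflTransGen (fun a b => b ∈ R ∧ Op G ω a b) x v

/-- `x` is joined to the outside of `R` -/
def Out (R : Finset V) (ω : Finset (Sym2 V)) (x : V) : Prop :=
  ∃ u v, Conn G R ω x u ∧ v ∉ R ∧ Op G ω u v

/-- `e` joins two consecutive entries of `σ` -/
def InE (σ : List V) (e : Sym2 V) : Prop := ∃ a b, [a, b] <:+: σ ∧ e = s(a, b)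

/-- `v` is an interior entry of `σ` -/
def Inn (σ : List V) (v : V) : Prop := ∃ l₁ l₂, l₁ ≠ [] ∧ l₂ ≠ [] ∧ σ = l₁ ++ v :: l₂

/-- some edge of `ω` leaves `σ` at an interior vertex -/
def Side (ω : Finset (Sym2 V)) (σ : List V) : Prop :=
  ∃ v w, Inn σ v ∧ Op G ω v w ∧ ¬ InE σ s(v, w)

/-- `σ` is a path of `ω` with no side edge -/
def Tube (ω : Finset (Sym2 V)) (σ : List V) : Prop := σ.IsChain (Op G ω) ∧ ¬ Side G ω σ

/-- every marked subpath of `γ` has a side edge -/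
def Free (ω : Finset (Sym2 V)) (m : Finset (List V)) (γ : List V) : Prop :=
  ∀ σ, σ <:+: γ → 2 ≤ σ.length → (σ ∈ m ∨ σ.reverse ∈ m) → Side G ω σ

/-- `γ` is a free self-avoiding path of `ω` in `R` from `x` to `u` -/
def FPath (R : Finset V) (ω : Finset (Sym2 V)) (m : Finset (List V)) (x u : V) (γ : List V) :
    Prop :=
  γ.Nodup ∧ γ.IsChain (Op G ω) ∧ (∀ v ∈ γ, v ∈ R) ∧ γ.head? = some x ∧ γ.getLast? = some u ∧
    Free G ω m γ

open Classical in
/-- the explored set -/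
noncomputable def K0 (R : Finset V) (x : V) (ω : Finset (Sym2 V)) (m : Finset (List V)) :
    Finset V :=
  R.filter fun u => ∃ γ, FPath G R ω m x u γ

open Classical in
/-- the explored set with its frontier in `R` -/
noncomputable def Kp (R : Finset V) (x : V) (ω : Finset (Sym2 V)) (m : Finset (List V)) :
    Finset V :=
  R.filter fun v => v ∈ K0 G R x ω m ∨ ∃ a ∈ K0 G R x ω m, Op G ω a v

/-- edges of `G` meeting `R` -/
def EP (R : Finset V) : Finset (Sym2 V) := R.biUnion fun v => G.incidenceFinset v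

open Classical in
/-- the edges deciding `Tube` -/
noncomputable def Eta (η : List V) : Finset (Sym2 V) :=
  (EP G η.toFinset).filter fun e => InE η e ∨ ∃ v, Inn η v ∧ v ∈ e

/-- lists without repetition in `R` -/
noncomputable def LL (R : Finset V) : Finset (List V) :=
  R.powerset.biUnion fun s => s.toList.permutations.toFinset

open Classical in
/-- the marks not meeting `η` -/
noncomputable def mOff (η : List V) (m : Finset (List V)) : Finset (List V) :=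
  m.filter fun σ => ∀ v ∈ η, v ∉ σ

/-- `η` is a marked, retained tube leading out of the explored set -/
def IsExit (R : Finset V) (x : V) (ω : Finset (Sym2 V)) (m c : Finset (List V)) (η : List V) :
    Prop :=
  η ∈ m ∧ η ∈ c ∧ η.Nodup ∧ 2 ≤ η.length ∧ (∀ v ∈ η, v ∈ R) ∧ Tube G ω η ∧
    (∀ v ∈ η.dropLast, v ∈ K0 G R x ω m) ∧ (∀ f, η.getLast? = some f → f ∉ K0 G R x ω m) ∧
    x ∉ η.tail

open Classical in
/-- the exit points -/
noncomputable def Exits (R : Finset V) (x : V) (ω : Finset (Sym2 V)) (m c : Finset (List V)) :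
    Finset V :=
  R.filter fun f => ∃ η, IsExit G R x ω m c η ∧ η.getLast? = some f

/-! ### Percolation quantities -/

/-- two-point function in `R` -/
noncomputable def tc (p : ℝ≥0∞) (R : Finset V) : Ker V :=
  fun x v => Ex (fun _ => p) (EP G R) fun ω => ind (Conn G R ω x v)

/-- two-point function -/
noncomputable def TT (p : ℝ≥0∞) : Ker V := fun x v => ⨆ R : Finset V, tc G p R x v

/-- finite susceptibility -/
def Good (p : ℝ≥0∞) : Prop := p ≤ 1 ∧ ∀ x, ∑' v, TT G p x v ≠ ⊤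

open Classical in
/-- expected number of vertices of `R` joined to `L` inside `R` -/
noncomputable def psi (p : ℝ≥0∞) (R L : Finset V) : ℝ≥0∞ :=
  Ex (fun _ => p) (EP G R) fun ω => ((R.filter fun v => ∃ y ∈ L, Conn G R ω y v).card : ℝ≥0∞)

/-- expected number of vertices joined to `L` off `A` -/
noncomputable def Psi (p : ℝ≥0∞) (A L : Finset V) : ℝ≥0∞ := ⨆ W : Finset V, psi G p (W \ A) L

/-- probability of a tube -/
noncomputable def wR (q : ℝ≥0∞) (η : List V) : ℝ≥0∞ :=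
  Ex (fun _ => q) (Eta G η) fun ω => ind (Tube G ω η)

/-- expectation over edges and marks -/
noncomputable def E2 (q : ℝ≥0∞) (a : List V → ℝ≥0∞) (W : Finset V)
    (f : Finset (Sym2 V) → Finset (List V) → ℝ≥0∞) : ℝ≥0∞ :=
  Ex (fun _ => q) (EP G W) fun ω => Ex a (LL W) fun m => f ω m

/-- marked two-point function in `R` -/
noncomputable def t0 (q : ℝ≥0∞) (a : List V → ℝ≥0∞) (R : Finset V) : Ker V :=
  fun x u => E2 G q a R fun ω m => ind (u ∈ K0 G R x ω m)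

/-- marked two-point function -/
noncomputable def T0 (q : ℝ≥0∞) (a : List V → ℝ≥0∞) : Ker V :=
  fun x u => ⨆ R : Finset V, t0 G q a R x u

/-- weighted size of the explored set -/
noncomputable def nn (q : ℝ≥0∞) (a : List V → ℝ≥0∞) (φ : Ker V) (R : Finset V) (y : V) : ℝ≥0∞ :=
  E2 G q a R fun ω m => ∑ u ∈ K0 G R y ω m, φ y u ^ 2

/-- expectation over edges, marks and retention coins -/
noncomputable def E3 (q : ℝ≥0∞) (a : List V → ℝ≥0∞) (φ : Ker V) (R : Finset V) (y : V)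
    (f : Finset (Sym2 V) → Finset (List V) → Finset (List V) → ℝ≥0∞) : ℝ≥0∞ :=
  E2 G q a R fun ω m => Ex (fun η => φ y (η.headD y) ^ 2) (LL R) fun c => f ω m c

/-- law of (explored set, exits) of one stage -/
noncomputable def KK (q : ℝ≥0∞) (a : List V → ℝ≥0∞) (φ : Ker V) (R : Finset V) (y : V)
    (f : Finset V → Finset V → ℝ≥0∞) : ℝ≥0∞ :=
  E3 G q a φ R y fun ω m c => f (K0 G R y ω m) (Exits G R y ω m c)

/-- the mark intensities `a = cst * π / wR` -/
structure IsMark (q : ℝ≥0∞) (k : ℕ) (π a : List V → ℝ≥0∞) (s cst ε₁ : ℝ≥0∞) : Prop where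
  le_one : ∀ η, a η ≤ 1
  inv : ∀ (φ : G ≃g G) (η : List V), a (η.map φ) = a η
  mul_w : ∀ η, a η * wR G q η = cst * π η
  le_s : ∀ η, a η ≤ s * π η
  sparse : ∀ v, ((k : ℝ≥0∞) + 2) * ∑' η : List V, ind (v ∈ η) * a η ≤ ε₁

end Graph

/-! ### The potential and the schedule -/

section Pot

variable {V : Type*} [DecidableEq V]

/-- the potential inequality -/
def CC (Ψ : Finset V → Finset V → ℝ≥0∞) (hit : Finset V → V → ℝ≥0∞) (x : Ker V × Ker V)
    (m : ℝ≥0∞) : Prop :=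
  ∀ A L : Finset V, m * L.card ≤ Ψ A L +
    m * (∑ y ∈ L, (hit A y + ∑ z ∈ A, x.1 y z) + ∑ y ∈ L, ∑ y' ∈ L.erase y, x.2 y y')

/-- a one-root stage -/
structure StageK (Ψ : Finset V → Finset V → ℝ≥0∞) (Tt Φ : Ker V) (A : Finset V) (y : V)
    (K : (Finset V → Finset V → ℝ≥0∞) → ℝ≥0∞) : Prop where
  mono : ∀ f g, (∀ S F, f S F ≤ g S F) → K f ≤ K g
  add : ∀ f g, K (fun S F => f S F + g S F) = K f + K g
  smul : ∀ c f, K (fun S F => c * f S F) = c * K f
  const : ∀ c, K (fun _ _ => c) = c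
  psi : ∀ L, K (fun S F => Ψ (A ∪ S) (L ∪ F)) ≤ Ψ A (insert y L)
  hS : ∀ g : V → ℝ≥0∞, K (fun S _ => ∑ z ∈ S, g z) ≤ ∑' z, Tt y z * g z
  hF : ∀ g : V → ℝ≥0∞, K (fun _ F => ∑ f ∈ F, g f) ≤ ∑' f, Φ y f * g f
  fin : K (fun _ F => (F.card : ℝ≥0∞)) ≠ ⊤

/-- validity of a stage against the future `x` -/
def Valid (hit : Finset V → V → ℝ≥0∞) (Hs : Ker V) (μ : ℝ≥0∞) (x : Ker V × Ker V)
    (A : Finset V) (y : V) (K : (Finset V → Finset V → ℝ≥0∞) → ℝ≥0∞) : Prop :=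
  μ + K (fun S F => ∑ f ∈ F, (hit (A ∪ S) f + ∑ z ∈ S, x.1 f z) +
      ∑ f ∈ F, ∑ f' ∈ F.erase f, x.2 f f') ≤
    K (fun _ F => (F.card : ℝ≥0∞)) + μ * (hit A y + ∑ z ∈ A, Hs y z)

/-- the transformation of the error kernels by a stage -/
noncomputable def stepOp (H Hs Tt Φ : Ker V) (μ : ℝ≥0∞) (x : Ker V × Ker V) : Ker V × Ker V :=
  (Hs + μ⁻¹ • kmul Φ x.1,
    kmul (H + (Hs + μ⁻¹ • kmul Φ x.1)) (ktr Tt) + μ⁻¹ • kmul (kmul Φ H) (ktr Tt) +
      μ⁻¹ • kmul (kmul Φ (x.2 + kid)) (ktr Φ))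

/-- cap the pair kernel at `1`, then thin by `t` -/
noncomputable def capThin (t : ℝ≥0∞) (x : Ker V × Ker V) : Ker V × Ker V :=
  (x.1, fun y z => t * min 1 (x.2 y z))

end Pot

/-- size profile of a pair of error kernels -/
structure Prof where
  a : ℝ≥0∞
  b : ℝ≥0∞
  a' : ℝ≥0∞
  b' : ℝ≥0∞
  s : ℝ≥0∞

/-- the action of a stage on profiles -/
noncomputable def Lam (B B' γ ϑ : ℝ≥0∞) (v : Prof) : Prof :=
  ⟨B + γ * v.a, v.b, B + B * v.a + γ * v.a', B' * v.b + ϑ * v.b', ϑ * v.s⟩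

/-- decomposition of a pair of error kernels according to a profile -/
def Env.Dec {V : Type*} [DecidableEq V] {G : SimpleGraph V} [G.LocallyFinite] (E : Env G)
    (x : Ker V × Ker V) (v : Prof) : Prop :=
  ∃ Ga Gb Ua Ub Uc : Ker V, x.1 ≤ Ga + Gb ∧ x.2 ≤ Ua + Ub + Uc ∧ E.nw 2 Ga ≤ v.a ∧
    E.Tr Gb v.b ∧ E.nw 2 Ua ≤ v.a' ∧ E.Tr Ub v.b' ∧ ∀ y z, Uc y z ≤ v.s

/-- The family of pieces: for each `η` there is `C` such that for arbitrarily large `M` and all
large `k` there is a stage with gain `M c^k / C`, spread `C ρ^k` and size `C M²`. -/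
def PieceFamily {X : Type*} (good : ℝ≥0∞ → Prop) (Dec : X → Prof → Prop)
    (TrG : X → ℝ≥0∞ → Prop) (C : ℝ≥0∞ → X → ℝ≥0∞ → Prop) (c ρ ϱ ε₀ ε : ℝ≥0∞) : Prop :=
  ∀ η : ℝ≥0∞, η ≠ 0 → ∃ K : ℝ≥0∞, 1 ≤ K ∧ K ≠ ⊤ ∧ ∀ M₀ : ℝ≥0∞, M₀ ≠ ⊤ →
    ∃ M q : ℝ≥0∞, M₀ ≤ M ∧ M ≠ ⊤ ∧ good q ∧ ∀ k : ℕ, K ≤ k → M * (c * ρ) ^ k * K ≤ 1 →
      ∃ (op : X → X) (μ ηp B' ϑ : ℝ≥0∞), ηp ≠ 0 ∧ M * c ^ k ≤ K * μ ∧ μ ≠ ⊤ ∧ B' ≠ ⊤ ∧
        ϑ ≤ K * ϱ ^ k * μ ∧
        (∀ x v, Dec x v → Dec (op x) (Lam (K * M ^ 2) B' (K * ρ ^ k) ϑ v)) ∧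
        (∀ x, TrG x ε₀ → TrG (op x) η) ∧
        ∀ p x v m, good p → q ≤ p → m ≠ ⊤ → TrG x ε₀ → Dec x v → ρ ^ k * v.a ≤ ε →
          ρ ^ k * v.a' ≤ ε → v.b ≤ ηp → v.b' ≤ ηp → v.s ≤ ηp → C p x m → C p (op x) (μ * m)

end Vale.Agent.P165
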