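import Mathlib
import Vale.Agent.P165.Defs

/-!
Basic calculus of `ind`, `Ex` and `Dep`. (A real-valued version with the same proofs is in
`Vale/Agent/P151/Ex.lean`.) Almost everything follows by induction on `J` from `Ex_insert`.
-/

open scoped ENNReal

namespace Vale.Agent.P165

theorem ind_pos {P : Prop} (h : P) : ind P = 1 := by simp [ind, h]
theorem ind_neg {P : Prop} (h : ¬ P) : ind P = 0 := by simp [ind, h]
theorem ind_le_one (P : Prop) : ind P ≤ 1 := by unfold ind; split_ifs <;> simp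
theorem ind_ne_top (P : Prop) : ind P ≠ ⊤ := by unfold ind; split_ifs <;> simp
theorem ind_mono {P Q : Prop} (h : P → Q) : ind P ≤ ind Q := by
  by_cases hP : P
  · rw [ind_pos hP, ind_pos (h hP)]
  · rw [ind_neg hP]; exact zero_le
theorem ind_congr {P Q : Prop} (h : P ↔ Q) : ind P = ind Q := by rw [propext h]
theorem ind_and (P Q : Prop) : ind (P ∧ Q) = ind P * ind Q := by
  by_cases hP : P <;> by_cases hQ : Q <;> simp [ind, hP, hQ]
theorem ind_or_le (P Q : Prop) : ind (P ∨ Q) ≤ ind P + ind Q := by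
  by_cases hP : P <;> by_cases hQ : Q <;> simp [ind, hP, hQ]
theorem ind_add_not (P : Prop) : ind P + ind (¬ P) = 1 := by
  by_cases hP : P <;> simp [ind, hP]
theorem ind_mul_le (P : Prop) (c : ℝ≥0∞) : ind P * c ≤ c := by
  by_cases hP : P <;> simp [ind, hP]

theorem ind_exists_le {α : Type*} (s : Finset α) (P : α → Prop) :
    ind (∃ a ∈ s, P a) ≤ ∑ a ∈ s, ind (P a) := by
  by_cases h : ∃ a ∈ s, P a
  · obtain ⟨i, hi, hP⟩ := h
    calc ind (∃ i ∈ s, P i) ≤ 1 := ind_le_one _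
      _ = ind (P i) := (ind_pos hP).symm
      _ ≤ _ := Finset.single_le_sum (f := fun i => ind (P i)) (fun _ _ => zero_le) hi
  · rw [ind_neg h]; exact zero_le

theorem ind_exists_le_tsum {α : Type*} (P : α → Prop) : ind (∃ a, P a) ≤ ∑' a, ind (P a) := by
  by_cases h : ∃ a, P a
  · obtain ⟨i, hP⟩ := h
    calc ind (∃ i, P i) ≤ 1 := ind_le_one _
      _ = ind (P i) := (ind_pos hP).symm
      _ ≤ _ := ENNReal.le_tsum (f := fun i => ind (P i)) i
  · rw [ind_neg h]; exact zero_le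

theorem sum_eq_tsum_ind {α : Type*} (s : Finset α) (g : α → ℝ≥0∞) :
    ∑ a ∈ s, g a = ∑' a, ind (a ∈ s) * g a := by
  rw [tsum_eq_sum (s := s) fun a ha => by rw [ind_neg ha, zero_mul]]
  exact Finset.sum_congr rfl fun a ha => by rw [ind_pos ha, one_mul]

theorem tsum_ind_eq {α : Type*} (b : α) (g : α → ℝ≥0∞) : ∑' a, ind (b = a) * g a = g b := by
  rw [tsum_eq_single b fun a ha => by rw [ind_neg (Ne.symm ha), zero_mul], ind_pos rfl, one_mul]

theorem tsum_ind_eq' {α : Type*} (b : α) (g : α → ℝ≥0∞) : ∑' a, g a * ind (a = b) = g b := by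
  rw [tsum_eq_single b fun a ha => by rw [ind_neg ha, mul_zero], ind_pos rfl, mul_one]

/-- monotone convergence for directed families -/
theorem tsum_iSup_dir {α κ : Type*} (f : κ → α → ℝ≥0∞)
    (hf : ∀ i j, ∃ k, ∀ a, f i a ≤ f k a ∧ f j a ≤ f k a) :
    ∑' a, ⨆ i, f i a = ⨆ i, ∑' a, f i a := by
  simp only [ENNReal.tsum_eq_iSup_sum]
  rw [iSup_comm]
  exact iSup_congr fun s => ENNReal.finsetSum_iSup (f := fun a i => f i a) hf

/-- `1 ≤ ∏ (1 - p) + ∑ p` -/
theorem one_le_prod_add_sum {α : Type*} (t : Finset α) (p : α → ℝ≥0∞) :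
    1 ≤ ∏ e ∈ t, (1 - p e) + ∑ e ∈ t, p e := by
  classical
  induction t using Finset.induction_on with
  | empty => simp
  | insert e t he ih =>
    rw [Finset.prod_insert he, Finset.sum_insert he, ← add_assoc]
    refine ih.trans (add_le_add ?_ le_rfl)
    have h1 : ∏ e ∈ t, (1 - p e) ≤ 1 := Finset.prod_le_one' fun _ _ => tsub_le_self
    calc ∏ e ∈ t, (1 - p e) = 1 * ∏ e ∈ t, (1 - p e) := (one_mul _).symm
      _ ≤ ((1 - p e) + p e) * ∏ e ∈ t, (1 - p e) := mul_le_mul_left le_tsub_add _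
      _ = (1 - p e) * ∏ e ∈ t, (1 - p e) + p e * ∏ e ∈ t, (1 - p e) := add_mul _ _ _
      _ ≤ _ := add_le_add le_rfl (mul_le_of_le_one_right' h1)

/-- one percolation parameter is another one plus sprinkling -/
theorem exists_sprinkle {q p : ℝ≥0∞} (hqp : q ≤ p) (hp : p ≤ 1) :
    ∃ δ, δ ≤ 1 ∧ p = q + (1 - q) * δ := by
  by_cases h : 1 - q = 0
  · have h1 : 1 ≤ q := tsub_eq_zero_iff_le.1 h
    exact ⟨0, zero_le, by rw [mul_zero, add_zero]; exact le_antisymm (hp.trans h1) hqp⟩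
  · have h2 : 1 - q ≠ ⊤ := ne_top_of_le_ne_top ENNReal.one_ne_top tsub_le_self
    refine ⟨(p - q) / (1 - q), ENNReal.div_le_of_le_mul ?_, ?_⟩
    · rw [one_mul]; exact tsub_le_tsub_right hp q
    · rw [ENNReal.mul_div_cancel h h2, add_tsub_cancel_of_le hqp]

variable {ι : Type*} [DecidableEq ι] {p : ι → ℝ≥0∞} {J : Finset ι} {f g : Finset ι → ℝ≥0∞}

theorem Ex_empty (p : ι → ℝ≥0∞) (f : Finset ι → ℝ≥0∞) : Ex p ∅ f = f ∅ := by simp [Ex, wt]

theorem Ex_insert {e : ι} (he : e ∉ J) (p : ι → ℝ≥0∞) (f : Finset ι → ℝ≥0∞) :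
    Ex p (insert e J) f = (1 - p e) * Ex p J f + p e * Ex p J (fun ω => f (insert e ω)) := by
  simp only [Ex, Finset.sum_powerset_insert he, Finset.mul_sum]
  congr 1
  · refine Finset.sum_congr rfl fun ω hω => ?_
    have : e ∉ ω := fun h => he (Finset.mem_powerset.1 hω h)
    rw [wt, Finset.prod_insert he, if_neg this, wt, mul_assoc]
  · refine Finset.sum_congr rfl fun ω hω => ?_
    rw [wt, Finset.prod_insert he, if_pos (Finset.mem_insert_self _ _), wt, mul_assoc]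
    congr 2
    refine Finset.prod_congr rfl fun e' he' => ?_
    have : e' ≠ e := fun h => he (h ▸ he')
    simp [this]

theorem Ex_mono (h : ∀ ω, ω ⊆ J → f ω ≤ g ω) : Ex p J f ≤ Ex p J g :=
  Finset.sum_le_sum fun ω hω => mul_le_mul_right (h ω (Finset.mem_powerset.1 hω)) _

theorem Ex_congr (h : ∀ ω, ω ⊆ J → f ω = g ω) : Ex p J f = Ex p J g :=
  Finset.sum_congr rfl fun ω hω => by rw [h ω (Finset.mem_powerset.1 hω)]

theorem Ex_congr_p {p' : ι → ℝ≥0∞} (h : ∀ e ∈ J, p e = p' e) (f : Finset ι → ℝ≥0∞) :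
    Ex p J f = Ex p' J f :=
  Finset.sum_congr rfl fun ω _ => by
    congr 1
    exact Finset.prod_congr rfl fun e he => by rw [h e he]

theorem Ex_add (p : ι → ℝ≥0∞) (J : Finset ι) (f g : Finset ι → ℝ≥0∞) :
    Ex p J (fun ω => f ω + g ω) = Ex p J f + Ex p J g := by
  simp only [Ex, mul_add, Finset.sum_add_distrib]

theorem Ex_mul_left (p : ι → ℝ≥0∞) (J : Finset ι) (c : ℝ≥0∞) (f : Finset ι → ℝ≥0∞) :
    Ex p J (fun ω => c * f ω) = c * Ex p J f := by
  simp only [Ex, Finset.mul_sum]; exact Finset.sum_congr rfl fun _ _ => by ring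

theorem Ex_mul_right (p : ι → ℝ≥0∞) (J : Finset ι) (c : ℝ≥0∞) (f : Finset ι → ℝ≥0∞) :
    Ex p J (fun ω => f ω * c) = Ex p J f * c := by
  simp only [Ex, Finset.sum_mul]; exact Finset.sum_congr rfl fun _ _ => by ring

theorem Ex_sum {κ : Type*} (s : Finset κ) (p : ι → ℝ≥0∞) (J : Finset ι)
    (f : κ → Finset ι → ℝ≥0∞) :
    Ex p J (fun ω => ∑ i ∈ s, f i ω) = ∑ i ∈ s, Ex p J (f i) := by
  simp only [Ex, Finset.mul_sum]; exact Finset.sum_comm

theorem Ex_tsum {κ : Type*} (p : ι → ℝ≥0∞) (J : Finset ι) (f : κ → Finset ι → ℝ≥0∞) :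
    Ex p J (fun ω => ∑' i, f i ω) = ∑' i, Ex p J (f i) := by
  simp only [Ex, ← ENNReal.tsum_mul_left]
  exact (Summable.tsum_finsetSum fun _ _ => ENNReal.summable).symm

theorem Ex_zero (p : ι → ℝ≥0∞) (J : Finset ι) : Ex p J (fun _ => 0) = 0 := by simp [Ex]

theorem Ex_const (hp : ∀ e, p e ≤ 1) (J : Finset ι) (c : ℝ≥0∞) : Ex p J (fun _ => c) = c := by
  induction J using Finset.induction_on with
  | empty => exact Ex_empty _ _
  | insert e J he ih => rw [Ex_insert he, ih, ← add_mul, tsub_add_cancel_of_le (hp e), one_mul]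

theorem Ex_le_const (hp : ∀ e, p e ≤ 1) {c : ℝ≥0∞} (h : ∀ ω, ω ⊆ J → f ω ≤ c) :
    Ex p J f ≤ c := (Ex_mono h).trans (Ex_const hp J c).le

theorem const_le_Ex (hp : ∀ e, p e ≤ 1) {c : ℝ≥0∞} (h : ∀ ω, ω ⊆ J → c ≤ f ω) :
    c ≤ Ex p J f := (Ex_const hp J c).ge.trans (Ex_mono h)

theorem Ex_ne_top (hp : ∀ e, p e ≤ 1) (h : ∀ ω, ω ⊆ J → f ω ≠ ⊤) : Ex p J f ≠ ⊤ := by
  refine ENNReal.sum_ne_top.2 fun ω hω => ENNReal.mul_ne_top ?_ (h ω (Finset.mem_powerset.1 hω))
  refine ne_top_of_le_ne_top ENNReal.one_ne_top (Finset.prod_le_one' fun e _ => ?_)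
  split_ifs
  · exact hp e
  · exact tsub_le_self

theorem Ex_comm {κ : Type*} [DecidableEq κ] (p : ι → ℝ≥0∞) (J : Finset ι) (p' : κ → ℝ≥0∞)
    (J' : Finset κ) (f : Finset ι → Finset κ → ℝ≥0∞) :
    Ex p J (fun ω => Ex p' J' (fun σ => f ω σ)) = Ex p' J' (fun σ => Ex p J (fun ω => f ω σ)) := by
  simp only [Ex, Finset.mul_sum]
  rw [Finset.sum_comm]
  exact Finset.sum_congr rfl fun _ _ => Finset.sum_congr rfl fun _ _ => by ring

/-- `ENNReal.finsetSum_iSup` -/
theorem Ex_iSup {κ : Type*} (p : ι → ℝ≥0∞) (J : Finset ι) (f : κ → Finset ι → ℝ≥0∞)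
    (hf : ∀ i j, ∃ k, ∀ ω, f i ω ≤ f k ω ∧ f j ω ≤ f k ω) :
    Ex p J (fun ω => ⨆ i, f i ω) = ⨆ i, Ex p J (f i) := by
  simp only [Ex, ENNReal.mul_iSup]
  refine ENNReal.finsetSum_iSup (f := fun ω i => wt p J ω * f i ω) fun i j => ?_
  obtain ⟨k, hk⟩ := hf i j
  exact ⟨k, fun ω => ⟨mul_le_mul_right (hk ω).1 _, mul_le_mul_right (hk ω).2 _⟩⟩

omit [DecidableEq ι] in
theorem ex_dep_congr {D : Set ι} {α : Type*} {f : Finset ι → α} (hf : Dep D f) {ω ω' : Finset ι}
    (h : ∀ e ∈ D, (e ∈ ω ↔ e ∈ ω')) : f ω = f ω' := hf ω ω' h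

theorem ex_dep_insert {D : Set ι} {α : Type*} {f : Finset ι → α} (hf : Dep D f) (e : ι) :
    Dep D fun ω => f (insert e ω) := fun ω ω' h =>
  hf _ _ fun x hx => by simp only [Finset.mem_insert, h x hx]

theorem ex_dep_off {D : Set ι} {α : Type*} {f : Finset ι → α} (hf : Dep D f) {e : ι}
    (he : e ∉ D) : (fun ω => f (insert e ω)) = f := funext fun ω =>
  hf _ _ fun x hx => by
    have : x ≠ e := fun h => he (h ▸ hx)
    simp only [Finset.mem_insert, this, false_or]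

theorem ex_insert_off (hp : ∀ e, p e ≤ 1) {D : Set ι} (hf : Dep D f) {e : ι} (hD : e ∉ D)
    (he : e ∉ J) : Ex p (insert e J) f = Ex p J f := by
  rw [Ex_insert he, ex_dep_off hf hD, ← add_mul, tsub_add_cancel_of_le (hp e), one_mul]

theorem ex_filter (hp : ∀ e, p e ≤ 1) {D : Set ι} [DecidablePred (· ∈ D)] (hf : Dep D f)
    (J : Finset ι) : Ex p J f = Ex p (J.filter (· ∈ D)) f := by
  induction J using Finset.induction_on generalizing f with
  | empty => rfl
  | insert e J he ih =>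
    rw [Finset.filter_insert]
    split_ifs with hD
    · rw [Ex_insert he, Ex_insert fun h => he (Finset.mem_filter.1 h).1, ih hf,
        ih (ex_dep_insert hf e)]
    · rw [ex_insert_off hp hf hD he, ih hf]

/-- coordinates on which `f` does not depend can be added or removed -/
theorem Ex_ext (hp : ∀ e, p e ≤ 1) {D : Set ι} (hf : Dep D f) {J' : Finset ι}
    (h : ∀ e ∈ D, (e ∈ J ↔ e ∈ J')) : Ex p J f = Ex p J' f := by
  classical
  rw [ex_filter hp hf J, ex_filter hp hf J']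
  congr 1
  ext e
  simp only [Finset.mem_filter]
  exact ⟨fun h1 => ⟨(h e h1.2).1 h1.1, h1.2⟩, fun h1 => ⟨(h e h1.2).2 h1.1, h1.2⟩⟩

theorem Ex_indep (hp : ∀ e, p e ≤ 1) {D : Set ι} (hf : Dep D f) (hg : Dep Dᶜ g) :
    Ex p J (fun ω => f ω * g ω) = Ex p J f * Ex p J g := by
  induction J using Finset.induction_on generalizing f g with
  | empty => simp only [Ex_empty]
  | insert e J he ih =>
    rw [Ex_insert he, ih hf hg, ih (ex_dep_insert hf e) (ex_dep_insert hg e)]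
    by_cases hD : e ∈ D
    · rw [ex_insert_off hp hg (fun h => h hD) he, Ex_insert he,
        ex_dep_off hg (e := e) fun h => h hD]
      ring
    · rw [ex_insert_off hp hf hD he, Ex_insert he, ex_dep_off hf hD]
      ring

theorem Ex_mem (hp : ∀ e, p e ≤ 1) {e : ι} (he : e ∈ J) (f : Finset ι → ℝ≥0∞) :
    Ex p J (fun ω => ind (e ∈ ω) * f ω) = p e * Ex p J (fun ω => f (insert e ω)) := by
  have he' := Finset.notMem_erase e J
  rw [← Finset.insert_erase he, Ex_insert he', Ex_insert he']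
  have h1 : Ex p (J.erase e) (fun ω => ind (e ∈ ω) * f ω) = 0 := by
    rw [← Ex_zero p (J.erase e)]
    exact Ex_congr fun ω hω => by rw [ind_neg fun h => he' (hω h), zero_mul]
  simp only [h1, mul_zero, zero_add, Finset.insert_idem, ind_pos (Finset.mem_insert_self e _),
    one_mul]
  rw [← add_mul, tsub_add_cancel_of_le (hp e), one_mul]

theorem Ex_notMem (hp : ∀ e, p e ≤ 1) {e : ι} (he : e ∈ J) (f : Finset ι → ℝ≥0∞) :
    Ex p J (fun ω => ind (e ∉ ω) * f ω) = (1 - p e) * Ex p J (fun ω => f (ω.erase e)) := by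
  have he' := Finset.notMem_erase e J
  rw [← Finset.insert_erase he, Ex_insert he', Ex_insert he']
  have h1 : Ex p (J.erase e) (fun ω => ind (e ∉ ω) * f ω)
      = Ex p (J.erase e) (fun ω => f (ω.erase e)) :=
    Ex_congr fun ω hω => by
      have : e ∉ ω := fun h => he' (hω h)
      rw [ind_pos this, one_mul, Finset.erase_eq_of_notMem this]
  have h2 : ∀ ω : Finset ι, ind (e ∉ insert e ω) = 0 := fun ω =>
    ind_neg fun h => h (Finset.mem_insert_self e ω)
  simp only [h1, h2, zero_mul, Ex_zero, mul_zero, add_zero, Finset.erase_insert_eq_erase]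
  rw [← add_mul, tsub_add_cancel_of_le (hp e), one_mul]

/-- prescribing the configuration on `t` -/
theorem Ex_cyl (hp : ∀ e, p e ≤ 1) {s t : Finset ι} (hs : s ⊆ t) (ht : t ⊆ J)
    (f : Finset ι → ℝ≥0∞) :
    Ex p J (fun ω => ind (ω ∩ t = s) * f ω) = wt p t s * Ex p J (fun ω => f (ω \ t ∪ s)) := by
  have h1 : Ex p J (fun ω => ind (ω ∩ t = s) * f ω)
      = Ex p J (fun ω => ind (ω ∩ t = s) * f (ω \ t ∪ s)) := by
    refine Ex_congr fun ω _ => ?_
    by_cases h : ω ∩ t = s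
    · rw [← h, Finset.sdiff_union_inter]
    · rw [ind_neg h, zero_mul, zero_mul]
  have d1 : Dep (↑t : Set ι) (fun ω : Finset ι => ind (ω ∩ t = s)) := by
    intro ω ω' h
    have : ω ∩ t = ω' ∩ t := by
      ext e
      simp only [Finset.mem_inter]
      exact ⟨fun h1 => ⟨(h e h1.2).1 h1.1, h1.2⟩, fun h1 => ⟨(h e h1.2).2 h1.1, h1.2⟩⟩
    simp only [this]
  have d2 : Dep (↑t : Set ι)ᶜ (fun ω : Finset ι => f (ω \ t ∪ s)) := by
    intro ω ω' h
    have : ω \ t = ω' \ t := by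
      ext e
      simp only [Finset.mem_sdiff]
      exact ⟨fun h1 => ⟨(h e h1.2).1 h1.1, h1.2⟩, fun h1 => ⟨(h e h1.2).2 h1.1, h1.2⟩⟩
    simp only [this]
  rw [h1, Ex_indep hp d1 d2, Ex_ext hp d1 (J' := t) fun e he => ⟨fun _ => he, fun _ => ht he⟩]
  congr 1
  rw [Ex, Finset.sum_eq_single s]
  · rw [ind_pos (Finset.inter_eq_left.2 hs), mul_one]
  · intro ω hω hne
    rw [ind_neg, mul_zero]
    rwa [Finset.inter_eq_left.2 (Finset.mem_powerset.1 hω)]
  · intro h
    exact absurd (Finset.mem_powerset.2 hs) h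

theorem Ex_none (hp : ∀ e, p e ≤ 1) {t : Finset ι} (ht : t ⊆ J) (f : Finset ι → ℝ≥0∞) :
    Ex p J (fun ω => ind (Disjoint ω t) * f ω) =
      (∏ e ∈ t, (1 - p e)) * Ex p J (fun ω => f (ω \ t)) := by
  have h := Ex_cyl hp (Finset.empty_subset t) ht f
  simp only [← Finset.disjoint_iff_inter_eq_empty, Finset.union_empty, wt, Finset.notMem_empty,
    if_false] at h
  exact h

/-- reindexing -/
theorem Ex_image {κ : Type*} [DecidableEq κ] {φ : κ → ι} (hφ : Function.Injective φ)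
    (p : ι → ℝ≥0∞) (J : Finset κ) (f : Finset ι → ℝ≥0∞) :
    Ex p (J.image φ) f = Ex (fun e => p (φ e)) J (fun ω => f (ω.image φ)) := by
  induction J using Finset.induction_on generalizing f with
  | empty => simp only [Finset.image_empty, Ex_empty]
  | insert e J he ih =>
    have h2 : φ e ∉ J.image φ := by
      simp only [Finset.mem_image, not_exists, not_and]
      intro x hx h; exact he (hφ h ▸ hx)
    rw [Finset.image_insert, Ex_insert h2, Ex_insert he, ih, ih]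
    simp only [Finset.image_insert]

theorem wt_mul_le_Ex {ω : Finset ι} (hω : ω ⊆ J) (p : ι → ℝ≥0∞) (f : Finset ι → ℝ≥0∞) :
    wt p J ω * f ω ≤ Ex p J f :=
  Finset.single_le_sum (f := fun ω => wt p J ω * f ω) (fun _ _ => zero_le)
    (Finset.mem_powerset.2 hω)

end Vale.Agent.P165
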