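import Mathlib
import Vale.Agent.P165.Ex

/-!
Algebra of nonnegative kernels, invariance.
-/

open scoped ENNReal

namespace Vale.Agent.P165

variable {V : Type*}

theorem kmul_assoc (K L M : Ker V) : kmul (kmul K L) M = kmul K (kmul L M) := by
  funext x w
  simp only [kmul, ← ENNReal.tsum_mul_right, ← ENNReal.tsum_mul_left, mul_assoc]
  exact ENNReal.tsum_comm
theorem kmul_kid (K : Ker V) : kmul K kid = K :=
  funext fun x => funext fun z => tsum_ind_eq' z (K x)
theorem kid_kmul (K : Ker V) : kmul kid K = K :=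
  funext fun x => funext fun z => tsum_ind_eq x fun y => K y z
theorem kmul_add (K L M : Ker V) : kmul K (L + M) = kmul K L + kmul K M := by
  funext x w
  simp only [kmul, Pi.add_apply, mul_add, ENNReal.tsum_add]
theorem add_kmul (K L M : Ker V) : kmul (K + L) M = kmul K M + kmul L M := by
  funext x w
  simp only [kmul, Pi.add_apply, add_mul, ENNReal.tsum_add]
theorem kmul_smul (c : ℝ≥0∞) (K L : Ker V) : kmul K (c • L) = c • kmul K L := by
  funext x w
  simp only [kmul, Pi.smul_apply, smul_eq_mul, ← ENNReal.tsum_mul_left, mul_left_comm]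
theorem smul_kmul (c : ℝ≥0∞) (K L : Ker V) : kmul (c • K) L = c • kmul K L := by
  funext x w
  simp only [kmul, Pi.smul_apply, smul_eq_mul, ← ENNReal.tsum_mul_left, mul_assoc]
theorem kmul_mono {K K' L L' : Ker V} (h : K ≤ K') (h' : L ≤ L') : kmul K L ≤ kmul K' L' :=
  fun x z => ENNReal.tsum_le_tsum fun y => mul_le_mul' (h x y) (h' y z)
theorem kmul_zero (K : Ker V) : kmul K 0 = 0 := by
  funext x w
  simp [kmul]
theorem zero_kmul (K : Ker V) : kmul 0 K = 0 := by
  funext x w
  simp [kmul]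
theorem ktr_kmul (K L : Ker V) : ktr (kmul K L) = kmul (ktr L) (ktr K) := by
  funext x w
  simp only [kmul, ktr, mul_comm]
theorem ktr_kid : ktr (kid : Ker V) = kid :=
  funext fun _ => funext fun _ => ind_congr eq_comm
theorem ktr_ktr (K : Ker V) : ktr (ktr K) = K := rfl
theorem kpow_add (K : Ker V) (i j : ℕ) : kpow K (i + j) = kmul (kpow K i) (kpow K j) := by
  induction i with
  | zero => rw [Nat.zero_add, kpow, kid_kmul]
  | succ i ih => rw [Nat.add_right_comm, kpow, kpow, ih, kmul_assoc]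
theorem kpow_succ' (K : Ker V) (i : ℕ) : kpow K (i + 1) = kmul (kpow K i) K := by
  rw [kpow_add, kpow, kpow, kmul_kid]
theorem kpow_one (K : Ker V) : kpow K 1 = K := by rw [kpow, kpow, kmul_kid]
theorem kpow_mono {K L : Ker V} (h : K ≤ L) (i : ℕ) : kpow K i ≤ kpow L i := by
  induction i with
  | zero => exact le_rfl
  | succ i ih => exact kmul_mono h ih
theorem ktr_kpow (K : Ker V) (i : ℕ) : ktr (kpow K i) = kpow (ktr K) i := by
  induction i with
  | zero => exact ktr_kid
  | succ i ih => rw [kpow, ktr_kmul, ih, kpow_succ']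
theorem kmul_tsum {κ : Type*} (K : Ker V) (L : κ → Ker V) :
    kmul K (fun x y => ∑' i, L i x y) = fun x y => ∑' i, kmul K (L i) x y := by
  funext x w
  simp only [kmul, ← ENNReal.tsum_mul_left]
  exact ENNReal.tsum_comm
theorem tsum_kmul {κ : Type*} (K : κ → Ker V) (L : Ker V) :
    kmul (fun x y => ∑' i, K i x y) L = fun x y => ∑' i, kmul (K i) L x y := by
  funext x w
  simp only [kmul, ← ENNReal.tsum_mul_right]
  exact ENNReal.tsum_comm
theorem ksum_eq (K : Ker V) : ksum K = kid + kmul K (ksum K) := by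
  have h := kmul_tsum K (kpow K)
  funext x y
  rw [Pi.add_apply, Pi.add_apply, show kmul K (ksum K) = _ from h]
  exact tsum_eq_zero_add' ENNReal.summable
theorem ksum_eq' (K : Ker V) : ksum K = kid + kmul (ksum K) K := by
  have h := tsum_kmul (kpow K) K
  funext x y
  rw [Pi.add_apply, Pi.add_apply, show kmul (ksum K) K = _ from h]
  simp only [← kpow_succ']
  exact tsum_eq_zero_add' ENNReal.summable
theorem ksum_split (K : Ker V) (j : ℕ) :
    ksum K = (fun x y => ∑ i ∈ Finset.range j, kpow K i x y) + kmul (kpow K j) (ksum K) := by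
  have h := kmul_tsum (kpow K j) (kpow K)
  funext x y
  rw [Pi.add_apply, Pi.add_apply, show kmul (kpow K j) (ksum K) = _ from h]
  simp only [← kpow_add, Nat.add_comm j]
  exact (Summable.sum_add_tsum_nat_add' (f := fun i => kpow K i x y) ENNReal.summable).symm
theorem ktr_ksum (K : Ker V) : ktr (ksum K) = ksum (ktr K) := by
  funext x y
  simp only [ksum, ← ktr_kpow, ktr]

/-- row sums multiply -/
theorem kmul_row_le {K L : Ker V} {a b : ℝ≥0∞} (hK : ∀ x, ∑' y, K x y ≤ a)
    (hL : ∀ x, ∑' y, L x y ≤ b) (x : V) : ∑' y, kmul K L x y ≤ a * b := by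
  simp only [kmul]
  rw [ENNReal.tsum_comm]
  simp only [ENNReal.tsum_mul_left]
  calc ∑' y, K x y * ∑' z, L y z ≤ ∑' y, K x y * b :=
        ENNReal.tsum_le_tsum fun y => mul_le_mul_right (hL y) _
    _ = (∑' y, K x y) * b := ENNReal.tsum_mul_right
    _ ≤ a * b := mul_le_mul_left (hK x) _

section Inv

variable {G : SimpleGraph V}

theorem KInv.kid : KInv G (kid : Ker V) := fun φ _ _ => ind_congr φ.injective.eq_iff
theorem KInv.kmul {K L : Ker V} (hK : KInv G K) (hL : KInv G L) : KInv G (kmul K L) := by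
  intro φ x z
  simp only [P165.kmul]
  rw [← φ.toEquiv.tsum_eq]
  exact tsum_congr fun y => congrArg₂ (· * ·) (hK φ x y) (hL φ y z)
theorem KInv.ktr {K : Ker V} (hK : KInv G K) : KInv G (ktr K) := fun φ x y => hK φ y x
theorem KInv.add {K L : Ker V} (hK : KInv G K) (hL : KInv G L) : KInv G (K + L) :=
  fun φ x y => congrArg₂ (· + ·) (hK φ x y) (hL φ x y)
theorem KInv.smul {K : Ker V} (c : ℝ≥0∞) (hK : KInv G K) : KInv G (c • K) :=
  fun φ x y => congrArg (c * ·) (hK φ x y)
theorem KInv.mul {K L : Ker V} (hK : KInv G K) (hL : KInv G L) :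
    KInv G (fun x y => K x y * L x y) := fun φ x y => congrArg₂ (· * ·) (hK φ x y) (hL φ x y)
theorem KInv.pow {K : Ker V} (hK : KInv G K) (i : ℕ) : KInv G (fun x y => K x y ^ i) :=
  fun φ x y => congrArg (· ^ i) (hK φ x y)
theorem KInv.kpow {K : Ker V} (hK : KInv G K) (i : ℕ) : KInv G (kpow K i) := by
  induction i with
  | zero => exact KInv.kid
  | succ i ih => exact hK.kmul ih
theorem KInv.ksum {K : Ker V} (hK : KInv G K) : KInv G (ksum K) :=
  fun φ x y => tsum_congr fun i => hK.kpow i φ x y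
theorem KInv.sum {κ : Type*} (s : Finset κ) {K : κ → Ker V} (hK : ∀ i, KInv G (K i)) :
    KInv G (fun x y => ∑ i ∈ s, K i x y) :=
  fun φ x y => Finset.sum_congr rfl fun i _ => hK i φ x y
theorem KInv.row {K : Ker V} (hK : KInv G K) (φ : G ≃g G) (x : V) :
    ∑' y, K (φ x) y = ∑' y, K x y := by
  rw [← φ.toEquiv.tsum_eq]
  exact tsum_congr fun y => hK φ x y
theorem KInv.col {K : Ker V} (hK : KInv G K) (φ : G ≃g G) (y : V) :
    ∑' x, K x (φ y) = ∑' x, K x y := by
  rw [← φ.toEquiv.tsum_eq]
  exact tsum_congr fun x => hK φ x y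
theorem PiK_inv {π : List V → ℝ≥0∞} (h : ∀ (φ : G ≃g G) (η : List V), π (η.map φ) = π η) :
    KInv G (PiK π) := by
  intro φ u f
  simp only [PiK]
  rw [← (Equiv.listEquivOfEquiv φ.toEquiv).tsum_eq]
  refine tsum_congr fun η => ?_
  show ind ((η.map φ).head? = some (φ u) ∧ (η.map φ).getLast? = some (φ f)) * π (η.map φ) = _
  rw [h, List.head?_map, List.getLast?_map, ← Option.map_some, ← Option.map_some,
    (Option.map_injective φ.injective).eq_iff, (Option.map_injective φ.injective).eq_iff]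

end Inv

end Vale.Agent.P165
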