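import Mathlib
import Vale.Agent.P165.KerA

/-!
The operator norm `nrm`.
-/

open scoped ENNReal

namespace Vale.Agent.P165

variable {V : Type*}

private theorem ker_amgm (a b : ℝ≥0∞) : 2 * (a * b) ≤ a ^ 2 + b ^ 2 := by
  rcases eq_or_ne a ⊤ with rfl | ha
  · simp
  rcases eq_or_ne b ⊤ with rfl | hb
  · simp
  lift a to NNReal using ha
  lift b to NNReal using hb
  have h : 2 * ((a : ℝ) * b) ≤ (a : ℝ) ^ 2 + (b : ℝ) ^ 2 := by nlinarith [sq_nonneg ((a : ℝ) - b)]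
  exact_mod_cast h

private theorem ker_sqrt (A : ℝ≥0∞) : ∃ a : ℝ≥0∞, a ^ 2 = A :=
  ⟨A ^ (((2 : ℕ) : ℝ)⁻¹), ENNReal.rpow_inv_natCast_pow two_ne_zero A⟩

private theorem ker_le_of_sq {a b : ℝ≥0∞} (h : a ^ 2 ≤ b ^ 2) : a ≤ b :=
  (ENNReal.pow_le_pow_left_iff two_ne_zero).mp h

/-- Cauchy–Schwarz -/
theorem tsum_mul_sq_le (f g : V → ℝ≥0∞) :
    (∑' x, f x * g x) ^ 2 ≤ (∑' x, f x ^ 2) * ∑' x, g x ^ 2 := by
  have h1 : (∑' x, f x * g x) ^ 2 = ∑' x, ∑' y, (f x * g y) * (f y * g x) := by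
    rw [sq, ← ENNReal.tsum_mul_right]
    refine tsum_congr fun x => ?_
    rw [← ENNReal.tsum_mul_left]
    exact tsum_congr fun y => by ring
  have h2 : (∑' x, f x ^ 2) * ∑' x, g x ^ 2 = ∑' x, ∑' y, (f x * g y) ^ 2 := by
    rw [← ENNReal.tsum_mul_right]
    refine tsum_congr fun x => ?_
    rw [← ENNReal.tsum_mul_left]
    exact tsum_congr fun y => by ring
  have h3 : ∑' x, ∑' y, (f y * g x) ^ 2 = ∑' x, ∑' y, (f x * g y) ^ 2 := ENNReal.tsum_comm
  rw [← ENNReal.mul_le_mul_iff_right (a := 2) two_ne_zero ENNReal.ofNat_ne_top, h1, h2]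
  calc 2 * ∑' x, ∑' y, (f x * g y) * (f y * g x)
      = ∑' x, ∑' y, 2 * ((f x * g y) * (f y * g x)) := by
        simp only [ENNReal.tsum_mul_left]
    _ ≤ ∑' x, ∑' y, ((f x * g y) ^ 2 + (f y * g x) ^ 2) :=
        ENNReal.tsum_le_tsum fun x => ENNReal.tsum_le_tsum fun y => ker_amgm _ _
    _ = 2 * ∑' x, ∑' y, (f x * g y) ^ 2 := by
        simp only [ENNReal.tsum_add]
        rw [h3, two_mul]

private theorem bil_le_nrm (K : Ker V) {f g : V → ℝ≥0∞} (hf : ∑' x, f x ^ 2 ≤ 1)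
    (hg : ∑' y, g y ^ 2 ≤ 1) : ∑' x, ∑' y, f x * K x y * g y ≤ nrm K :=
  le_iSup_of_le f (le_iSup_of_le g (le_iSup_of_le hf (le_iSup_of_le hg le_rfl)))

private theorem nrm_le {K : Ker V} {c : ℝ≥0∞}
    (h : ∀ f g : V → ℝ≥0∞, ∑' x, f x ^ 2 ≤ 1 → ∑' y, g y ^ 2 ≤ 1 →
      ∑' x, ∑' y, f x * K x y * g y ≤ c) : nrm K ≤ c :=
  iSup_le fun f => iSup_le fun g => iSup_le fun hf => iSup_le fun hg => h f g hf hg

theorem nrm_mono {K L : Ker V} (h : K ≤ L) : nrm K ≤ nrm L :=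
  nrm_le fun f g hf hg => le_trans (ENNReal.tsum_le_tsum fun x => ENNReal.tsum_le_tsum fun y =>
    mul_le_mul' (mul_le_mul' le_rfl (h x y)) le_rfl) (bil_le_nrm L hf hg)

theorem nrm_zero : nrm (0 : Ker V) = 0 :=
  le_antisymm (nrm_le fun f g _ _ => by simp) zero_le

theorem nrm_add_le (K L : Ker V) : nrm (K + L) ≤ nrm K + nrm L :=
  nrm_le fun f g hf hg => by
    simp only [Pi.add_apply, mul_add, add_mul, ENNReal.tsum_add]
    exact add_le_add (bil_le_nrm K hf hg) (bil_le_nrm L hf hg)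

theorem nrm_smul (c : ℝ≥0∞) (K : Ker V) : nrm (c • K) = c * nrm K := by
  simp only [nrm, ENNReal.mul_iSup, ← ENNReal.tsum_mul_left, Pi.smul_apply, smul_eq_mul]
  refine iSup_congr fun f => iSup_congr fun g => iSup_congr fun _ => iSup_congr fun _ =>
    tsum_congr fun x => tsum_congr fun y => by ring

private theorem nrm_ktr_le (K : Ker V) : nrm (ktr K) ≤ nrm K :=
  nrm_le fun f g hf hg => by
    rw [ENNReal.tsum_comm]
    refine le_trans (le_of_eq ?_) (bil_le_nrm K hg hf)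
    exact tsum_congr fun x => tsum_congr fun y => by rw [ktr]; ring

theorem nrm_ktr (K : Ker V) : nrm (ktr K) = nrm K :=
  le_antisymm (nrm_ktr_le K) (nrm_ktr_le (ktr K))

private theorem ind_sq (x : V) : ∑' z, ind (x = z) ^ 2 = 1 := by
  rw [tsum_eq_single x fun a ha => by rw [ind_neg (Ne.symm ha), zero_pow two_ne_zero],
    ind_pos rfl, one_pow]

theorem le_nrm (K : Ker V) (x y : V) : K x y ≤ nrm K := by
  refine le_trans ?_ (bil_le_nrm K (ind_sq x).le (ind_sq y).le)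
  refine le_trans ?_ (ENNReal.le_tsum x)
  refine le_trans ?_ (ENNReal.le_tsum y)
  rw [ind_pos rfl, ind_pos rfl, one_mul, mul_one]

theorem nrm_kid_le : nrm (kid : Ker V) ≤ 1 :=
  nrm_le fun f g hf hg => by
    have h1 : ∀ x, ∑' y, f x * kid x y * g y = f x * g x := fun x => by
      simp only [mul_assoc, ENNReal.tsum_mul_left, kid, tsum_ind_eq]
    simp only [h1]
    refine ker_le_of_sq ((tsum_mul_sq_le f g).trans ?_)
    rw [one_pow]
    exact mul_le_one' hf hg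

/-- the bilinear bound. Normalise `f` and `g` when both square sums are finite and nonzero; if
one of them is `⊤` the bound is trivial unless another factor vanishes, and then the left side
vanishes (`le_nrm`). -/
theorem bilin_sq_le (K : Ker V) (f g : V → ℝ≥0∞) :
    (∑' x, ∑' y, f x * K x y * g y) ^ 2 ≤ nrm K ^ 2 * (∑' x, f x ^ 2) * ∑' y, g y ^ 2 := by
  by_cases hf0 : ∑' x, f x ^ 2 = 0
  · have : ∀ x, f x = 0 := fun x => pow_eq_zero_iff two_ne_zero |>.mp (ENNReal.tsum_eq_zero.mp hf0 x)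
    simp [this]
  by_cases hg0 : ∑' x, g x ^ 2 = 0
  · have : ∀ x, g x = 0 := fun x => pow_eq_zero_iff two_ne_zero |>.mp (ENNReal.tsum_eq_zero.mp hg0 x)
    simp [this]
  by_cases hK0 : nrm K = 0
  · have : ∀ x y, K x y = 0 := fun x y => le_antisymm (hK0 ▸ le_nrm K x y) zero_le
    simp [this]
  by_cases hf1 : ∑' x, f x ^ 2 = ⊤
  · rw [hf1, ENNReal.mul_top (pow_ne_zero _ hK0), ENNReal.top_mul hg0]
    exact le_top
  by_cases hg1 : ∑' x, g x ^ 2 = ⊤
  · rw [hg1, ENNReal.mul_top (mul_ne_zero (pow_ne_zero _ hK0) hf0)]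
    exact le_top
  have key : ∀ f : V → ℝ≥0∞, ∑' x, f x ^ 2 ≠ 0 → ∑' x, f x ^ 2 ≠ ⊤ →
      ∃ (a : ℝ≥0∞) (f' : V → ℝ≥0∞), a ^ 2 = ∑' x, f x ^ 2 ∧ ∑' x, f' x ^ 2 ≤ 1 ∧
        ∀ x, f x = a * f' x := by
    intro f h0 h1
    obtain ⟨a, ha⟩ := ker_sqrt (∑' x, f x ^ 2)
    have a0 : a ≠ 0 := by rintro rfl; exact h0 (by rw [← ha]; simp)
    have a1 : a ≠ ⊤ := by rintro rfl; exact h1 (by rw [← ha]; simp)
    refine ⟨a, fun x => a⁻¹ * f x, ha, le_of_eq ?_, fun x => ?_⟩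
    · simp only [mul_pow, ENNReal.tsum_mul_left]
      rw [← ha, ← mul_pow, ENNReal.inv_mul_cancel a0 a1, one_pow]
    · rw [← mul_assoc, ENNReal.mul_inv_cancel a0 a1, one_mul]
  obtain ⟨a, f', ha, hf', hf⟩ := key f hf0 hf1
  obtain ⟨b, g', hb, hg', hg⟩ := key g hg0 hg1
  have h1 : ∑' x, ∑' y, f x * K x y * g y = a * b * ∑' x, ∑' y, f' x * K x y * g' y := by
    simp only [← ENNReal.tsum_mul_left]
    exact tsum_congr fun x => tsum_congr fun y => by rw [hf x, hg y]; ring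
  rw [h1, ← ha, ← hb]
  calc (a * b * ∑' x, ∑' y, f' x * K x y * g' y) ^ 2 ≤ (a * b * nrm K) ^ 2 :=
        pow_le_pow_left' (mul_le_mul' le_rfl (bil_le_nrm K hf' hg')) 2
    _ = nrm K ^ 2 * a ^ 2 * b ^ 2 := by ring

theorem quad_le (K : Ker V) (f : V → ℝ≥0∞) :
    ∑' x, ∑' y, f x * K x y * f y ≤ nrm K * ∑' x, f x ^ 2 :=
  ker_le_of_sq ((bilin_sq_le K f f).trans (le_of_eq (by ring)))

/-- a row of `K` paired with `g` -/
theorem row_sq_le (K : Ker V) (x : V) (g : V → ℝ≥0∞) :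
    (∑' y, K x y * g y) ^ 2 ≤ nrm K ^ 2 * ∑' y, g y ^ 2 := by
  have h := bilin_sq_le K (fun z => ind (x = z)) g
  simp only [mul_assoc, ENNReal.tsum_mul_left, tsum_ind_eq, ind_sq, one_mul] at h
  exact h

/-- duality: test `bilin_sq_le` with finite truncations (finite support, values capped by a
natural number) of `x ↦ ∑' y, K x y * g y` -/
theorem apply_sq_le (K : Ker V) (g : V → ℝ≥0∞) :
    ∑' x, (∑' y, K x y * g y) ^ 2 ≤ nrm K ^ 2 * ∑' y, g y ^ 2 := by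
  classical
  by_cases htop : nrm K ^ 2 * ∑' y, g y ^ 2 = ⊤
  · rw [htop]; exact le_top
  have hfin : ∀ x, (∑' y, K x y * g y) ^ 2 ≠ ⊤ := fun x => ne_top_of_le_ne_top htop (row_sq_le K x g)
  rw [ENNReal.tsum_eq_iSup_sum]
  refine iSup_le fun s => ?_
  have h := bilin_sq_le K (fun x => if x ∈ s then ∑' y, K x y * g y else 0) g
  have h1 : ∑' x, ∑' y, (if x ∈ s then ∑' y, K x y * g y else 0) * K x y * g y =
      ∑ x ∈ s, (∑' y, K x y * g y) ^ 2 := by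
    simp only [mul_assoc, ENNReal.tsum_mul_left]
    rw [tsum_eq_sum (s := s) fun x hx => by rw [if_neg hx, zero_mul]]
    exact Finset.sum_congr rfl fun x hx => by rw [if_pos hx, sq]
  have h2 : ∑' x, (if x ∈ s then ∑' y, K x y * g y else 0) ^ 2 =
      ∑ x ∈ s, (∑' y, K x y * g y) ^ 2 := by
    rw [tsum_eq_sum (s := s) fun x hx => by rw [if_neg hx, zero_pow two_ne_zero]]
    exact Finset.sum_congr rfl fun x hx => by rw [if_pos hx]
  rw [h1, h2] at h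
  have h3 : ∑ x ∈ s, (∑' y, K x y * g y) ^ 2 ≠ ⊤ := ENNReal.sum_ne_top.mpr fun x _ => hfin x
  generalize ∑ x ∈ s, (∑' y, K x y * g y) ^ 2 = F at h h3 ⊢
  rcases eq_or_ne F 0 with rfl | h0
  · exact zero_le
  rw [← ENNReal.mul_le_mul_iff_right h0 h3]
  calc F * F = F ^ 2 := (sq F).symm
    _ ≤ _ := h
    _ = _ := by ring

theorem nrm_le_of_sq {K : Ker V} {c : ℝ≥0∞}
    (h : ∀ g : V → ℝ≥0∞, ∑' x, (∑' y, K x y * g y) ^ 2 ≤ c ^ 2 * ∑' y, g y ^ 2) :
    nrm K ≤ c :=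
  nrm_le fun f g hf hg => by
    simp only [mul_assoc, ENNReal.tsum_mul_left]
    refine ker_le_of_sq ((tsum_mul_sq_le f _).trans ?_)
    calc _ ≤ 1 * (c ^ 2 * 1) := mul_le_mul' hf ((h g).trans (mul_le_mul' le_rfl hg))
      _ = c ^ 2 := by ring

theorem nrm_kmul_le (K L : Ker V) : nrm (kmul K L) ≤ nrm K * nrm L :=
  nrm_le_of_sq fun g => by
    have h1 : ∀ x, ∑' z, kmul K L x z * g z = ∑' y, K x y * ∑' z, L y z * g z := fun x => by
      simp only [kmul, ← ENNReal.tsum_mul_right, ← ENNReal.tsum_mul_left, mul_assoc]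
      exact ENNReal.tsum_comm
    simp only [h1]
    calc _ ≤ nrm K ^ 2 * (nrm L ^ 2 * ∑' y, g y ^ 2) :=
          (apply_sq_le K _).trans (mul_le_mul' le_rfl (apply_sq_le L g))
      _ = _ := by ring

theorem nrm_kpow_le (K : Ker V) (i : ℕ) : nrm (kpow K i) ≤ nrm K ^ i := by
  induction i with
  | zero => rw [pow_zero]; exact nrm_kid_le
  | succ i ih =>
    rw [pow_succ']
    exact (nrm_kmul_le K _).trans (mul_le_mul' le_rfl ih)

theorem nrm_tsum_le {κ : Type*} (K : κ → Ker V) :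
    nrm (fun x y => ∑' i, K i x y) ≤ ∑' i, nrm (K i) :=
  nrm_le fun f g hf hg => by
    have h1 : ∀ x, ∑' y, f x * (∑' i, K i x y) * g y = ∑' i, ∑' y, f x * K i x y * g y := fun x => by
      simp only [← ENNReal.tsum_mul_right, ← ENNReal.tsum_mul_left]
      exact ENNReal.tsum_comm
    simp only [h1]
    rw [ENNReal.tsum_comm]
    exact ENNReal.tsum_le_tsum fun i => bil_le_nrm (K i) hf hg

theorem nrm_sum_le {κ : Type*} (s : Finset κ) (K : κ → Ker V) :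
    nrm (fun x y => ∑ i ∈ s, K i x y) ≤ ∑ i ∈ s, nrm (K i) := by
  have h := nrm_tsum_le fun i : s => K i
  rw [Finset.tsum_subtype s fun i => nrm (K i)] at h
  refine le_trans (le_of_eq (congrArg nrm ?_)) h
  funext x y
  exact (Finset.tsum_subtype s fun i => K i x y).symm

theorem nrm_ksum_le {K : Ker V} {ρ : ℝ≥0∞} (h : nrm K ≤ ρ) : nrm (ksum K) ≤ (1 - ρ)⁻¹ := by
  rw [← ENNReal.tsum_geometric]
  exact (nrm_tsum_le (kpow K)).trans (ENNReal.tsum_le_tsum fun i =>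
    (nrm_kpow_le K i).trans (pow_le_pow_left' h i))

/-- `tsum_iSup_dir` twice -/
theorem nrm_iSup_le {κ : Type*} (K : κ → Ker V) (hK : ∀ i j, ∃ k, K i ≤ K k ∧ K j ≤ K k) :
    nrm (fun x y => ⨆ i, K i x y) ≤ ⨆ i, nrm (K i) :=
  nrm_le fun f g hf hg => by
    have hm : ∀ {i k}, K i ≤ K k → ∀ x y, f x * K i x y * g y ≤ f x * K k x y * g y :=
      fun h x y => mul_le_mul' (mul_le_mul' le_rfl (h x y)) le_rfl
    have h1 : ∀ x, ∑' y, f x * (⨆ i, K i x y) * g y = ⨆ i, ∑' y, f x * K i x y * g y := fun x => by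
      simp only [ENNReal.mul_iSup, ENNReal.iSup_mul]
      refine tsum_iSup_dir (fun i y => f x * K i x y * g y) fun i j => ?_
      obtain ⟨k, h1, h2⟩ := hK i j
      exact ⟨k, fun y => ⟨hm h1 x y, hm h2 x y⟩⟩
    simp only [h1]
    rw [tsum_iSup_dir (fun i x => ∑' y, f x * K i x y * g y) fun i j => ?_]
    · exact iSup_mono fun i => bil_le_nrm (K i) hf hg
    · obtain ⟨k, h1, h2⟩ := hK i j
      exact ⟨k, fun x => ⟨ENNReal.tsum_le_tsum (hm h1 x), ENNReal.tsum_le_tsum (hm h2 x)⟩⟩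

/-- Schur test -/
theorem schur {K : Ker V} (h : V → ℝ≥0∞) (h0 : ∀ x, h x ≠ 0) (h1 : ∀ x, h x ≠ ⊤) {a b : ℝ≥0∞}
    (ha : ∀ x, ∑' y, K x y * h y ≤ a * h x) (hb : ∀ y, ∑' x, K x y * h x ≤ b * h y) :
    nrm K ^ 2 ≤ a * b := by
  obtain ⟨c, hc⟩ := ker_sqrt (a * b)
  rw [← hc]
  refine pow_le_pow_left' (nrm_le_of_sq fun g => ?_) 2
  choose t ht using fun y => ker_sqrt (h y)
  have t0 : ∀ y, t y ≠ 0 := fun y e => h0 y (by rw [← ht, e]; simp)
  have t1 : ∀ y, t y ≠ ⊤ := fun y e => h1 y (by rw [← ht, e]; simp)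
  have h2 : ∀ x, (∑' y, K x y * g y) ^ 2 ≤ a * ∑' y, K x y * h x * (g y * (t y)⁻¹) ^ 2 := by
    intro x
    choose s hs using fun y => ker_sqrt (K x y)
    have h3 := tsum_mul_sq_le (fun y => s y * t y) (fun y => s y * (g y * (t y)⁻¹))
    have e1 : ∀ y, s y * t y * (s y * (g y * (t y)⁻¹)) = K x y * g y := fun y => by
      calc _ = s y ^ 2 * g y * (t y * (t y)⁻¹) := by ring
        _ = _ := by rw [hs, ENNReal.mul_inv_cancel (t0 y) (t1 y), mul_one]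
    have e2 : ∀ y, (s y * t y) ^ 2 = K x y * h y := fun y => by rw [mul_pow, hs, ht]
    have e3 : ∀ y, (s y * (g y * (t y)⁻¹)) ^ 2 = K x y * (g y * (t y)⁻¹) ^ 2 := fun y => by
      rw [mul_pow, hs]
    simp only [e1, e2, e3] at h3
    refine h3.trans ((mul_le_mul' (ha x) le_rfl).trans (le_of_eq ?_))
    rw [mul_assoc, ← ENNReal.tsum_mul_left]
    exact congrArg _ (tsum_congr fun y => by ring)
  refine (ENNReal.tsum_le_tsum h2).trans ?_
  rw [ENNReal.tsum_mul_left, ENNReal.tsum_comm, hc, mul_assoc, ← ENNReal.tsum_mul_left (a := b)]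
  refine mul_le_mul' le_rfl (ENNReal.tsum_le_tsum fun y => ?_)
  rw [ENNReal.tsum_mul_right]
  refine (mul_le_mul' (hb y) le_rfl).trans (le_of_eq ?_)
  calc _ = b * g y ^ 2 * (t y * (t y)⁻¹) ^ 2 := by rw [← ht]; ring
    _ = _ := by rw [ENNReal.mul_inv_cancel (t0 y) (t1 y), one_pow, mul_one]

theorem nrm_le_of_row_col {K : Ker V} {a : ℝ≥0∞} (ha : ∀ x, ∑' y, K x y ≤ a)
    (hb : ∀ y, ∑' x, K x y ≤ a) : nrm K ≤ a := by
  refine ker_le_of_sq ?_
  rw [sq a]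
  exact schur (fun _ => 1) (fun _ => one_ne_zero) (fun _ => ENNReal.one_ne_top)
    (fun x => by simpa using ha x) (fun y => by simpa using hb y)

end Vale.Agent.P165
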