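import Mathlib
import Vale.Agent.P165.Ker

/-!
Balls and the weights `τ`, `w1`.
-/

open scoped ENNReal

namespace Vale.Agent.P165

variable {V : Type*} [DecidableEq V] {G : SimpleGraph V} [G.LocallyFinite]

theorem mem_ball_succ_iff {x z : V} {L : ℕ} :
    z ∈ ball G x (L + 1) ↔ z ∈ ball G x L ∨ ∃ y ∈ ball G x L, G.Adj y z := by
  simp only [ball, Finset.mem_union, Finset.mem_biUnion, SimpleGraph.mem_neighborFinset]
theorem self_mem_ball (x : V) (L : ℕ) : x ∈ ball G x L := by
  induction L with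
  | zero => exact Finset.mem_singleton_self x
  | succ L ih => exact mem_ball_succ_iff.2 (Or.inl ih)
theorem ball_mono (x : V) {L L' : ℕ} (h : L ≤ L') : ball G x L ⊆ ball G x L' := by
  induction h with
  | refl => exact Finset.Subset.refl _
  | step _ ih => exact fun z hz => mem_ball_succ_iff.2 (Or.inl (ih hz))
theorem mem_ball_succ {x y z : V} {L : ℕ} (h : y ∈ ball G x L) (hz : G.Adj y z) :
    z ∈ ball G x (L + 1) := mem_ball_succ_iff.2 (Or.inr ⟨y, h, hz⟩)
theorem mem_ball_trans {x y z : V} {L L' : ℕ} (h : y ∈ ball G x L) (h' : z ∈ ball G y L') :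
    z ∈ ball G x (L + L') := by
  induction L' generalizing z with
  | zero => rw [Finset.mem_singleton.1 h']; exact h
  | succ L' ih =>
    rcases mem_ball_succ_iff.1 h' with h1 | ⟨w, h1, h2⟩
    · exact mem_ball_succ_iff.2 (Or.inl (ih h1))
    · exact mem_ball_succ (ih h1) h2
theorem mem_ball_symm {x y : V} {L : ℕ} (h : y ∈ ball G x L) : x ∈ ball G y L := by
  induction L generalizing y with
  | zero => rw [Finset.mem_singleton.1 h]; exact self_mem_ball _ _
  | succ L ih =>
    rcases mem_ball_succ_iff.1 h with h1 | ⟨w, h1, h2⟩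
    · exact mem_ball_succ_iff.2 (Or.inl (ih h1))
    · rw [Nat.add_comm]
      exact mem_ball_trans (mem_ball_succ (self_mem_ball y 0) h2.symm) (ih h1)
theorem mem_ball_map (φ : G ≃g G) {x y : V} {L : ℕ} :
    φ y ∈ ball G (φ x) L ↔ y ∈ ball G x L := by
  induction L generalizing y with
  | zero => simp only [ball, Finset.mem_singleton, φ.injective.eq_iff]
  | succ L ih =>
    rw [mem_ball_succ_iff, mem_ball_succ_iff, ih]
    refine or_congr Iff.rfl ⟨?_, ?_⟩
    · rintro ⟨w, h1, h2⟩
      obtain ⟨w, rfl⟩ := φ.surjective w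
      exact ⟨w, ih.1 h1, φ.map_adj_iff.1 h2⟩
    · rintro ⟨w, h1, h2⟩
      exact ⟨φ w, ih.2 h1, φ.map_adj_iff.2 h2⟩
theorem ballK_inv (L : ℕ) : KInv G (ballK G L) := fun φ _ _ => ind_congr (mem_ball_map φ)
theorem card_ball_le {D : ℕ} (hD : ∀ x, G.degree x ≤ D) (x : V) (L : ℕ) :
    (ball G x L).card ≤ (D + 1) ^ L := by
  induction L with
  | zero => simp [ball]
  | succ L ih =>
    have h1 : ((ball G x L).biUnion fun v => G.neighborFinset v).card ≤ (ball G x L).card * D :=
      Finset.card_biUnion_le_card_mul _ _ _ fun v _ => hD v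
    have h2 := Finset.card_union_le (ball G x L) ((ball G x L).biUnion fun v => G.neighborFinset v)
    calc (ball G x (L + 1)).card ≤ (ball G x L).card * (D + 1) := by
          rw [Nat.mul_succ, ball]; omega
      _ ≤ (D + 1) ^ L * (D + 1) := Nat.mul_le_mul_right _ ih
      _ = _ := (pow_succ _ _).symm
theorem geoA_head {a v : V} {t : List V} (h : (a :: t).IsChain G.Adj) (hv : v ∈ a :: t) :
    v ∈ ball G a t.length := by
  induction t generalizing a with
  | nil => rw [List.mem_singleton.1 hv]; exact self_mem_ball _ _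
  | cons b t ih =>
    rcases List.mem_cons.1 hv with rfl | hv'
    · exact self_mem_ball _ _
    · rw [List.length_cons, Nat.add_comm]
      rw [List.isChain_cons_cons] at h
      exact mem_ball_trans (mem_ball_succ (self_mem_ball a 0) h.1) (ih h.2 hv')
theorem mem_ball_of_chain {η : List V} (h : η.IsChain G.Adj) {u v : V} (hu : u ∈ η) (hv : v ∈ η) :
    v ∈ ball G u (η.length - 1) := by
  induction η with
  | nil => exact absurd hu List.not_mem_nil
  | cons a t ih =>
    rw [List.length_cons, Nat.add_sub_cancel]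
    rcases List.mem_cons.1 hu with rfl | hu'
    · exact geoA_head h hv
    rcases List.mem_cons.1 hv with rfl | hv'
    · exact mem_ball_symm (geoA_head h hu)
    · exact ball_mono _ (Nat.sub_le _ _) (ih h.tail hu' hv')
theorem exists_mem_ball (hc : G.Preconnected) (x y : V) : ∃ L, y ∈ ball G x L := by
  obtain ⟨w⟩ := hc x y
  induction w with
  | nil => exact ⟨0, self_mem_ball _ _⟩
  | cons h _ ih =>
    obtain ⟨L, hL⟩ := ih
    exact ⟨_, mem_ball_trans (mem_ball_succ (self_mem_ball _ 0) h) hL⟩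

namespace Env

variable (E : Env G)

include E in
theorem exists_subset_ball (x : V) (W : Finset V) : ∃ L, W ⊆ ball G x L := by
  choose L hL using E.exh x
  exact ⟨W.sup L, fun y hy => ball_mono x (Finset.le_sup hy) (hL y)⟩
theorem one_le_card_reps (x : V) : (1 : ℝ≥0∞) ≤ E.reps.card := by
  obtain ⟨a, ha, -⟩ := E.cover x
  exact_mod_cast Finset.card_pos.2 ⟨a, ha⟩
theorem τ_ne_zero (x y : V) : E.τ x y ≠ 0 := fun h => by
  have := E.τ_mul x y x
  rw [h, zero_mul, E.τ_self] at this
  exact zero_ne_one this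
theorem τ_ne_top (x y : V) : E.τ x y ≠ ⊤ := fun h => by
  have := E.τ_mul x y x
  rw [h, ENNReal.top_mul (E.τ_ne_zero y x), E.τ_self] at this
  exact ENNReal.top_ne_one this
theorem τ_mul_symm (x y : V) : E.τ x y * E.τ y x = 1 := (E.τ_mul x y x).trans (E.τ_self x)
theorem τ_ball {x y : V} {L : ℕ} (h : y ∈ ball G x L) : E.τ x y ≤ E.r ^ L := by
  induction L generalizing y with
  | zero => rw [Finset.mem_singleton.1 h, E.τ_self, pow_zero]
  | succ L ih =>
    rcases mem_ball_succ_iff.1 h with h1 | ⟨w, h1, h2⟩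
    · exact (ih h1).trans (pow_le_pow_right₀ E.one_le_r (Nat.le_succ L))
    · rw [← E.τ_mul x w y, pow_succ]
      exact mul_le_mul' (ih h1) (E.τ_adj _ _ h2)
theorem one_le_w1 (x y : V) : 1 ≤ E.w1 x y := by
  by_contra h
  have h1 := max_lt_iff.1 (not_le.1 h)
  have h2 : E.τ x y * E.τ y x < 1 := (mul_le_of_le_one_right' h1.2.le).trans_lt h1.1
  exact h2.ne (E.τ_mul_symm x y)
theorem w1_ne_top (x y : V) : E.w1 x y ≠ ⊤ := (max_lt (E.τ_ne_top x y).lt_top (E.τ_ne_top y x).lt_top).ne
theorem w1_symm (x y : V) : E.w1 x y = E.w1 y x := max_comm _ _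
theorem w1_self (x : V) : E.w1 x x = 1 := by rw [w1, max_self, E.τ_self]
theorem w1_le_mul (x y z : V) : E.w1 x z ≤ E.w1 x y * E.w1 y z := by
  refine max_le ?_ ?_
  · rw [← E.τ_mul x y z]
    exact mul_le_mul' (le_max_left _ _) (le_max_left _ _)
  · rw [← E.τ_mul z y x, mul_comm]
    exact mul_le_mul' (le_max_right _ _) (le_max_right _ _)
theorem w1_ball {x y : V} {L : ℕ} (h : y ∈ ball G x L) : E.w1 x y ≤ E.r ^ L :=
  max_le (E.τ_ball h) (E.τ_ball (mem_ball_symm h))
theorem w1_adj {x y : V} (h : G.Adj x y) : E.w1 x y ≤ E.r := max_le (E.τ_adj _ _ h) (E.τ_adj _ _ h.symm)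
theorem w1_inv : KInv G E.w1 := fun φ x y => by rw [w1, w1, E.τ_inv φ x y, E.τ_inv φ y x]
theorem one_le_CH : 1 ≤ E.CH := ENNReal.one_le_inv.2 tsub_le_self
theorem CH_ne_top : E.CH ≠ ⊤ := ENNReal.inv_ne_top.2 (tsub_pos_of_lt E.ρ_lt).ne'
theorem tsum_ρ_pow : ∑' i : ℕ, E.ρ ^ i = E.CH := ENNReal.tsum_geometric _

end Env

end Vale.Agent.P165
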