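import Mathlib
import Vale.Agent.P165.GeoA

/-!
Weighted and tilted norms, Schur bounds by mass transport, and the calculus of `Tr`.
-/

open scoped ENNReal

namespace Vale.Agent.P165

variable {V : Type*} [DecidableEq V] {G : SimpleGraph V} [G.LocallyFinite]

namespace Env

variable (E : Env G)

/-! weighted norms -/

theorem nw_zero_eq (K : Ker V) : E.nw 0 K = nrm K := by
  simp [nw]

theorem nw_mono (i : ℕ) {K L : Ker V} (h : K ≤ L) : E.nw i K ≤ E.nw i L := by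
  exact nrm_mono fun x y => mul_le_mul_left (h x y) _

theorem nw_mono_exp {i j : ℕ} (h : i ≤ j) (K : Ker V) : E.nw i K ≤ E.nw j K := by
  exact nrm_mono fun x y => mul_le_mul_right (pow_le_pow_right₀ (E.one_le_w1 x y) h) _

theorem nrm_le_nw (i : ℕ) (K : Ker V) : nrm K ≤ E.nw i K := by
  rw [← E.nw_zero_eq]
  exact E.nw_mono_exp (Nat.zero_le i) K

theorem nw_zero (i : ℕ) : E.nw i 0 = 0 := by
  exact (congrArg nrm (funext₂ fun _ _ => zero_mul _)).trans nrm_zero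

theorem nw_add_le (i : ℕ) (K L : Ker V) : E.nw i (K + L) ≤ E.nw i K + E.nw i L := by
  exact (congrArg nrm (funext₂ fun _ _ => add_mul _ _ _)).le.trans (nrm_add_le _ _)

theorem nw_smul (i : ℕ) (c : ℝ≥0∞) (K : Ker V) : E.nw i (c • K) = c * E.nw i K := by
  exact (congrArg nrm (funext₂ fun _ _ => mul_assoc _ _ _)).trans (nrm_smul c _)

theorem nw_ktr (i : ℕ) (K : Ker V) : E.nw i (ktr K) = E.nw i K := by
  refine (congrArg nrm (funext₂ fun x y => ?_)).trans (nrm_ktr _)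
  rw [E.w1_symm]
  rfl

theorem nw_kid_le (i : ℕ) : E.nw i kid ≤ 1 := by
  refine (nrm_mono fun x y => ?_).trans nrm_kid_le
  by_cases h : x = y
  · subst h
    simp [E.w1_self]
  · simp [kid, ind_neg h]

theorem nw_kmul_le (i : ℕ) (K L : Ker V) : E.nw i (kmul K L) ≤ E.nw i K * E.nw i L := by
  refine (nrm_mono fun x z => ?_).trans (nrm_kmul_le _ _)
  simp only [kmul]
  rw [← ENNReal.tsum_mul_right]
  refine ENNReal.tsum_le_tsum fun y => ?_
  rw [mul_mul_mul_comm, ← mul_pow]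
  exact mul_le_mul_right (pow_le_pow_left' (E.w1_le_mul x y z) i) _

theorem nw_kpow_le (i : ℕ) (K : Ker V) (j : ℕ) : E.nw i (kpow K j) ≤ E.nw i K ^ j := by
  induction j with
  | zero => exact (E.nw_kid_le i).trans (pow_zero _).ge
  | succ j ih =>
    rw [pow_succ']
    exact (E.nw_kmul_le i _ _).trans (mul_le_mul_right ih _)

theorem nw_tsum_le {κ : Type*} (i : ℕ) (K : κ → Ker V) :
    E.nw i (fun x y => ∑' j, K j x y) ≤ ∑' j, E.nw i (K j) := by
  exact (congrArg nrm (funext₂ fun _ _ => ENNReal.tsum_mul_right.symm)).le.trans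
    (nrm_tsum_le fun j x y => K j x y * E.w1 x y ^ i)

theorem nw_mul_w1 (i j : ℕ) (K : Ker V) :
    E.nw i (fun x y => K x y * E.w1 x y ^ j) = E.nw (j + i) K := by
  refine congrArg nrm (funext₂ fun x y => ?_)
  rw [pow_add, mul_assoc]


/-- weighted set bound: `φ u ^ 2 ≤ φ u * w1 u z ^ 2 * φ z`, then `quad_le` for `φ` cut to `S` -/
theorem set_bound (K : Ker V) (φ : V → ℝ≥0∞) (hφ : ∀ u z, φ u ≤ E.w1 u z ^ 2 * φ z)
    (S : Finset V) :
    ∑ u ∈ S, ∑ z ∈ S, φ u ^ 2 * K u z ≤ E.nw 2 K * ∑ u ∈ S, φ u ^ 2 := by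
  have h := quad_le (fun x y => K x y * E.w1 x y ^ 2) fun u => ind (u ∈ S) * φ u
  have e : ∑' u, (ind (u ∈ S) * φ u) ^ 2 = ∑ u ∈ S, φ u ^ 2 := by
    rw [sum_eq_tsum_ind]
    refine tsum_congr fun u => ?_
    by_cases hu : u ∈ S <;> simp [ind, hu]
  rw [e] at h
  refine le_trans ?_ h
  rw [sum_eq_tsum_ind]
  refine ENNReal.tsum_le_tsum fun u => ?_
  rw [sum_eq_tsum_ind, ← ENNReal.tsum_mul_left]
  refine ENNReal.tsum_le_tsum fun z => ?_
  calc ind (u ∈ S) * (ind (z ∈ S) * (φ u ^ 2 * K u z))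
      = ind (u ∈ S) * ind (z ∈ S) * φ u * K u z * φ u := by ring
    _ ≤ ind (u ∈ S) * ind (z ∈ S) * φ u * K u z * (E.w1 u z ^ 2 * φ z) :=
      mul_le_mul_right (hφ u z) _
    _ = _ := by ring


/-! tilts and mass transport -/

theorem tl_kmul (i : ℕ) (K L : Ker V) : E.tl i (kmul K L) = kmul (E.tl i K) (E.tl i L) := by
  funext x z
  simp only [tl, kmul]
  rw [← ENNReal.tsum_mul_right]
  refine tsum_congr fun y => ?_
  rw [mul_mul_mul_comm, ← mul_pow, mul_comm (E.τ y x), E.τ_mul]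

theorem tl_kid (i : ℕ) : E.tl i kid = kid := by
  funext x y
  by_cases h : x = y
  · subst h
    simp [tl, E.τ_self]
  · simp [tl, kid, ind_neg h]

theorem tl_inv (i : ℕ) {K : Ker V} (hK : KInv G K) : KInv G (E.tl i K) := by
  exact hK.mul (E.τ_inv.ktr.pow i)


/-- column sums by mass transport (move `b` to its representative, then `E.mtp`) -/
theorem col_le {F : Ker V} (hF : KInv G F) {m : ℝ≥0∞}
    (h : ∀ a, ∑' y, F a y * E.τ a y ^ (2 * E.n) ≤ m) (b : V) :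
    ∑' x, F x b ≤ E.reps.card * m := by
  obtain ⟨a, ha, φ, rfl⟩ := E.cover b
  rw [hF.col φ a, ← nsmul_eq_mul]
  refine (Finset.single_le_sum (f := fun b => ∑' x, F x b) (fun _ _ => zero_le) ha).trans ?_
  rw [← E.mtp F hF]
  exact Finset.sum_le_card_nsmul _ _ _ fun a _ => h a


/-- tilted row sums by mass transport -/
theorem row_le {F : Ker V} (hF : KInv G F) {m : ℝ≥0∞} (h : ∀ b, ∑' x, F x b ≤ m) (a : V) :
    ∑' y, F a y * E.τ a y ^ (2 * E.n) ≤ E.reps.card * m := by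
  obtain ⟨b, hb, φ, rfl⟩ := E.cover a
  rw [(hF.mul (E.τ_inv.pow (2 * E.n))).row φ b, ← nsmul_eq_mul]
  refine (Finset.single_le_sum (f := fun a => ∑' y, F a y * E.τ a y ^ (2 * E.n))
    (fun _ _ => zero_le) hb).trans ?_
  rw [E.mtp F hF]
  exact Finset.sum_le_card_nsmul _ _ _ fun a _ => h a


theorem τ_pow_cancel (x y : V) (i j : ℕ) : E.τ y x ^ i * E.τ x y ^ (i + j) = E.τ x y ^ j := by
  rw [pow_add, ← mul_assoc, ← mul_pow, E.τ_mul_symm, one_pow, one_mul]

/-- Schur test with `h y = τ o y ^ n`; the column bound is `col_le` for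
`F x y = K x y * τ y x ^ n` -/
theorem nrm_le_schur {K : Ker V} (hK : KInv G K) {m : ℝ≥0∞}
    (h : ∀ a, ∑' y, K a y * E.τ a y ^ E.n ≤ m) : nrm K ≤ E.reps.card * m := by
  rcases isEmpty_or_nonempty V with hV | ⟨⟨o⟩⟩
  · rw [show K = 0 from funext fun x => isEmptyElim x, nrm_zero]
    exact zero_le
  have hc := E.col_le (E.tl_inv E.n hK) (m := m) fun a => by
    simp only [tl, mul_assoc, two_mul, E.τ_pow_cancel]
    exact h a
  have hs := schur (K := K) (fun y => E.τ o y ^ E.n) (fun x => pow_ne_zero _ (E.τ_ne_zero o x))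
    (fun x => ENNReal.pow_ne_top (E.τ_ne_top o x)) (a := m) (b := E.reps.card * m)
    (fun x => by
      refine le_trans (le_of_eq ?_) (mul_le_mul_left (h x) _)
      rw [← ENNReal.tsum_mul_right]
      refine tsum_congr fun y => ?_
      rw [mul_assoc, ← mul_pow, mul_comm (E.τ x y), E.τ_mul])
    (fun y => by
      refine le_trans (le_of_eq ?_) (mul_le_mul_left (hc y) _)
      rw [← ENNReal.tsum_mul_right]
      refine tsum_congr fun x => ?_
      rw [tl, mul_assoc, ← mul_pow, mul_comm (E.τ y x), E.τ_mul])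
  refine (ENNReal.pow_le_pow_left_iff two_ne_zero).1 (hs.trans ?_)
  rw [pow_two]
  exact mul_le_mul_left (le_mul_of_one_le_left' (E.one_le_card_reps o)) _


theorem nrm_tl_n_le {K : Ker V} (hK : KInv G K) {m : ℝ≥0∞} (h : ∀ a, ∑' y, K a y ≤ m) :
    nrm (E.tl E.n K) ≤ E.reps.card * m := by
  refine E.nrm_le_schur (E.tl_inv _ hK) fun a => le_trans (le_of_eq (tsum_congr fun y => ?_)) (h a)
  rw [tl, mul_assoc, ← mul_pow, E.τ_mul_symm, one_pow, mul_one]


theorem nrm_tl_pred_le {K : Ker V} (hK : KInv G K) {m : ℝ≥0∞}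
    (h : ∀ a, ∑' y, K a y * E.τ a y ≤ m) : nrm (E.tl (E.n - 1) K) ≤ E.reps.card * m := by
  refine E.nrm_le_schur (E.tl_inv _ hK) fun a => le_trans (le_of_eq (tsum_congr fun y => ?_)) (h a)
  have := E.τ_pow_cancel a y (E.n - 1) 1
  rw [Nat.sub_add_cancel (by have := E.n_ge; omega), pow_one] at this
  rw [tl, mul_assoc, this]


theorem nrm_tl_succ_le {K : Ker V} (hK : KInv G K) {m : ℝ≥0∞}
    (h : ∀ a, ∑' y, K a y * E.τ y a ≤ m) : nrm (E.tl (E.n + 1) K) ≤ E.reps.card * m := by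
  refine E.nrm_le_schur (E.tl_inv _ hK) fun a => le_trans (le_of_eq (tsum_congr fun y => ?_)) (h a)
  rw [tl, mul_assoc, mul_comm (E.τ y a ^ _), E.τ_pow_cancel, pow_one]


/-- interpolation: pointwise `t ^ (n-1) ≤ e * t ^ n + e⁻¹ ^ (n-1)` -/
theorem nrm_tl_pred_interp (K : Ker V) {e : ℝ≥0∞} (he : e ≠ 0) (he' : e ≠ ⊤) :
    nrm (E.tl (E.n - 1) K) ≤ e * nrm (E.tl E.n K) + e⁻¹ ^ (E.n - 1) * nrm K := by
  rw [← nrm_smul, ← nrm_smul]
  refine (nrm_mono fun x y => ?_).trans (nrm_add_le _ _)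
  simp only [tl, Pi.add_apply, Pi.smul_apply, smul_eq_mul]
  rw [mul_left_comm, mul_comm _ (K x y), ← mul_add]
  refine mul_le_mul_right ?_ _
  rcases le_total (E.τ y x) e⁻¹ with h | h
  · exact le_add_left (pow_le_pow_left' h _)
  · refine le_add_right ?_
    have h1 : 1 ≤ e * E.τ y x := by
      rw [← ENNReal.mul_inv_cancel he he']
      exact mul_le_mul_right h _
    have h2 : E.τ y x ^ E.n = E.τ y x * E.τ y x ^ (E.n - 1) := by
      rw [← pow_succ', Nat.sub_add_cancel (by have := E.n_ge; omega)]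
    rw [h2, ← mul_assoc]
    exact le_mul_of_one_le_left' h1


theorem tl_mono (i : ℕ) {K L : Ker V} (h : K ≤ L) : E.tl i K ≤ E.tl i L :=
  fun x y => mul_le_mul_left (h x y) _

theorem tl_smul (i : ℕ) (c : ℝ≥0∞) (K : Ker V) : E.tl i (c • K) = c • E.tl i K :=
  funext₂ fun _ _ => mul_assoc _ _ _

theorem Np_mono {K L : Ker V} (h : K ≤ L) : E.Np K ≤ E.Np L := by
  exact max_le_max (nrm_mono h) (nrm_mono (E.tl_mono _ h))

theorem Nm_mono {K L : Ker V} (h : K ≤ L) : E.Nm K ≤ E.Nm L := by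
  exact max_le_max (nrm_mono h) (nrm_mono (E.tl_mono _ h))

theorem Np_kmul_le (K L : Ker V) : E.Np (kmul K L) ≤ E.Np K * E.Np L := by
  refine max_le ((nrm_kmul_le _ _).trans (mul_le_mul' (le_max_left _ _) (le_max_left _ _))) ?_
  rw [E.tl_kmul]
  exact (nrm_kmul_le _ _).trans (mul_le_mul' (le_max_right _ _) (le_max_right _ _))

theorem Nm_kmul_le (K L : Ker V) : E.Nm (kmul K L) ≤ E.Nm K * E.Nm L := by
  refine max_le ((nrm_kmul_le _ _).trans (mul_le_mul' (le_max_left _ _) (le_max_left _ _))) ?_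
  rw [E.tl_kmul]
  exact (nrm_kmul_le _ _).trans (mul_le_mul' (le_max_right _ _) (le_max_right _ _))

theorem Np_smul (c : ℝ≥0∞) (K : Ker V) : E.Np (c • K) = c * E.Np K := by
  rw [Np, Np, E.tl_smul, nrm_smul, nrm_smul, mul_max]

theorem Nm_smul (c : ℝ≥0∞) (K : Ker V) : E.Nm (c • K) = c * E.Nm K := by
  rw [Nm, Nm, E.tl_smul, nrm_smul, nrm_smul, mul_max]

theorem Np_kid_le : E.Np kid ≤ 1 := by
  rw [Np, E.tl_kid, max_self]
  exact nrm_kid_le

theorem Nm_kid_le : E.Nm kid ≤ 1 := by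
  rw [Nm, E.tl_kid, max_self]
  exact nrm_kid_le

theorem Np_tsum_le {κ : Type*} (K : κ → Ker V) :
    E.Np (fun x y => ∑' j, K j x y) ≤ ∑' j, E.Np (K j) := by
  refine max_le ((nrm_tsum_le K).trans (ENNReal.tsum_le_tsum fun j => le_max_left _ _)) ?_
  exact (congrArg nrm (funext₂ fun _ _ => ENNReal.tsum_mul_right.symm)).le.trans
    ((nrm_tsum_le fun j => E.tl (E.n - 1) (K j)).trans
      (ENNReal.tsum_le_tsum fun j => le_max_right _ _))


theorem nrm_ballK_le (L : ℕ) : nrm (ballK G L) ≤ ((E.D : ℝ≥0∞) + 1) ^ L := by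
  have h : ∀ x, ∑' y, ballK G L x y ≤ ((E.D : ℝ≥0∞) + 1) ^ L := fun x => by
    have h1 := sum_eq_tsum_ind (ball G x L) fun _ => 1
    simp only [mul_one, Finset.sum_const, nsmul_eq_mul] at h1
    refine le_trans h1.ge ?_
    exact_mod_cast card_ball_le E.deg_le x L
  refine nrm_le_of_row_col h fun y => le_trans (ENNReal.tsum_le_tsum fun x => ?_) (h y)
  exact ind_mono mem_ball_symm


/-- finite range kernels: compare with `c • ballK`, whose rows and columns are bounded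
(`nrm_le_of_row_col`, `card_ball_le`, `τ_ball`) -/
theorem Nm_ne_top_of_range {K : Ker V} {c : ℝ≥0∞} (hc : c ≠ ⊤) (L : ℕ)
    (h : ∀ x y, K x y ≤ c * ballK G L x y) : E.Nm K ≠ ⊤ := by
  have h0 : nrm (ballK G L) ≠ ⊤ := ne_top_of_le_ne_top (by finiteness) (E.nrm_ballK_le L)
  have h1 : E.tl (E.n + 1) (ballK G L) ≤ (E.r ^ L) ^ (E.n + 1) • ballK G L := fun x y => by
    simp only [tl, ballK, Pi.smul_apply, smul_eq_mul]
    by_cases hy : y ∈ ball G x L
    · rw [mul_comm]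
      exact mul_le_mul_left (pow_le_pow_left' (E.τ_ball (mem_ball_symm hy)) _) _
    · simp [ind_neg hy]
  have h2 := nrm_mono h1
  rw [nrm_smul] at h2
  have h3 := ne_top_of_le_ne_top (ENNReal.mul_ne_top
    (ENNReal.pow_ne_top (ENNReal.pow_ne_top E.r_ne_top)) h0) h2
  refine ne_top_of_le_ne_top ?_ (E.Nm_mono (L := c • ballK G L) h)
  rw [E.Nm_smul]
  exact ENNReal.mul_ne_top hc (max_lt h0.lt_top h3.lt_top).ne


/-! trace size -/

theorem tr_mono {K K' : Ker V} {β β' : ℝ≥0∞} (h : E.Tr K β) (hK : K' ≤ K) (hβ : β ≤ β') :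
    E.Tr K' β' := by
  intro X Y hX hY u
  refine (kmul_mono (kmul_mono le_rfl hK) le_rfl u u).trans ((h X Y hX hY u).trans ?_)
  gcongr

theorem tr_zero : E.Tr 0 0 := by
  intro X Y _ _ u
  rw [kmul_zero, zero_kmul]
  exact zero_le

theorem tr_add {K L : Ker V} {a b : ℝ≥0∞} (hK : E.Tr K a) (hL : E.Tr L b) :
    E.Tr (K + L) (a + b) := by
  intro X Y hX hY u
  rw [kmul_add, add_kmul, add_mul, add_mul]
  exact add_le_add (hK X Y hX hY u) (hL X Y hX hY u)

theorem tr_smul {K : Ker V} {a : ℝ≥0∞} (c : ℝ≥0∞) (hK : E.Tr K a) : E.Tr (c • K) (c * a) := by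
  intro X Y hX hY u
  rw [kmul_smul, smul_kmul, mul_assoc c, mul_assoc c]
  exact mul_le_mul_right (hK X Y hX hY u) c

theorem tr_left {K Z : Ker V} {a : ℝ≥0∞} (hZ : KInv G Z) (hK : E.Tr K a) :
    E.Tr (kmul Z K) (E.Np Z * a) := by
  intro X Y hX hY u
  rw [← kmul_assoc X Z]
  refine (hK _ Y (hX.kmul hZ) hY u).trans (mul_le_mul_left ?_ _)
  calc a * E.Np (kmul X Z) ≤ a * (E.Np X * E.Np Z) := mul_le_mul_right (E.Np_kmul_le X Z) _
    _ = _ := by ring

theorem tr_right {K Z : Ker V} {a : ℝ≥0∞} (hZ : KInv G Z) (hK : E.Tr K a) :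
    E.Tr (kmul K (ktr Z)) (a * E.Nm Z) := by
  intro X Y hX hY u
  rw [← kmul_assoc X K, kmul_assoc _ (ktr Z), ← ktr_kmul]
  refine (hK X _ hX (hY.kmul hZ) u).trans ?_
  calc a * E.Np X * E.Nm (kmul Y Z) ≤ a * E.Np X * (E.Nm Y * E.Nm Z) :=
        mul_le_mul_right (E.Nm_kmul_le Y Z) _
    _ = _ := by ring

theorem tr_nrm (K : Ker V) : E.Tr K (nrm K) := by
  intro X Y _ _ u
  refine (le_nrm _ u u).trans ((nrm_kmul_le _ _).trans ?_)
  rw [nrm_ktr, mul_comm (nrm K)]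
  exact mul_le_mul' ((nrm_kmul_le _ _).trans (mul_le_mul_left (le_max_left _ _) _))
    (le_max_left _ _)

theorem tr_diag {K X : Ker V} {β : ℝ≥0∞} (h : E.Tr K β) (hX : KInv G X) (a : V) :
    kmul X K a a ≤ β * E.Np X := by
  have := h X kid hX KInv.kid a
  rw [ktr_kid, kmul_kid] at this
  exact this.trans (mul_le_of_le_one_right' E.Nm_kid_le)

theorem tr_local {K : Ker V} {β : ℝ≥0∞} (h : E.Tr K β) {x y : V} {L : ℕ} (hy : y ∈ ball G x L) :
    K x y ≤ β * E.Nm (ballK G L) := by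
  have h1 := h kid (ballK G L) KInv.kid (ballK_inv L) x
  rw [kid_kmul] at h1
  refine le_trans ?_ (h1.trans (mul_le_mul_left (mul_le_of_le_one_right' E.Np_kid_le) _))
  refine le_trans (le_of_eq ?_) (ENNReal.le_tsum y)
  rw [ktr, ballK, ind_pos hy, mul_one]


end Env

end Vale.Agent.P165
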