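import Mathlib
import Vale.Agent.P165.Geo

/-!
Spectral gap of the lazy walk.
-/

open scoped ENNReal

namespace Vale.Agent.P165

variable {V : Type*} [DecidableEq V] {G : SimpleGraph V} [G.LocallyFinite]

theorem Pk_symm (D : ℕ) (x y : V) : Pk G D x y = Pk G D y x := by
  unfold Pk
  rw [ind_congr (G.adj_comm x y)]
  by_cases h : x = y
  · subst h; rfl
  · rw [ind_neg h, ind_neg (Ne.symm h), zero_mul, zero_mul]

theorem Pk_row {D : ℕ} (hD0 : 0 < D) (hD : ∀ x, G.degree x ≤ D) (x : V) :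
    ∑' y, Pk G D x y = 1 := by
  unfold Pk
  rw [ENNReal.tsum_add, tsum_ind_eq x fun _ => 1 - (G.degree x : ℝ≥0∞) * (2 * (D : ℝ≥0∞))⁻¹]
  have h1 : ∑' y, ind (G.Adj x y) * (2 * (D : ℝ≥0∞))⁻¹
      = (G.degree x : ℝ≥0∞) * (2 * (D : ℝ≥0∞))⁻¹ := by
    simp only [← G.mem_neighborFinset]
    rw [← sum_eq_tsum_ind, Finset.sum_const, nsmul_eq_mul, G.card_neighborFinset_eq_degree]
  rw [h1]
  refine add_tsub_cancel_of_le ?_
  rw [← div_eq_mul_inv]
  refine ENNReal.div_le_of_le_mul ?_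
  have : G.degree x ≤ 2 * D := by have := hD x; omega
  rw [one_mul]
  exact_mod_cast this

theorem Pk_inv (D : ℕ) : KInv G (Pk G D) := by
  intro φ x y
  unfold Pk
  rw [ind_congr φ.map_adj_iff, ind_congr φ.injective.eq_iff, φ.degree_eq]

theorem Pk_supp {D : ℕ} {x y : V} (h : Pk G D x y ≠ 0) : x = y ∨ G.Adj x y := by
  by_contra hc
  rw [not_or] at hc
  exact h (by unfold Pk; rw [ind_neg hc.1, ind_neg hc.2, zero_mul, zero_mul, add_zero])

namespace CheegerAux

theorem bdry_le (A : Finset V) : ((vertexBoundary G (A : Set V)).ncard : ℝ)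
    ≤ ∑ x ∈ A, ∑ y ∈ G.neighborFinset x, if y ∈ A then (0 : ℝ) else 1 := by
  have h1 : vertexBoundary G (A : Set V)
      = ↑(A.biUnion fun x => (G.neighborFinset x).filter (· ∉ A)) := by
    ext v
    simp only [vertexBoundary, Set.mem_ofPred_eq, Finset.mem_coe, Finset.mem_biUnion,
      Finset.mem_filter, SimpleGraph.mem_neighborFinset]
    exact ⟨fun ⟨h, a, ha, h'⟩ => ⟨a, ha, h', h⟩, fun ⟨a, ha, h', h⟩ => ⟨h, a, ha, h'⟩⟩
  rw [h1, Set.ncard_coe_finset]
  have h2 := Finset.card_biUnion_le (s := A) (t := fun x => (G.neighborFinset x).filter (· ∉ A))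
  refine le_trans (Nat.cast_le.2 h2) (le_of_eq ?_)
  push_cast
  refine Finset.sum_congr rfl fun x _ => ?_
  rw [Finset.card_filter]
  push_cast
  exact Finset.sum_congr rfl fun y _ => ite_not _ _ _

theorem coarea {h : ℝ} (hN : ∀ A : Finset V, A.Nonempty →
    h * (A.card : ℝ) ≤ ((vertexBoundary G (A : Set V)).ncard : ℝ)) (A : Finset V) :
    ∀ F : V → ℝ, (∀ x, 0 ≤ F x) → (∀ x ∉ A, F x = 0) →
      h * ∑ x ∈ A, F x ≤ ∑ x ∈ A, ∑ y ∈ G.neighborFinset x, max (F x - F y) 0 := by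
  induction A using Finset.strongInduction with
  | H A ih =>
    intro F hF0 hF
    rcases A.eq_empty_or_nonempty with rfl | hA
    · simp
    obtain ⟨a, ha, hmin⟩ := A.exists_min_image F hA
    set F' : V → ℝ := fun x => if x ∈ A then F x - F a else 0 with hF'
    have hF'a : F' a = 0 := by simp [hF', ha]
    have h1 := ih (A.erase a) (Finset.erase_ssubset ha) F'
      (fun x => by
        simp only [hF']
        split_ifs with hx
        · exact sub_nonneg.2 (hmin x hx)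
        · exact le_rfl)
      (fun x hx => by
        by_cases hxa : x = a
        · rw [hxa, hF'a]
        · exact if_neg fun h => hx (Finset.mem_erase.2 ⟨hxa, h⟩))
    rw [Finset.sum_erase _ hF'a] at h1
    have h2 : ∑ x ∈ A.erase a, ∑ y ∈ G.neighborFinset x, max (F' x - F' y) 0
        ≤ ∑ x ∈ A, ∑ y ∈ G.neighborFinset x, max (F' x - F' y) 0 :=
      Finset.sum_le_sum_of_subset_of_nonneg (Finset.erase_subset _ _) fun _ _ _ =>
        Finset.sum_nonneg fun _ _ => le_max_right _ _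
    have h3 : ∑ x ∈ A, F x = ∑ x ∈ A, F' x + F a * A.card := by
      rw [mul_comm, ← nsmul_eq_mul, ← Finset.sum_const, ← Finset.sum_add_distrib]
      exact Finset.sum_congr rfl fun x hx => by simp [hF', hx]
    have h4 : ∑ x ∈ A, ∑ y ∈ G.neighborFinset x, max (F x - F y) 0
        = ∑ x ∈ A, ∑ y ∈ G.neighborFinset x, max (F' x - F' y) 0
          + F a * ∑ x ∈ A, ∑ y ∈ G.neighborFinset x, if y ∈ A then (0 : ℝ) else 1 := by
      simp only [Finset.mul_sum, ← Finset.sum_add_distrib]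
      refine Finset.sum_congr rfl fun x hx => Finset.sum_congr rfl fun y _ => ?_
      by_cases hy : y ∈ A
      · simp [hF', hx, hy]
      · simp only [hF', if_pos hx, if_neg hy, hF y hy, sub_zero, mul_one]
        rw [max_eq_left (hF0 x), max_eq_left (sub_nonneg.2 (hmin x hx))]
        ring
    have h5 := mul_le_mul_of_nonneg_left ((hN A hA).trans (bdry_le A)) (hF0 a)
    rw [h3, h4]
    linarith

theorem energy {h : ℝ} (h0 : 0 < h) (hN : ∀ A : Finset V, A.Nonempty →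
    h * (A.card : ℝ) ≤ ((vertexBoundary G (A : Set V)).ncard : ℝ)) {D : ℕ} (hD0 : 0 < D)
    (hD : ∀ x, G.degree x ≤ D) {A : Finset V} (g : V → ℝ) (hg0 : ∀ x, 0 ≤ g x)
    (hg : ∀ x ∉ A, g x = 0) :
    h ^ 2 / (4 * D) * ∑ x ∈ A, g x ^ 2
      ≤ ∑ x ∈ A, ∑ y ∈ G.neighborFinset x, (g x - g y) ^ 2 := by
  have hD' : (0 : ℝ) < D := by exact_mod_cast hD0
  have h1 := coarea hN A (fun x => g x ^ 2) (fun _ => sq_nonneg _) fun x hx => by simp [hg x hx]
  have h2 : ∑ x ∈ A, ∑ y ∈ G.neighborFinset x, max (g x ^ 2 - g y ^ 2) 0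
      ≤ 2 * D / h * ∑ x ∈ A, ∑ y ∈ G.neighborFinset x, (g x - g y) ^ 2
        + h / 2 * ∑ x ∈ A, g x ^ 2 := by
    simp only [Finset.mul_sum, ← Finset.sum_add_distrib]
    refine Finset.sum_le_sum fun x _ => ?_
    have h3 : ∑ _y ∈ G.neighborFinset x, h / (2 * D) * g x ^ 2 ≤ h / 2 * g x ^ 2 := by
      rw [Finset.sum_const, nsmul_eq_mul, G.card_neighborFinset_eq_degree]
      have h4 : (G.degree x : ℝ) ≤ D := by exact_mod_cast hD x
      refine (mul_le_mul_of_nonneg_right h4 (by positivity)).trans (le_of_eq ?_)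
      field_simp
    refine le_trans ?_ (add_le_add le_rfl h3)
    rw [← Finset.sum_add_distrib]
    refine Finset.sum_le_sum fun y _ => max_le ?_ (by positivity)
    have h5 : 0 ≤ 2 * D / h * (g x - g y - h / (2 * D) * g x) ^ 2 := by positivity
    have h6 : 2 * D / h * (g x - g y - h / (2 * D) * g x) ^ 2
        = 2 * D / h * (g x - g y) ^ 2 + h / (2 * D) * g x ^ 2 - 2 * (g x - g y) * g x := by
      field_simp
      ring
    nlinarith [sq_nonneg (g x - g y)]
  have h3 : h / 2 * ∑ x ∈ A, g x ^ 2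
      ≤ 2 * D / h * ∑ x ∈ A, ∑ y ∈ G.neighborFinset x, (g x - g y) ^ 2 := by linarith
  have h4 := mul_le_mul_of_nonneg_left h3 (by positivity : 0 ≤ h / (2 * D))
  refine le_trans (le_of_eq ?_) (h4.trans (le_of_eq ?_))
  · field_simp
    ring
  · field_simp

variable (G) in
/-- the real kernel -/
noncomputable def pr (D : ℕ) (x y : V) : ℝ :=
  (if y ∈ G.neighborFinset x then 1 / (2 * (D : ℝ)) else 0)
    + if x = y then 1 - (G.degree x : ℝ) / (2 * D) else 0

theorem half_le {D : ℕ} (hD0 : 0 < D) (hD : ∀ x, G.degree x ≤ D) (x : V) :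
    1 / 2 ≤ 1 - (G.degree x : ℝ) / (2 * D) := by
  have hD' : (0 : ℝ) < D := by exact_mod_cast hD0
  have h4 : (G.degree x : ℝ) ≤ D := by exact_mod_cast hD x
  have : (G.degree x : ℝ) / (2 * D) ≤ 1 / 2 := by
    rw [div_le_iff₀ (by positivity)]
    linarith
  linarith

theorem pr_nonneg {D : ℕ} (hD0 : 0 < D) (hD : ∀ x, G.degree x ≤ D) (x y : V) :
    0 ≤ pr G D x y := by
  have := half_le hD0 hD x
  unfold pr
  refine add_nonneg ?_ ?_ <;> split_ifs <;> positivity

theorem ofReal_pr {D : ℕ} (hD0 : 0 < D) (hD : ∀ x, G.degree x ≤ D) (x y : V) :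
    ENNReal.ofReal (pr G D x y) = Pk G D x y := by
  have hD' : (0 : ℝ) < D := by exact_mod_cast hD0
  have e1 : ENNReal.ofReal (1 / (2 * (D : ℝ))) = (2 * (D : ℝ≥0∞))⁻¹ := by
    rw [one_div, ENNReal.ofReal_inv_of_pos (by positivity), ENNReal.ofReal_mul (by norm_num)]
    simp
  unfold pr Pk
  by_cases h : x = y
  · subst h
    rw [if_neg (by simp), if_pos rfl, ind_neg (by simp), ind_pos rfl, zero_add, zero_mul, zero_add,
      one_mul, ENNReal.ofReal_sub _ (by positivity), div_eq_mul_one_div,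
      ENNReal.ofReal_mul (by positivity), e1]
    simp
  · rw [if_neg h, ind_neg h, zero_mul, add_zero, add_zero]
    by_cases h1 : G.Adj x y
    · rw [if_pos ((G.mem_neighborFinset _ _).2 h1), ind_pos h1, one_mul, e1]
    · rw [if_neg (fun h2 => h1 ((G.mem_neighborFinset _ _).1 h2)), ind_neg h1, zero_mul,
        ENNReal.ofReal_zero]

theorem sum_pr (D : ℕ) (W : Finset V) (u : V → V → ℝ) :
    ∑ x ∈ W, ∑ y ∈ W, pr G D x y * u x y
      = 1 / (2 * (D : ℝ)) * ∑ x ∈ W, ∑ y ∈ W, (if y ∈ G.neighborFinset x then u x y else 0)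
        + ∑ x ∈ W, (1 - (G.degree x : ℝ) / (2 * D)) * u x x := by
  simp only [pr, add_mul, Finset.sum_add_distrib, ite_mul, zero_mul, Finset.mul_sum, mul_ite,
    mul_zero, Finset.sum_ite_eq]
  congr 1
  exact Finset.sum_congr rfl fun x hx => if_pos hx

theorem sum_nb_le (W : Finset V) (x : V) {a : ℝ} (ha : 0 ≤ a) :
    ∑ y ∈ W, (if y ∈ G.neighborFinset x then a else 0) ≤ G.degree x * a := by
  rw [Finset.sum_ite_mem, Finset.sum_const, nsmul_eq_mul]
  refine mul_le_mul_of_nonneg_right ?_ ha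
  exact_mod_cast (Finset.card_le_card Finset.inter_subset_right).trans
    (G.card_neighborFinset_eq_degree x).le

theorem sum_nb_comm (W : Finset V) (u : V → V → ℝ) :
    ∑ x ∈ W, ∑ y ∈ W, (if y ∈ G.neighborFinset x then u x y else 0)
      = ∑ y ∈ W, ∑ x ∈ W, (if x ∈ G.neighborFinset y then u x y else 0) := by
  rw [Finset.sum_comm]
  refine Finset.sum_congr rfl fun y _ => Finset.sum_congr rfl fun x _ => if_congr ?_ rfl rfl
  rw [G.mem_neighborFinset, G.mem_neighborFinset, G.adj_comm]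

theorem real_main {h : ℝ} (h0 : 0 < h) (hN : ∀ A : Finset V, A.Nonempty →
    h * (A.card : ℝ) ≤ ((vertexBoundary G (A : Set V)).ncard : ℝ)) {D : ℕ} (hD0 : 0 < D)
    (hD : ∀ x, G.degree x ≤ D) {A W : Finset V} (f g : V → ℝ) (hg0 : ∀ x, 0 ≤ g x)
    (hg : ∀ x ∉ A, g x = 0) (hAW : A ⊆ W) (hNW : ∀ y ∈ A, G.neighborFinset y ⊆ W) :
    2 * ∑ x ∈ W, ∑ y ∈ W, f x * pr G D x y * g y
      ≤ ∑ x ∈ W, f x ^ 2 + (1 - h ^ 2 / (16 * D ^ 2)) * ∑ y ∈ W, g y ^ 2 := by
  have hD' : (0 : ℝ) < D := by exact_mod_cast hD0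
  have e1 : 2 * ∑ x ∈ W, ∑ y ∈ W, f x * pr G D x y * g y
      = ∑ x ∈ W, ∑ y ∈ W, pr G D x y * f x ^ 2 + ∑ x ∈ W, ∑ y ∈ W, pr G D x y * g y ^ 2
        - ∑ x ∈ W, ∑ y ∈ W, pr G D x y * (f x - g y) ^ 2 := by
    simp only [Finset.mul_sum, ← Finset.sum_add_distrib, ← Finset.sum_sub_distrib]
    exact Finset.sum_congr rfl fun _ _ => Finset.sum_congr rfl fun _ _ => by ring
  have row : ∀ u : V → ℝ, 1 / (2 * (D : ℝ)) *
      ∑ x ∈ W, ∑ y ∈ W, (if y ∈ G.neighborFinset x then u x ^ 2 else 0)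
        + ∑ x ∈ W, (1 - (G.degree x : ℝ) / (2 * D)) * u x ^ 2 ≤ ∑ x ∈ W, u x ^ 2 := by
    intro u
    rw [Finset.mul_sum, ← Finset.sum_add_distrib]
    refine Finset.sum_le_sum fun x _ => ?_
    have := mul_le_mul_of_nonneg_left (sum_nb_le (G := G) W x (sq_nonneg (u x)))
      (by positivity : 0 ≤ 1 / (2 * (D : ℝ)))
    refine (add_le_add this le_rfl).trans (le_of_eq ?_)
    ring
  have h1 : ∑ x ∈ W, ∑ y ∈ W, pr G D x y * f x ^ 2 ≤ ∑ x ∈ W, f x ^ 2 := by
    rw [sum_pr D W fun x _ => f x ^ 2]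
    exact row f
  have h2 : ∑ x ∈ W, ∑ y ∈ W, pr G D x y * g y ^ 2 ≤ ∑ x ∈ W, g x ^ 2 := by
    rw [sum_pr D W fun _ y => g y ^ 2, sum_nb_comm]
    exact row g
  set a := ∑ x ∈ W, ∑ y ∈ W, (if y ∈ G.neighborFinset x then (f x - g y) ^ 2 else 0) with ha
  set b := ∑ x ∈ W, (f x - g x) ^ 2 with hb
  have h3 : 1 / (2 * (D : ℝ)) * a + 1 / 2 * b
      ≤ ∑ x ∈ W, ∑ y ∈ W, pr G D x y * (f x - g y) ^ 2 := by
    rw [sum_pr D W fun x y => (f x - g y) ^ 2, hb, Finset.mul_sum (a := 1 / 2)]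
    exact add_le_add le_rfl (Finset.sum_le_sum fun x _ =>
      mul_le_mul_of_nonneg_right (half_le hD0 hD x) (sq_nonneg _))
  have h4 : ∑ y ∈ A, ∑ x ∈ G.neighborFinset y, (g y - g x) ^ 2 ≤ 2 * a + 2 * D * b := by
    calc _ = ∑ y ∈ A, ∑ x ∈ W, (if x ∈ G.neighborFinset y then (g y - g x) ^ 2 else 0) := by
          refine Finset.sum_congr rfl fun y hy => ?_
          rw [Finset.sum_ite_mem, Finset.inter_eq_right.2 (hNW y hy)]
      _ ≤ ∑ y ∈ W, ∑ x ∈ W, (if x ∈ G.neighborFinset y then (g y - g x) ^ 2 else 0) :=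
          Finset.sum_le_sum_of_subset_of_nonneg hAW fun _ _ _ => Finset.sum_nonneg fun _ _ => by
            split_ifs
            · exact sq_nonneg _
            · exact le_rfl
      _ = ∑ x ∈ W, ∑ y ∈ W, (if y ∈ G.neighborFinset x then (g y - g x) ^ 2 else 0) :=
          (sum_nb_comm W fun x y => (g y - g x) ^ 2).symm
      _ ≤ _ := by
          rw [ha, hb, Finset.mul_sum, Finset.mul_sum, ← Finset.sum_add_distrib]
          refine Finset.sum_le_sum fun x _ => ?_
          have h5 := sum_nb_le (G := G) W x (sq_nonneg (f x - g x))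
          have h6 : (G.degree x : ℝ) ≤ D := by exact_mod_cast hD x
          have h7 := mul_le_mul_of_nonneg_right h6 (sq_nonneg (f x - g x))
          have h8 : ∑ y ∈ W, (if y ∈ G.neighborFinset x then (g y - g x) ^ 2 else 0)
              ≤ 2 * ∑ y ∈ W, (if y ∈ G.neighborFinset x then (f x - g y) ^ 2 else 0)
                + 2 * ∑ y ∈ W, (if y ∈ G.neighborFinset x then (f x - g x) ^ 2 else 0) := by
            rw [Finset.mul_sum, Finset.mul_sum, ← Finset.sum_add_distrib]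
            refine Finset.sum_le_sum fun y _ => ?_
            split_ifs
            · nlinarith [sq_nonneg (2 * f x - g y - g x)]
            · simp
          linarith
  have h5 := (energy h0 hN hD0 hD g hg0 hg).trans h4
  rw [Finset.sum_subset hAW fun x _ hx => by simp [hg x hx]] at h5
  have h6 := mul_le_mul_of_nonneg_left h5 (by positivity : 0 ≤ 1 / (4 * (D : ℝ)))
  have e2 : 1 / (4 * (D : ℝ)) * (2 * a + 2 * D * b) = 1 / (2 * (D : ℝ)) * a + 1 / 2 * b := by
    field_simp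
    ring
  have e3 : 1 / (4 * (D : ℝ)) * (h ^ 2 / (4 * D) * ∑ x ∈ W, g x ^ 2)
      = h ^ 2 / (16 * D ^ 2) * ∑ x ∈ W, g x ^ 2 := by
    field_simp
    ring
  rw [e2, e3] at h6
  rw [e1]
  linarith

end CheegerAux

/-- Cheeger's inequality. By `nrm_le_of_sq` and monotone convergence it is enough to bound
`‖P g‖² ≤ ρ² ‖g‖²` for finitely supported finite `g ≥ 0` (pass to reals).
`‖g‖² - ‖P g‖² = ½ ∑ P²(x,y) (g x - g y)²` and `P²(x,y) ≥ 1/(2D)` for neighbours. Co-area (layer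
cake over the finitely many values of `g²`): `h ∑ g² ≤ ∑_{x ∼ y, g x > g y} (g x ² - g y ²)`,
since each point of the vertex boundary of a level set is the end of a boundary edge; then
Cauchy–Schwarz with `(g x + g y)² ≤ 2 g x ² + 2 g y ²`. -/
theorem cheeger (hN : Nonamenable G) {D : ℕ} (hD0 : 0 < D) (hD : ∀ x, G.degree x ≤ D) :
    nrm (Pk G D) < 1 := by
  obtain ⟨h, h0, hN⟩ := hN
  have hD' : (0 : ℝ) < D := by exact_mod_cast hD0
  set c : ℝ := min (h ^ 2 / (16 * D ^ 2)) 1 with hc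
  have hc0 : 0 < c := lt_min (by positivity) one_pos
  refine lt_of_le_of_lt (b := ENNReal.ofReal (1 - c / 2)) ?_
    (ENNReal.ofReal_lt_one.2 (by linarith))
  refine iSup_le fun f => iSup_le fun g => iSup_le fun hf => iSup_le fun hg => ?_
  have hft : ∀ {f : V → ℝ≥0∞}, ∑' x, f x ^ 2 ≤ 1 → ∀ x, f x ≠ ⊤ := fun hf x hx => by
    have := (ENNReal.le_tsum (f := fun x => _ ^ 2) x).trans hf
    simp [hx] at this
  have hsq : ∀ {f : V → ℝ≥0∞}, ∑' x, f x ^ 2 ≤ 1 → ∀ W : Finset V,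
      ∑ x ∈ W, (f x).toReal ^ 2 ≤ 1 := fun {f} hf W => by
    have h1 := ENNReal.toReal_mono ENNReal.one_ne_top ((ENNReal.sum_le_tsum W).trans hf)
    rw [ENNReal.toReal_sum fun x _ => ENNReal.pow_ne_top (hft hf x)] at h1
    simpa using h1
  rw [ENNReal.tsum_comm, ENNReal.tsum_eq_iSup_sum]
  refine iSup_le fun A => ?_
  set W := A ∪ A.biUnion fun v => G.neighborFinset v with hW
  have hAW : A ⊆ W := Finset.subset_union_left
  have hNW : ∀ y ∈ A, G.neighborFinset y ⊆ W := fun y hy =>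
    (Finset.subset_biUnion_of_mem (fun v => G.neighborFinset v) hy).trans Finset.subset_union_right
  set g' : V → ℝ := fun y => if y ∈ A then (g y).toReal else 0 with hg'
  have hg0 : ∀ y, 0 ≤ g' y := fun y => by
    simp only [hg']
    split_ifs
    · exact ENNReal.toReal_nonneg
    · exact le_rfl
  have hmain := CheegerAux.real_main h0 hN hD0 hD (fun x => (f x).toReal) g' hg0
    (fun y hy => if_neg hy) hAW hNW
  have h2 : ∑ y ∈ W, g' y ^ 2 ≤ 1 := by
    refine le_trans (Finset.sum_le_sum fun y _ => ?_) (hsq hg W)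
    simp only [hg']
    split_ifs
    · exact le_rfl
    · simp
  have h3 : 0 ≤ ∑ y ∈ W, g' y ^ 2 := Finset.sum_nonneg fun _ _ => sq_nonneg _
  have h4 : ∑ x ∈ W, ∑ y ∈ W, (f x).toReal * CheegerAux.pr G D x y * g' y ≤ 1 - c / 2 := by
    have := mul_le_mul_of_nonneg_right (min_le_left (h ^ 2 / (16 * D ^ 2)) 1) h3
    have := mul_le_mul_of_nonneg_left h2 (sub_nonneg.2 (min_le_right (h ^ 2 / (16 * D ^ 2)) 1))
    have := hsq hf W
    linarith
  refine le_trans (le_of_eq ?_) (ENNReal.ofReal_le_ofReal h4)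
  have hp := CheegerAux.pr_nonneg hD0 hD
  rw [Finset.sum_comm, ENNReal.ofReal_sum_of_nonneg fun y _ => Finset.sum_nonneg fun x _ =>
    mul_nonneg (mul_nonneg ENNReal.toReal_nonneg (hp x y)) (hg0 y)]
  rw [← Finset.sum_subset hAW fun y _ hy => by simp [hg', hy]]
  refine Finset.sum_congr rfl fun y hy => ?_
  rw [ENNReal.ofReal_sum_of_nonneg fun x _ =>
    mul_nonneg (mul_nonneg ENNReal.toReal_nonneg (hp x y)) (hg0 y), tsum_eq_sum (s := W)]
  · refine Finset.sum_congr rfl fun x _ => ?_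
    rw [ENNReal.ofReal_mul (mul_nonneg ENNReal.toReal_nonneg (hp x y)),
      ENNReal.ofReal_mul ENNReal.toReal_nonneg, ENNReal.ofReal_toReal (hft hf x),
      CheegerAux.ofReal_pr hD0 hD, hg']
    simp only [if_pos hy, ENNReal.ofReal_toReal (hft hg y)]
  · intro x hx
    have : Pk G D x y = 0 := by
      by_contra hne
      rcases Pk_supp hne with rfl | h1
      · exact hx (hAW hy)
      · exact hx (hNW y hy ((G.mem_neighborFinset _ _).2 h1.symm))
    rw [this, mul_zero, zero_mul]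

end Vale.Agent.P165
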