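import Mathlib
import Vale.Agent.P165.Cheeger

/-!
The lazy walk: norms and hitting probabilities.
-/

open scoped ENNReal

namespace Vale.Agent.P165

variable {V : Type*} [DecidableEq V] {G : SimpleGraph V} [G.LocallyFinite]

namespace Env

variable (E : Env G)

theorem P_symm (x y : V) : E.P x y = E.P y x := Pk_symm _ _ _
theorem P_row (x : V) : ∑' y, E.P x y = 1 := Pk_row E.D_pos E.deg_le x
theorem P_inv : KInv G E.P := Pk_inv _
theorem P_supp {x y : V} (h : E.P x y ≠ 0) : x = y ∨ G.Adj x y := Pk_supp h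
theorem ktr_P : ktr E.P = E.P := funext fun x => funext fun y => E.P_symm y x
theorem kpow_P_row (j : ℕ) (x : V) : ∑' y, kpow E.P j x y = 1 := by
  induction j generalizing x with
  | zero => simpa only [mul_one, kpow, kid] using tsum_ind_eq x fun _ => 1
  | succ j ih =>
    simp only [kpow, kmul]
    rw [ENNReal.tsum_comm]
    simp only [ENNReal.tsum_mul_left, ih, mul_one, E.P_row]
theorem kpow_P_le_one (j : ℕ) (x y : V) : kpow E.P j x y ≤ 1 :=
  (ENNReal.le_tsum y).trans (E.kpow_P_row j x).le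
theorem ball_of_P {x y z : V} {j : ℕ} (h : E.P x y ≠ 0) (hz : z ∈ ball G y j) :
    z ∈ ball G x (j + 1) := by
  rcases E.P_supp h with rfl | h
  · exact ball_mono _ (Nat.le_succ j) hz
  · rw [Nat.add_comm]
    exact mem_ball_trans (mem_ball_succ (self_mem_ball x 0) h) hz
theorem kpow_P_supp {j : ℕ} {x y : V} (h : kpow E.P j x y ≠ 0) : y ∈ ball G x j := by
  induction j generalizing x with
  | zero =>
    by_cases hxy : x = y
    · rw [hxy]; exact self_mem_ball _ _
    · exact absurd (ind_neg hxy) h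
  | succ j ih =>
    by_contra hy
    refine h (ENNReal.tsum_eq_zero.2 fun z => ?_)
    by_contra hz
    exact hy (E.ball_of_P (left_ne_zero_of_mul hz) (ih (right_ne_zero_of_mul hz)))
theorem H_inv : KInv G E.H := E.P_inv.ksum
theorem ktr_H : ktr E.H = E.H := by rw [H, ktr_ksum, ktr_P]
theorem kmul_P_H_le : kmul E.P E.H ≤ E.H := le_add_self.trans (ksum_eq E.P).ge
theorem kmul_H_P_le : kmul E.H E.P ≤ E.H := le_add_self.trans (ksum_eq' E.P).ge
theorem one_le_H_self (x : V) : 1 ≤ E.H x x :=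
  (ind_pos rfl).ge.trans (ENNReal.le_tsum (f := fun n => kpow E.P n x x) 0)
theorem nw_P : E.nw 6 E.P ≤ E.ρ := by
  refine le_trans ?_ E.hρ
  rw [← nrm_smul]
  refine nrm_mono fun x y => ?_
  show E.P x y * E.w1 x y ^ 6 ≤ E.r ^ 6 * E.P x y
  by_cases h : E.P x y = 0
  · simp [h]
  · rw [mul_comm]
    refine mul_le_mul_left (pow_le_pow_left' ?_ 6) _
    rcases E.P_supp h with rfl | h
    · rw [E.w1_self]; exact E.one_le_r
    · exact E.w1_adj h
theorem nw_kpow_P (j : ℕ) : E.nw 6 (kpow E.P j) ≤ E.ρ ^ j :=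
  (E.nw_kpow_le 6 _ j).trans (pow_le_pow_left' E.nw_P j)
theorem nw_H : E.nw 6 E.H ≤ E.CH :=
  (E.nw_tsum_le 6 (kpow E.P)).trans ((ENNReal.tsum_le_tsum E.nw_kpow_P).trans E.tsum_ρ_pow.le)
theorem H_le (x y : V) : E.H x y ≤ E.CH :=
  (le_nrm _ x y).trans ((E.nrm_le_nw 6 _).trans E.nw_H)

theorem hitN_of_mem {A : Finset V} {x : V} (h : x ∈ A) (n : ℕ) : hitN E.P A n x = 1 := by
  cases n with
  | zero => exact ind_pos h
  | succ n => simp [hitN, h]
theorem hitN_succ {A : Finset V} {x : V} (h : x ∉ A) (n : ℕ) :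
    hitN E.P A (n + 1) x = ∑' y, E.P x y * hitN E.P A n y := by simp [hitN, h]
theorem hitN_zero {A : Finset V} {x : V} (h : x ∉ A) : hitN E.P A 0 x = 0 := ind_neg h
theorem P_le_one {f : V → ℝ≥0∞} (h : ∀ y, f y ≤ 1) (x : V) : ∑' y, E.P x y * f y ≤ 1 :=
  (ENNReal.tsum_le_tsum fun y => mul_le_of_le_one_right' (h y)).trans (E.P_row x).le
theorem hitN_le_one (A : Finset V) (n : ℕ) (x : V) : hitN E.P A n x ≤ 1 := by
  induction n generalizing x with
  | zero => exact ind_le_one _
  | succ n ih =>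
    by_cases h : x ∈ A
    · exact (E.hitN_of_mem h _).le
    · rw [E.hitN_succ h]; exact E.P_le_one ih x
theorem hitN_le_succ (A : Finset V) (n : ℕ) (x : V) : hitN E.P A n x ≤ hitN E.P A (n + 1) x := by
  induction n generalizing x with
  | zero =>
    by_cases h : x ∈ A
    · rw [E.hitN_of_mem h, E.hitN_of_mem h]
    · rw [E.hitN_zero h]; exact zero_le
  | succ n ih =>
    by_cases h : x ∈ A
    · rw [E.hitN_of_mem h, E.hitN_of_mem h]
    · rw [E.hitN_succ h, E.hitN_succ h]
      exact ENNReal.tsum_le_tsum fun y => mul_le_mul_right (ih y) _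
theorem hitN_mono (A : Finset V) (x : V) : Monotone fun n => hitN E.P A n x :=
  monotone_nat_of_le_succ fun n => E.hitN_le_succ A n x
theorem hitN_le_hit (A : Finset V) (n : ℕ) (x : V) : hitN E.P A n x ≤ E.hit A x :=
  le_iSup (fun n => hitN E.P A n x) n
theorem P_hit_eq (A : Finset V) (x : V) :
    ∑' y, E.P x y * E.hit A y = ⨆ n, ∑' y, E.P x y * hitN E.P A n y := by
  simp only [hit, ENNReal.mul_iSup]
  exact tsum_iSup_dir (fun n y => E.P x y * hitN E.P A n y) fun i j => ⟨max i j, fun y =>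
    ⟨mul_le_mul_right (E.hitN_mono A y (le_max_left i j)) _,
      mul_le_mul_right (E.hitN_mono A y (le_max_right i j)) _⟩⟩
/-- the hitting probability is the least supersolution -/
theorem hit_le_of_super {A : Finset V} {f : V → ℝ≥0∞} (h1 : ∀ x ∈ A, 1 ≤ f x)
    (h2 : ∀ x ∉ A, ∑' y, E.P x y * f y ≤ f x) (x : V) : E.hit A x ≤ f x := by
  refine iSup_le fun n => ?_
  induction n generalizing x with
  | zero =>
    by_cases h : x ∈ A
    · rw [E.hitN_of_mem h]; exact h1 x h
    · rw [E.hitN_zero h]; exact zero_le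
  | succ n ih =>
    by_cases h : x ∈ A
    · rw [E.hitN_of_mem h]; exact h1 x h
    · rw [E.hitN_succ h]
      exact (ENNReal.tsum_le_tsum fun y => mul_le_mul_right (ih y) _).trans (h2 x h)

theorem hit_le_one (A : Finset V) (x : V) : E.hit A x ≤ 1 := iSup_le fun n => E.hitN_le_one A n x
theorem hit_of_mem {A : Finset V} {x : V} (h : x ∈ A) : E.hit A x = 1 :=
  le_antisymm (E.hit_le_one A x) ((E.hitN_of_mem h 0).ge.trans (E.hitN_le_hit A 0 x))
theorem hit_of_notMem {A : Finset V} {x : V} (h : x ∉ A) :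
    E.hit A x = ∑' y, E.P x y * E.hit A y := by
  rw [E.P_hit_eq]
  simp only [← E.hitN_succ h]
  exact ((E.hitN_mono A x).iSup_nat_add 1).symm
theorem P_hit_le_hit (A : Finset V) (x : V) : ∑' y, E.P x y * E.hit A y ≤ E.hit A x := by
  by_cases h : x ∈ A
  · rw [E.hit_of_mem h]; exact E.P_le_one (E.hit_le_one A) x
  · exact (E.hit_of_notMem h).ge
theorem hit_mono {A B : Finset V} (h : A ⊆ B) (x : V) : E.hit A x ≤ E.hit B x :=
  E.hit_le_of_super (fun _ hx => (E.hit_of_mem (h hx)).ge) (fun x _ => E.P_hit_le_hit B x) x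
theorem hit_union_le (A B : Finset V) (x : V) : E.hit (A ∪ B) x ≤ E.hit A x + E.hit B x := by
  refine E.hit_le_of_super (f := fun x => E.hit A x + E.hit B x) (fun x hx => ?_) (fun x _ => ?_) x
  · rcases Finset.mem_union.1 hx with h | h
    · exact (E.hit_of_mem h).ge.trans le_self_add
    · exact (E.hit_of_mem h).ge.trans le_add_self
  · simp only [mul_add, ENNReal.tsum_add]
    exact add_le_add (E.P_hit_le_hit A x) (E.P_hit_le_hit B x)
theorem P_sum_eq (K : Ker V) (A : Finset V) (x : V) :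
    ∑' y, K x y * ∑ z ∈ A, E.H y z = ∑ z ∈ A, kmul K E.H x z := by
  simp only [Finset.mul_sum, kmul]
  exact Summable.tsum_finsetSum fun _ _ => ENNReal.summable
theorem hit_le_H (A : Finset V) (x : V) : E.hit A x ≤ ∑ z ∈ A, E.H x z := by
  refine E.hit_le_of_super (f := fun x => ∑ z ∈ A, E.H x z) (fun x hx => ?_) (fun x _ => ?_) x
  · exact (E.one_le_H_self x).trans (Finset.single_le_sum (f := E.H x) (fun _ _ => zero_le) hx)
  · rw [E.P_sum_eq]
    exact Finset.sum_le_sum fun z _ => E.kmul_P_H_le x z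
theorem hit_empty (x : V) : E.hit ∅ x = 0 := le_antisymm (E.hit_le_H ∅ x) zero_le
theorem hit_add_esc (A : Finset V) (x : V) : E.hit A x + E.esc A x = 1 :=
  add_tsub_cancel_of_le (E.hit_le_one A x)
theorem esc_le_one (A : Finset V) (x : V) : E.esc A x ≤ 1 := tsub_le_self
theorem esc_anti {A B : Finset V} (h : A ⊆ B) (x : V) : E.esc B x ≤ E.esc A x :=
  tsub_le_tsub_left (E.hit_mono h x) 1
theorem esc_of_mem {A : Finset V} {x : V} (h : x ∈ A) : E.esc A x = 0 := by
  rw [esc, E.hit_of_mem h, tsub_self]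
theorem P_hit_add_P_esc (A : Finset V) (x : V) :
    ∑' y, E.P x y * E.hit A y + ∑' y, E.P x y * E.esc A y = 1 := by
  simp only [← ENNReal.tsum_add, ← mul_add, E.hit_add_esc, mul_one, E.P_row]
theorem esc_of_notMem {A : Finset V} {x : V} (h : x ∉ A) :
    E.esc A x = ∑' y, E.P x y * E.esc A y := by
  have h1 := E.P_hit_add_P_esc A x
  rw [← E.hit_of_notMem h, ← E.hit_add_esc A x] at h1
  exact ((ENNReal.add_right_inj
    (ne_top_of_le_ne_top ENNReal.one_ne_top (E.hit_le_one A x))).1 h1).symm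
theorem P_hit_le (A : Finset V) (x : V) :
    ∑' y, E.P x y * E.hit A y ≤ ∑ z ∈ A, kmul E.P E.H x z := by
  rw [← E.P_sum_eq]
  exact ENNReal.tsum_le_tsum fun y => mul_le_mul_right (E.hit_le_H A y) _

/-- the walk survives `j` steps in `R` or visits `A` (induction on `j`, all `y`) -/
theorem one_le_kill_add_hit (A R : Finset V) (j : ℕ) (y : V)
    (h : ∀ v ∈ ball G y j, v ∉ A → v ∈ R) :
    1 ≤ ∑' x, kpow (fun a b => ind (a ∈ R) * E.P a b) j y x + E.hit A y := by
  induction j generalizing y with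
  | zero =>
    refine le_trans ?_ le_self_add
    exact (ind_pos rfl).ge.trans (ENNReal.le_tsum (f := fun x => ind (y = x)) y)
  | succ j ih =>
    by_cases hy : y ∈ A
    · exact (E.hit_of_mem hy).ge.trans le_add_self
    · have hR : y ∈ R := h y (self_mem_ball _ _) hy
      rw [E.hit_of_notMem hy]
      simp only [kpow, kmul]
      rw [ENNReal.tsum_comm]
      simp only [ENNReal.tsum_mul_left, ind_pos hR, one_mul]
      rw [← ENNReal.tsum_add, ← E.P_row y]
      refine ENNReal.tsum_le_tsum fun z => ?_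
      rw [← mul_add]
      by_cases hz : E.P y z = 0
      · rw [hz]; exact zero_le
      · exact le_mul_of_one_le_right' (ih z fun v hv => h v (E.ball_of_P hz hv))

end Env

end Vale.Agent.P165
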