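import Mathlib
import Vale.Agent.P165.WalkA

/-!
The lazy walk: capacity, last exit, tilted norms.
-/

open scoped ENNReal

namespace Vale.Agent.P165

variable {V : Type*} [DecidableEq V] {G : SimpleGraph V} [G.LocallyFinite]

namespace Env

variable (E : Env G)

theorem hitN_supp {S : Finset V} {n : ℕ} {x : V} (h : hitN E.P S n x ≠ 0) :
    x ∈ S.biUnion fun s => ball G s n := by
  induction n generalizing x with
  | zero =>
    by_cases hx : x ∈ S
    · exact Finset.mem_biUnion.2 ⟨x, hx, self_mem_ball _ _⟩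
    · exact absurd (E.hitN_zero hx) h
  | succ n ih =>
    by_cases hx : x ∈ S
    · exact Finset.mem_biUnion.2 ⟨x, hx, self_mem_ball _ _⟩
    · rw [E.hitN_succ hx] at h
      by_contra hy
      refine h (ENNReal.tsum_eq_zero.2 fun z => ?_)
      by_contra hz
      obtain ⟨s, hs, hb⟩ := Finset.mem_biUnion.1 (ih (right_ne_zero_of_mul hz))
      exact hy (Finset.mem_biUnion.2 ⟨s, hs, mem_ball_symm
        (E.ball_of_P (left_ne_zero_of_mul hz) (mem_ball_symm hb))⟩)

theorem hitN_le_P {S : Finset V} {x : V} (hx : x ∉ S) (n : ℕ) :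
    hitN E.P S n x ≤ ∑' y, E.P x y * hitN E.P S n y := by
  rw [← E.hitN_succ hx]
  exact E.hitN_le_succ S n x

theorem capacityN (φ : V → ℝ≥0∞) (hφ : ∀ u z, φ u ≤ E.w1 u z ^ 2 * φ z) (hf : ∀ u, φ u ≠ ⊤)
    (S : Finset V) (n : ℕ) :
    ∑ u ∈ S, φ u ^ 2 * ∑' x, E.P u x * hitN E.P S n x ≤ E.ρ * ∑ u ∈ S, φ u ^ 2 := by
  set h := hitN E.P S n with hh
  set T := ∑' x, ind (x ∉ S) * (φ x * h x) ^ 2 with hT
  have hTf : T ≠ ⊤ := by
    rw [hT, tsum_eq_sum (s := S.biUnion fun s => ball G s n) fun x hx => by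
      have : h x = 0 := by
        by_contra h0
        exact hx (E.hitN_supp h0)
      simp [this]]
    exact ENNReal.sum_ne_top.2 fun x _ => ENNReal.mul_ne_top (ind_ne_top _)
      (ENNReal.pow_ne_top (ENNReal.mul_ne_top (hf x)
        (ne_top_of_le_ne_top ENNReal.one_ne_top (E.hitN_le_one S n x))))
  have h1 := quad_le (fun x y => E.P x y * E.w1 x y ^ 2) fun x => φ x * h x
  have h2 : nrm (fun x y => E.P x y * E.w1 x y ^ 2) ≤ E.ρ :=
    (E.nw_mono_exp (by norm_num : 2 ≤ 6) E.P).trans E.nw_P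
  have h3 : ∑' x, (φ x * h x) ^ 2 = ∑ u ∈ S, φ u ^ 2 + T := by
    rw [sum_eq_tsum_ind, hT, ← ENNReal.tsum_add]
    refine tsum_congr fun x => ?_
    by_cases hx : x ∈ S
    · rw [ind_pos hx, ind_neg (not_not.2 hx), hh, E.hitN_of_mem hx]
      simp
    · rw [ind_neg hx, ind_pos hx]
      simp
  have h4 : ∑ u ∈ S, φ u ^ 2 * ∑' x, E.P u x * h x + T ≤
      ∑' x, ∑' y, φ x * h x * (E.P x y * E.w1 x y ^ 2) * (φ y * h y) := by
    rw [sum_eq_tsum_ind, hT, ← ENNReal.tsum_add]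
    refine ENNReal.tsum_le_tsum fun x => ?_
    have h5 : φ x ^ 2 * h x * ∑' y, E.P x y * h y ≤
        ∑' y, φ x * h x * (E.P x y * E.w1 x y ^ 2) * (φ y * h y) := by
      rw [← ENNReal.tsum_mul_left]
      refine ENNReal.tsum_le_tsum fun y => ?_
      calc φ x ^ 2 * h x * (E.P x y * h y) = φ x * h x * E.P x y * h y * φ x := by ring
        _ ≤ φ x * h x * E.P x y * h y * (E.w1 x y ^ 2 * φ y) := mul_le_mul_right (hφ x y) _
        _ = _ := by ring
    refine le_trans ?_ h5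
    by_cases hx : x ∈ S
    · rw [ind_pos hx, ind_neg (not_not.2 hx), show h x = 1 from E.hitN_of_mem hx n]
      simp
    · rw [ind_neg hx, ind_pos hx, zero_mul, zero_add, one_mul, mul_pow, pow_two (h x),
        ← mul_assoc]
      exact mul_le_mul_right (E.hitN_le_P hx n) _
  refine ENNReal.le_of_add_le_add_right hTf (h4.trans (h1.trans ?_))
  rw [h3]
  refine (mul_le_mul_left h2 _).trans ?_
  rw [mul_add]
  exact add_le_add_right (mul_le_of_le_one_left' E.ρ_lt.le) _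

/-- Weighted capacity bound. For `h = hitN P S N` (finite support, values at most `1`, equal to
`1` on `S`, and `h ≤ P h` off `S`) apply `quad_le` to `φ * h` and the kernel `P * w1 ^ 2` of norm
at most `ρ`; cancel the finite sum over the complement of `S`; let `N → ∞`. If some `φ u = ⊤`
then all are and the bound is trivial. -/
theorem capacity (φ : V → ℝ≥0∞) (hφ : ∀ u z, φ u ≤ E.w1 u z ^ 2 * φ z) (S : Finset V) :
    ∑ u ∈ S, φ u ^ 2 * ∑' x, E.P u x * E.hit S x ≤ E.ρ * ∑ u ∈ S, φ u ^ 2 := by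
  by_cases hf : ∀ u, φ u ≠ ⊤
  · simp only [E.P_hit_eq, ENNReal.mul_iSup]
    rw [ENNReal.finsetSum_iSup_of_monotone]
    · exact iSup_le fun n => E.capacityN φ hφ hf S n
    · intro u i j hij
      exact mul_le_mul_right (ENNReal.tsum_le_tsum fun y =>
        mul_le_mul_right (E.hitN_mono S y hij) _) _
  · push Not at hf
    obtain ⟨u, hu⟩ := hf
    have hz : ∀ z, φ z = ⊤ := fun z => by
      by_contra h
      exact ENNReal.mul_ne_top (ENNReal.pow_ne_top (E.w1_ne_top u z)) h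
        (top_le_iff.1 (hu ▸ hφ u z))
    rcases S.eq_empty_or_nonempty with rfl | ⟨v, hv⟩
    · simp
    · have : ∑ u ∈ S, φ u ^ 2 = ⊤ := ENNReal.sum_eq_top.2 ⟨v, hv, by simp [hz v]⟩
      rw [this, ENNReal.mul_top E.ρ_ne_zero]
      exact le_top

theorem le_of_le_add_geom {a b c ρ : ℝ≥0∞} (hc : c ≠ ⊤) (hρ : ρ < 1)
    (h : ∀ n : ℕ, a ≤ b + c * ρ ^ n) : a ≤ b := by
  have h1 := ENNReal.Tendsto.const_mul (a := c)
    (ENNReal.tendsto_pow_atTop_nhds_zero_of_lt_one hρ) (Or.inr hc)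
  have h2 := h1.const_add b
  rw [mul_zero, add_zero] at h2
  exact ge_of_tendsto' h2 h

/-- Last exit from `R`. With `d = esc B - esc (B ∪ R)` one has `d ≤ P d + 1_R * P (esc (B ∪ R))`
everywhere, and `P^N d ≤ P^N H 1_R → 0` (tail of the convergent series `H 1_R`). -/
theorem last_exit (B R : Finset V) {x : V} (hx : x ∈ R) :
    E.esc B x ≤ ∑ z ∈ R, E.H x z * ∑' y, E.P z y * E.esc (B ∪ R) y := by
  set g : V → ℝ≥0∞ := fun z => ∑' y, E.P z y * E.esc (B ∪ R) y with hg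
  set F : V → ℝ≥0∞ := fun x => ∑ z ∈ R, E.H x z * g z with hF
  have hF1 : ∀ x, F x = ind (x ∈ R) * g x + ∑' y, E.P x y * F y := fun x => by
    have e1 : ∑' y, E.P x y * F y = ∑ z ∈ R, kmul E.P E.H x z * g z := by
      simp only [hF, Finset.mul_sum, kmul, ← ENNReal.tsum_mul_right, mul_assoc]
      exact Summable.tsum_finsetSum fun _ _ => ENNReal.summable
    have e2 : ind (x ∈ R) * g x = ∑ z ∈ R, kid x z * g z := by
      rw [sum_eq_tsum_ind, ← tsum_ind_eq x fun z => ind (z ∈ R) * g z]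
      exact tsum_congr fun z => mul_left_comm _ _ _
    rw [e1, e2, ← Finset.sum_add_distrib]
    refine Finset.sum_congr rfl fun z _ => ?_
    rw [← add_mul]
    exact congrArg (· * g z) (congrFun (congrFun (ksum_eq E.P) x) z)
  have key : ∀ (n : ℕ) (x : V), E.esc B x ≤
      E.esc (B ∪ R) x + F x + ∑' y, kpow E.P n x y * E.hit R y := by
    intro n
    induction n with
    | zero =>
      intro x
      rw [show ∑' y, kpow E.P 0 x y * E.hit R y = E.hit R x from tsum_ind_eq x _]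
      refine le_trans ?_ (add_le_add_left le_self_add _)
      rw [esc, tsub_le_iff_right, ← E.hit_add_esc (B ∪ R) x, add_assoc, add_comm,
        add_comm (E.hit R x)]
      exact add_le_add_right (E.hit_union_le B R x) _
    | succ n ih =>
      intro x
      by_cases hB : x ∈ B
      · rw [E.esc_of_mem hB]; exact zero_le
      · rw [E.esc_of_notMem hB]
        refine (ENNReal.tsum_le_tsum fun y => mul_le_mul_right (ih y) _).trans ?_
        simp only [mul_add, ENNReal.tsum_add]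
        refine add_le_add ?_ (le_of_eq ?_)
        · rw [hF1 x, ← add_assoc]
          refine add_le_add_left ?_ _
          by_cases hR : x ∈ R
          · rw [ind_pos hR, one_mul]; exact le_add_self
          · rw [E.esc_of_notMem (A := B ∪ R) (x := x) (by simp [hB, hR])]; exact le_self_add
        · simp only [kpow, kmul, ← ENNReal.tsum_mul_right, ← ENNReal.tsum_mul_left, mul_assoc]
          exact ENNReal.tsum_comm
  refine le_of_le_add_geom (c := R.card * E.CH)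
    (ENNReal.mul_ne_top (ENNReal.natCast_ne_top _) E.CH_ne_top) E.ρ_lt fun n => ?_
  refine (key n x).trans ?_
  rw [E.esc_of_mem (Finset.mem_union_right B hx), zero_add]
  refine add_le_add_right ?_ _
  refine (ENNReal.tsum_le_tsum fun y => mul_le_mul_right (E.hit_le_H R y) _).trans ?_
  rw [E.P_sum_eq, mul_assoc, ← nsmul_eq_mul]
  refine Finset.sum_le_card_nsmul _ _ _ fun z _ => ?_
  refine (le_nrm _ x z).trans ((E.nrm_le_nw 6 _).trans ((E.nw_kmul_le 6 _ _).trans ?_))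
  rw [mul_comm]
  exact mul_le_mul' E.nw_H (E.nw_kpow_P n)

/-- `nrm_tl_pred_interp` with `e = ρ₂ ^ j`, `ρ₂ = ρ ^ (1/n)`, and `nrm_tl_n_le` -/
theorem np_pow : ∃ C ρ₂ : ℝ≥0∞, C ≠ ⊤ ∧ ρ₂ < 1 ∧ ∀ j, E.Np (kpow E.P j) ≤ C * ρ₂ ^ j := by
  have hn : E.n ≠ 0 := by have := E.n_ge; omega
  obtain ⟨s, hs⟩ : ∃ s : ℝ≥0∞, s ^ E.n = E.ρ := ⟨_, ENNReal.rpow_inv_natCast_pow hn E.ρ⟩
  have hs1 : s < 1 := by
    by_contra h
    exact absurd E.ρ_lt (not_lt.2 (hs ▸ one_le_pow_of_one_le' (not_lt.1 h) _))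
  have hs0 : s ≠ 0 := fun h => E.ρ_ne_zero (by rw [← hs, h, zero_pow hn])
  refine ⟨E.reps.card + 1, s, by simp, hs1, fun j => ?_⟩
  have h0 : s ^ j ≠ 0 := pow_ne_zero _ hs0
  have ht : s ^ j ≠ ⊤ := ENNReal.pow_ne_top hs1.ne_top
  have h1 : nrm (kpow E.P j) ≤ (s ^ j) ^ E.n := by
    rw [← pow_mul, mul_comm, pow_mul, hs]
    exact (E.nrm_le_nw 6 _).trans (E.nw_kpow_P j)
  refine max_le ?_ ?_
  · refine h1.trans (le_trans ?_ (le_mul_of_one_le_left' le_add_self))
    exact pow_le_of_le_one zero_le (pow_le_one' hs1.le j) hn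
  · refine (E.nrm_tl_pred_interp _ h0 ht).trans ?_
    rw [add_mul, one_mul]
    refine add_le_add ?_ ?_
    · rw [mul_comm]
      refine mul_le_mul_left ?_ _
      simpa only [mul_one] using E.nrm_tl_n_le (E.P_inv.kpow j) fun a => (E.kpow_P_row j a).le
    · refine (mul_le_mul_right h1 _).trans (le_of_eq ?_)
      obtain ⟨m, hm⟩ := Nat.exists_eq_succ_of_ne_zero hn
      rw [hm, Nat.succ_sub_one, pow_succ, ← mul_assoc, ← mul_pow, ENNReal.inv_mul_cancel h0 ht,
        one_pow, one_mul]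

theorem np_small {δ : ℝ≥0∞} (hδ : δ ≠ 0) : ∃ j, E.Np (kpow E.P j) ≤ δ := by
  obtain ⟨C, s, hC, hs, h⟩ := E.np_pow
  have h1 := ENNReal.Tendsto.const_mul (a := C)
    (ENNReal.tendsto_pow_atTop_nhds_zero_of_lt_one hs) (Or.inr hC)
  rw [mul_zero] at h1
  obtain ⟨j, hj⟩ := (h1.eventually (gt_mem_nhds (pos_iff_ne_zero.2 hδ))).exists
  exact ⟨j, (h j).trans hj.le⟩

theorem np_sum : ∃ C : ℝ≥0∞, C ≠ ⊤ ∧ ∀ k,
    ∑ i ∈ Finset.range (k + 1), E.Np (kmul (kmul (kpow E.P i) E.H) E.P) ≤ C := by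
  obtain ⟨C, s, hC, hs, h⟩ := E.np_pow
  have h1 : ∑' j, E.Np (kpow E.P j) ≤ C * (1 - s)⁻¹ := by
    rw [← ENNReal.tsum_geometric, ← ENNReal.tsum_mul_left]
    exact ENNReal.tsum_le_tsum h
  have h2 : C * (1 - s)⁻¹ ≠ ⊤ :=
    ENNReal.mul_ne_top hC (ENNReal.inv_ne_top.2 (tsub_pos_of_lt hs).ne')
  have h3 : E.Np E.H ≤ C * (1 - s)⁻¹ := (E.Np_tsum_le (kpow E.P)).trans h1
  have h4 : E.Np E.P ≤ C * (1 - s)⁻¹ := by
    refine le_trans ?_ h1
    conv_lhs => rw [← kpow_one E.P]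
    exact ENNReal.le_tsum (f := fun j => E.Np (kpow E.P j)) 1
  refine ⟨C * (1 - s)⁻¹ * (C * (1 - s)⁻¹ * (C * (1 - s)⁻¹)),
    ENNReal.mul_ne_top h2 (ENNReal.mul_ne_top h2 h2), fun k => ?_⟩
  refine le_trans ?_ (mul_le_mul_left h1 _)
  rw [← ENNReal.tsum_mul_right]
  refine le_trans (Finset.sum_le_sum fun i _ => ?_) (ENNReal.sum_le_tsum _)
  refine (E.Np_kmul_le _ _).trans ?_
  rw [← mul_assoc]
  exact mul_le_mul' ((E.Np_kmul_le _ _).trans (mul_le_mul_right h3 _)) h4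

end Env

end Vale.Agent.P165
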