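import Mathlib
import Vale.Agent.P165.Walk

/-!
The pattern measure.
-/

open scoped ENNReal

namespace Vale.Agent.P165

variable {V : Type*} [DecidableEq V] {G : SimpleGraph V} [G.LocallyFinite]

namespace PatAux

theorem tsum_fin {α κ : Type*} (s : Finset κ) (f : κ → α → ℝ≥0∞) :
    ∑' a, ∑ i ∈ s, f i a = ∑ i ∈ s, ∑' a, f i a :=
  Summable.tsum_finsetSum fun _ _ => ENNReal.summable

/-- the part of a list starting at the first occurrence of `a` -/
def fromA (a : V) : List V → List V
  | [] => []
  | b :: r => if b = a then b :: r else fromA a r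

theorem fromA_suffix (a : V) (r : List V) : fromA a r <:+ r := by
  induction r with
  | nil => exact List.suffix_refl _
  | cons b r ih =>
    unfold fromA
    split_ifs
    · exact List.suffix_refl _
    · exact ih.trans (List.suffix_cons _ _)

theorem fromA_head {a : V} {r : List V} (h : a ∈ r) : (fromA a r).head? = some a := by
  induction r with
  | nil => exact absurd h List.not_mem_nil
  | cons b r ih =>
    unfold fromA
    split_ifs with hb
    · rw [hb]; rfl
    · exact ih ((List.mem_cons.1 h).resolve_left (Ne.symm hb))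

theorem fromA_map {f : V → V} (hf : Function.Injective f) (a : V) (r : List V) :
    fromA (f a) (r.map f) = (fromA a r).map f := by
  induction r with
  | nil => rfl
  | cons b r ih =>
    simp only [List.map_cons, fromA, hf.eq_iff]
    split_ifs
    · rfl
    · exact ih

/-- loop erasure of the initial piece of a list ending at the first visit of `z` -/
def le (z : V) : List V → List V
  | [] => []
  | a :: l => if a = z then [a] else if a ∈ le z l then fromA a (le z l) else a :: le z l

theorem le_sublist (z : V) (w : List V) : (le z w).Sublist w := by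
  induction w with
  | nil => exact List.Sublist.refl _
  | cons a l ih =>
    unfold le
    split_ifs
    · exact (List.nil_sublist l).cons_cons a
    · exact ((fromA_suffix _ _).sublist.trans ih).cons a
    · exact ih.cons_cons a

theorem le_nodup (z : V) (w : List V) : (le z w).Nodup := by
  induction w with
  | nil => exact List.nodup_nil
  | cons a l ih =>
    unfold le
    split_ifs with h1 h2
    · exact List.nodup_singleton a
    · exact ih.sublist (fromA_suffix _ _).sublist
    · exact List.nodup_cons.2 ⟨h2, ih⟩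

theorem le_head (z : V) (w : List V) : (le z w).head? = w.head? := by
  cases w with
  | nil => rfl
  | cons a l =>
    unfold le
    split_ifs with h1 h2
    · rfl
    · exact fromA_head h2
    · rfl

theorem le_last {z : V} {w : List V} (h : z ∈ w) : (le z w).getLast? = some z := by
  induction w with
  | nil => exact absurd h List.not_mem_nil
  | cons a l ih =>
    unfold le
    split_ifs with h1 h2
    · rw [h1]; rfl
    · have h3 := ih ((List.mem_cons.1 h).resolve_left (Ne.symm h1))
      obtain ⟨t, ht⟩ := fromA_suffix a (le z l)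
      have h4 : fromA a (le z l) ≠ [] := by
        intro h5
        have := fromA_head h2
        rw [h5] at this
        cases this
      rw [← ht, List.getLast?_append_of_ne_nil _ h4] at h3
      exact h3
    · have h3 := ih ((List.mem_cons.1 h).resolve_left (Ne.symm h1))
      rw [List.getLast?_cons, h3]
      rfl

theorem le_tail {z v : V} {w : List V} (h : v ∈ (le z w).tail) : v ∈ w.tail := by
  cases w with
  | nil => exact h
  | cons a l =>
    unfold le at h
    split_ifs at h with h1 h2
    · exact absurd h List.not_mem_nil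
    · exact (le_sublist z l).subset ((fromA_suffix _ _).subset (List.mem_of_mem_tail h))
    · exact (le_sublist z l).subset h

omit [G.LocallyFinite] in
theorem le_chain (z : V) {w : List V} (h : w.IsChain fun a c => a = c ∨ G.Adj a c) :
    (le z w).IsChain G.Adj := by
  induction w with
  | nil => exact List.isChain_nil
  | cons a l ih =>
    have h3 := ih h.tail
    unfold le
    split_ifs with h1 h2
    · exact List.isChain_singleton a
    · exact h3.suffix (fromA_suffix _ _)
    · refine List.isChain_cons.2 ⟨fun y hy => ?_, h3⟩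
      have hy' : y ∈ l.head? := by rw [← le_head z l]; exact hy
      rcases (List.isChain_cons.1 h).1 y hy' with h4 | h4
      · exact absurd (h4 ▸ List.mem_of_mem_head? hy) h2
      · exact h4

theorem le_map {f : V → V} (hf : Function.Injective f) (z : V) (w : List V) :
    le (f z) (w.map f) = (le z w).map f := by
  induction w with
  | nil => rfl
  | cons a l ih =>
    simp only [List.map_cons, le, hf.eq_iff, ih, List.mem_map_of_injective hf, fromA_map hf]
    split_ifs <;> rfl

variable (E : Env G)

/-- expectation over `k`-step walks of a function of the walk and its endpoint -/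
noncomputable def W : ℕ → V → (List V → V → ℝ≥0∞) → ℝ≥0∞
  | 0, u, F => F [u] u
  | k + 1, u, F => ∑' x, E.P u x * W k x fun l b => F (u :: l) b

/-- admissible walks -/
def Ok (G : SimpleGraph V) (k : ℕ) (u : V) (w : List V) (b : V) : Prop :=
  w.length = k + 1 ∧ w.head? = some u ∧ b ∈ w ∧ w.IsChain fun a c => a = c ∨ G.Adj a c

theorem W_mono {k : ℕ} {u : V} {F F' : List V → V → ℝ≥0∞}
    (h : ∀ w b, Ok G k u w b → F w b ≤ F' w b) : W E k u F ≤ W E k u F' := by
  induction k generalizing u F F' with
  | zero => exact h _ _ ⟨rfl, rfl, List.mem_singleton_self u, List.isChain_singleton u⟩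
  | succ k ih =>
    refine ENNReal.tsum_le_tsum fun x => ?_
    by_cases hx : E.P u x = 0
    · rw [hx, zero_mul, zero_mul]
    · refine mul_le_mul' le_rfl (ih fun l b hl => h _ _ ⟨?_, rfl, List.mem_cons_of_mem _ hl.2.2.1,
        List.isChain_cons.2 ⟨fun y hy => ?_, hl.2.2.2⟩⟩)
      · rw [List.length_cons, hl.1]
      · rw [hl.2.1] at hy
        cases hy
        exact E.P_supp hx

theorem W_tsum {κ : Type*} (k : ℕ) (u : V) (F : κ → List V → V → ℝ≥0∞) :
    W E k u (fun w b => ∑' i, F i w b) = ∑' i, W E k u (F i) := by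
  induction k generalizing u F with
  | zero => rfl
  | succ k ih =>
    simp only [W, ih, ← ENNReal.tsum_mul_left]
    exact ENNReal.tsum_comm

theorem W_mul (k : ℕ) (u : V) (F : List V → V → ℝ≥0∞) (c : ℝ≥0∞) :
    W E k u (fun w b => F w b * c) = W E k u F * c := by
  induction k generalizing u F with
  | zero => rfl
  | succ k ih => simp only [W, ih, ← ENNReal.tsum_mul_right, mul_assoc]

theorem W_add (k : ℕ) (u : V) (F F' : List V → V → ℝ≥0∞) :
    W E k u (fun w b => F w b + F' w b) = W E k u F + W E k u F' := by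
  induction k generalizing u F F' with
  | zero => rfl
  | succ k ih => simp only [W, ih, mul_add, ENNReal.tsum_add]

theorem W_end (k : ℕ) (u : V) (f : V → ℝ≥0∞) :
    W E k u (fun _ b => f b) = kmul (kpow E.P k) (fun b _ => f b) u u := by
  have : ∀ u', W E k u (fun _ b => f b) = kmul (kpow E.P k) (fun b _ => f b) u u' := by
    induction k generalizing u with
    | zero => intro u'; rw [kpow, kid_kmul]; rfl
    | succ k ih =>
      intro u'
      rw [kpow, kmul_assoc]
      exact tsum_congr fun x => congrArg _ (ih x u')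
  exact this u

theorem W_zero (k : ℕ) (u : V) : W E k u (fun _ _ => 0) = 0 := by
  rw [W_end]
  simp [kmul]

theorem W_sum {F : Ker V} {s : ℕ → ℝ≥0∞} (hs : ∀ i a, kmul (kpow E.P i) F a a ≤ s i) (k : ℕ)
    (u : V) : W E k u (fun w b => ∑ z ∈ w.toFinset, F b z) ≤ ∑ i ∈ Finset.range (k + 1), s i := by
  induction k generalizing u with
  | zero =>
    have := hs 0 u
    rw [kpow, kid_kmul] at this
    simpa [W] using this
  | succ k ih =>
    have h1 : ∀ x, W E k x (fun l b => ∑ z ∈ (u :: l).toFinset, F b z) ≤
        kmul (kpow E.P k) F x u + ∑ i ∈ Finset.range (k + 1), s i := by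
      intro x
      refine le_trans (W_mono E (F' := fun l b => F b u + ∑ z ∈ l.toFinset, F b z)
        fun l b _ => ?_) ?_
      · rw [List.toFinset_cons]
        by_cases hu : u ∈ l.toFinset
        · rw [Finset.insert_eq_of_mem hu]
          exact le_add_self
        · rw [Finset.sum_insert hu]
      · rw [W_add, W_end]
        exact add_le_add le_rfl (ih x)
    refine le_trans (ENNReal.tsum_le_tsum fun x => mul_le_mul' le_rfl (h1 x)) ?_
    simp only [mul_add, ENNReal.tsum_add, ENNReal.tsum_mul_right, E.P_row, one_mul]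
    rw [Finset.sum_range_succ _ (k + 1), add_comm]
    refine add_le_add le_rfl ?_
    have := hs (k + 1) u
    rw [kpow, kmul_assoc] at this
    exact this

theorem W_esc (B : Finset V) (k : ℕ) (x : V) :
    E.esc B x ≤ W E k x (fun w b => ind (∀ v ∈ w, v ∉ B) * E.esc B b) := by
  by_cases hx : x ∈ B
  · rw [E.esc_of_mem hx]
    exact zero_le
  induction k generalizing x with
  | zero =>
    have : ∀ v ∈ [x], v ∉ B := fun v hv => by rw [List.mem_singleton.1 hv]; exact hx
    simp only [W]
    rw [ind_pos this, one_mul]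
  | succ k ih =>
    rw [E.esc_of_notMem hx]
    refine ENNReal.tsum_le_tsum fun y => mul_le_mul' le_rfl ?_
    by_cases hy : y ∈ B
    · rw [E.esc_of_mem hy]
      exact zero_le
    refine (ih y hy).trans (W_mono E fun l b _ => mul_le_mul' (ind_mono fun h v hv => ?_) le_rfl)
    rcases List.mem_cons.1 hv with h1 | h1
    · rw [h1]; exact hx
    · exact h v h1

theorem W_map (φ : G ≃g G) (k : ℕ) (u : V) (F : List V → V → ℝ≥0∞) :
    W E k (φ u) F = W E k u fun w b => F (w.map φ) (φ b) := by
  induction k generalizing u F with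
  | zero => rfl
  | succ k ih =>
    simp only [W]
    rw [← φ.toEquiv.tsum_eq]
    refine tsum_congr fun x => ?_
    show E.P (φ u) (φ x) * W E k (φ x) _ = _
    rw [E.P_inv, ih]
    rfl

/-- the functional attached to a walk -/
noncomputable def g (T : List V → ℝ≥0∞) (w : List V) (b : V) : ℝ≥0∞ :=
  ∑' z, ∑' y, ind (z ∈ w ∧ y ∉ w) * E.H b z * E.P z y * T (le z w ++ [y])

/-- the pattern measure -/
noncomputable def pat (k : ℕ) (η : List V) : ℝ≥0∞ :=
  ∑' u, W E k u (g E fun η' => ind (η' = η))

omit [G.LocallyFinite] in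
theorem head_eq {k : ℕ} {u b : V} {w : List V} (h : Ok G k u w b) (z y : V) :
    (le z w ++ [y]).head? = some u := by
  rw [List.head?_append, le_head, h.2.1]
  rfl

theorem tsum_pat (k : ℕ) (u : V) (T : List V → ℝ≥0∞) :
    ∑' η, ind (η.head? = some u) * pat E k η * T η = W E k u (g E T) := by
  have h1 : ∀ u', ∑' η, W E k u' (g E fun η' => ind (η' = η)) * (ind (η.head? = some u) * T η) =
      ind (u = u') * W E k u' (g E T) := by
    intro u'
    simp only [← W_mul]
    rw [← W_tsum, mul_comm, ← W_mul]
    have h2 : ∀ w b, Ok G k u' w b →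
        ∑' η, g E (fun η' => ind (η' = η)) w b * (ind (η.head? = some u) * T η) =
          g E T w b * ind (u = u') := by
      intro w b hw
      simp only [g, ← ENNReal.tsum_mul_right]
      rw [ENNReal.tsum_comm]
      refine tsum_congr fun z => ?_
      rw [ENNReal.tsum_comm]
      refine tsum_congr fun y => ?_
      simp only [mul_assoc, ENNReal.tsum_mul_left]
      rw [tsum_ind_eq, head_eq hw, mul_comm (T _), ind_congr (Option.some_inj.trans eq_comm)]
    exact le_antisymm (W_mono E fun w b hw => (h2 w b hw).le) (W_mono E fun w b hw => (h2 w b hw).ge)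
  have h3 : ∀ η : List V, ind (η.head? = some u) * pat E k η * T η =
      ∑' u', W E k u' (g E fun η' => ind (η' = η)) * (ind (η.head? = some u) * T η) := by
    intro η
    rw [ENNReal.tsum_mul_right, pat]
    ring
  simp only [h3]
  rw [ENNReal.tsum_comm]
  simp only [h1]
  exact tsum_ind_eq u _

theorem pat_supp (k : ℕ) (η : List V) (h : pat E k η ≠ 0) :
    η.Nodup ∧ η.IsChain G.Adj ∧ 2 ≤ η.length ∧ η.length ≤ k + 2 := by
  by_contra hcon
  apply h
  refine ENNReal.tsum_eq_zero.2 fun u => le_antisymm ?_ zero_le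
  refine le_trans (W_mono E fun w b hw => ?_) (W_zero E k u).le
  refine le_of_eq (ENNReal.tsum_eq_zero.2 fun z => ENNReal.tsum_eq_zero.2 fun y => ?_)
  by_contra h0
  have h1 : z ∈ w ∧ y ∉ w := by
    by_contra h1
    exact h0 (by rw [ind_neg h1, zero_mul, zero_mul, zero_mul])
  have h2 : le z w ++ [y] = η := by
    by_contra h2
    exact h0 (by simp only [ind_neg h2, mul_zero])
  have h3 : E.P z y ≠ 0 := fun h3 => h0 (by rw [h3, mul_zero, zero_mul])
  have h4 : G.Adj z y := (E.P_supp h3).resolve_left fun h4 => h1.2 (h4 ▸ h1.1)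
  have h5 := le_last h1.1
  have h6 : le z w ≠ [] := fun h6 => by rw [h6] at h5; cases h5
  apply hcon
  rw [← h2]
  refine ⟨?_, ?_, ?_, ?_⟩
  · refine List.nodup_append.2 ⟨le_nodup z w, List.nodup_singleton y, fun a ha c hc hac => ?_⟩
    rw [List.mem_singleton.1 hc] at hac
    exact h1.2 (hac ▸ (le_sublist z w).subset ha)
  · refine List.IsChain.append (le_chain z hw.2.2.2) (List.isChain_singleton y) ?_
    intro a ha c hc
    rw [h5] at ha
    cases ha
    cases hc
    exact h4
  · have := List.length_pos_of_ne_nil h6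
    rw [List.length_append, List.length_singleton]
    omega
  · have := (le_sublist z w).length_le
    have := hw.1
    rw [List.length_append, List.length_singleton]
    omega

theorem pat_inv (k : ℕ) (φ : G ≃g G) (η : List V) : pat E k (η.map φ) = pat E k η := by
  simp only [pat]
  rw [← φ.toEquiv.tsum_eq]
  refine tsum_congr fun u => ?_
  show W E k (φ u) _ = _
  rw [W_map]
  congr 1
  funext w b
  simp only [g]
  rw [← φ.toEquiv.tsum_eq]
  refine tsum_congr fun z => ?_
  rw [← φ.toEquiv.tsum_eq]
  refine tsum_congr fun y => ?_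
  show ind (φ z ∈ w.map φ ∧ φ y ∉ w.map φ) * E.H (φ b) (φ z) * E.P (φ z) (φ y) *
    ind (le (φ z) (w.map φ) ++ [φ y] = η.map φ) = _
  have h1 : le (φ z) (w.map φ) ++ [φ y] = (le z w ++ [y]).map φ := by
    rw [le_map φ.injective, List.map_append]
    rfl
  rw [E.H_inv, E.P_inv, h1, List.mem_map_of_injective φ.injective,
    List.mem_map_of_injective φ.injective, (List.map_injective_iff.2 φ.injective).eq_iff]

theorem pat_ker (k : ℕ) (u f : V) :
    PiK (pat E k) u f ≤ kmul (kmul (kpow E.P k) E.H) E.P u f := by
  have h1 : PiK (pat E k) u f = W E k u (g E fun η => ind (η.getLast? = some f)) := by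
    rw [← tsum_pat]
    refine tsum_congr fun η => ?_
    rw [ind_and]
    ring
  rw [h1, kmul_assoc]
  refine le_trans (W_mono E (F' := fun _ b => kmul E.H E.P b f) fun w b _ => ?_)
    (W_end E k u _).le
  refine ENNReal.tsum_le_tsum fun z => ?_
  rw [← tsum_ind_eq' f fun y => E.H b z * E.P z y]
  refine ENNReal.tsum_le_tsum fun y => ?_
  beta_reduce
  rw [List.getLast?_concat, ind_congr Option.some_inj]
  refine mul_le_mul' ?_ le_rfl
  rw [mul_assoc]
  exact ind_mul_le _ _

theorem pat_mass (k : ℕ) (u : V) :
    ∑' η : List V, ind (η.head? = some u) * pat E k η ≤ E.CH ^ 2 := by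
  have h1 := tsum_pat E k u fun _ => 1
  simp only [mul_one] at h1
  rw [h1]
  refine le_trans (W_mono E (F' := fun w b => ∑ z ∈ w.toFinset, E.H b z) fun w b _ => ?_) ?_
  · rw [sum_eq_tsum_ind]
    refine ENNReal.tsum_le_tsum fun z => ?_
    refine le_trans (ENNReal.tsum_le_tsum (g := fun y => ind (z ∈ w.toFinset) * E.H b z * E.P z y)
      fun y => ?_) ?_
    · rw [mul_one]
      exact mul_le_mul' (mul_le_mul' (ind_mono fun h => List.mem_toFinset.2 h.1) le_rfl) le_rfl
    · rw [ENNReal.tsum_mul_left, E.P_row, mul_one]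
  · refine (W_sum E (s := fun i => E.ρ ^ i * E.CH) (fun i a => ?_) k u).trans ?_
    · exact (le_nrm _ a a).trans ((E.nrm_le_nw 6 _).trans ((E.nw_kmul_le 6 _ _).trans
        (mul_le_mul' (E.nw_kpow_P i) E.nw_H)))
    · rw [← Finset.sum_mul, sq]
      exact mul_le_mul' ((ENNReal.sum_le_tsum _).trans E.tsum_ρ_pow.le) le_rfl

theorem pat_loop (k : ℕ) (K : Ker V) (t : ℕ → ℝ≥0∞)
    (ht : ∀ i a, kmul (kmul (kmul (kpow E.P i) E.H) E.P) K a a ≤ t i) (u : V) :
    ∑' η : List V, ind (η.head? = some u) * pat E k η *
      ∑ z ∈ η.dropLast.toFinset, K (η.getLastD u) z ≤ ∑ i ∈ Finset.range (k + 1), t i := by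
  rw [tsum_pat]
  refine le_trans (W_mono E (F' := fun w b => ∑ z ∈ w.toFinset, kmul E.H (kmul E.P K) b z)
    fun w b _ => ?_) (W_sum E (fun i a => ?_) k u)
  · simp only [kmul, ← ENNReal.tsum_mul_left]
    rw [← tsum_fin]
    refine ENNReal.tsum_le_tsum fun z => ?_
    rw [← tsum_fin]
    refine ENNReal.tsum_le_tsum fun y => ?_
    beta_reduce
    rw [← Finset.mul_sum, ← Finset.mul_sum, List.dropLast_concat, List.getLastD_concat,
      mul_assoc, mul_assoc]
    refine (ind_mul_le _ _).trans (mul_le_mul' le_rfl (mul_le_mul' le_rfl ?_))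
    exact Finset.sum_le_sum_of_subset fun v hv =>
      List.mem_toFinset.2 ((le_sublist z w).subset (List.mem_toFinset.1 hv))
  · rw [← kmul_assoc, ← kmul_assoc]
    exact ht i a

theorem pat_esc (k : ℕ) (u : V) (B : Finset V) : ∑' x, E.P u x * E.esc B x ≤
    ∑' η : List V, ind (η.head? = some u ∧ ∀ v ∈ η.tail, v ∉ B) * pat E (k + 1) η *
      E.esc (B ∪ η.dropLast.toFinset) (η.getLastD u) := by
  have h1 : ∑' η : List V, ind (η.head? = some u ∧ ∀ v ∈ η.tail, v ∉ B) * pat E (k + 1) η *
      E.esc (B ∪ η.dropLast.toFinset) (η.getLastD u) =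
      W E (k + 1) u (g E fun η => ind (∀ v ∈ η.tail, v ∉ B) *
        E.esc (B ∪ η.dropLast.toFinset) (η.getLastD u)) := by
    rw [← tsum_pat]
    refine tsum_congr fun η => ?_
    rw [ind_and]
    ring
  have h2 : ∑' x, E.P u x * E.esc B x ≤
      W E (k + 1) u (fun w b => ind (∀ v ∈ w.tail, v ∉ B) * E.esc B b) :=
    ENNReal.tsum_le_tsum fun x => mul_le_mul' le_rfl (W_esc E B k x)
  rw [h1]
  refine h2.trans (W_mono E fun w b hw => ?_)
  by_cases hB : ∀ v ∈ w.tail, v ∉ B
  swap
  · rw [ind_neg hB, zero_mul]
    exact zero_le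
  rw [ind_pos hB, one_mul]
  refine (E.last_exit B w.toFinset (List.mem_toFinset.2 hw.2.2.1)).trans ?_
  rw [sum_eq_tsum_ind]
  refine ENNReal.tsum_le_tsum fun z => ?_
  by_cases hz : z ∈ w.toFinset
  swap
  · rw [ind_neg hz, zero_mul]
    exact zero_le
  rw [ind_pos hz, one_mul, ← ENNReal.tsum_mul_left]
  refine ENNReal.tsum_le_tsum fun y => ?_
  by_cases hy : y ∈ B ∪ w.toFinset
  · rw [E.esc_of_mem hy, mul_zero, mul_zero]
    exact zero_le
  have hy1 : y ∉ B := fun h => hy (Finset.mem_union_left _ h)
  have hy2 : y ∉ w := fun h => hy (Finset.mem_union_right _ (List.mem_toFinset.2 h))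
  have h5 := le_last (List.mem_toFinset.1 hz)
  have h6 : le z w ≠ [] := fun h6 => by rw [h6] at h5; cases h5
  have h7 : ∀ v ∈ (le z w ++ [y]).tail, v ∉ B := by
    intro v hv
    rw [List.tail_append_of_ne_nil h6] at hv
    rcases List.mem_append.1 hv with h | h
    · exact hB v (le_tail h)
    · rw [List.mem_singleton.1 h]; exact hy1
  beta_reduce
  rw [ind_pos ⟨List.mem_toFinset.1 hz, hy2⟩, one_mul, ind_pos h7, one_mul, List.dropLast_concat,
    List.getLastD_concat, mul_assoc]
  refine mul_le_mul' le_rfl (mul_le_mul' le_rfl (E.esc_anti ?_ y))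
  exact Finset.union_subset_union_right fun v hv =>
    List.mem_toFinset.2 ((le_sublist z w).subset (List.mem_toFinset.1 hv))

end PatAux

namespace Env

variable (E : Env G)

/-- Construction: for a list `w` of length `k + 1` let `pw w` be the product of `P` over
consecutive entries. For `z ∈ w` and `y ∉ w` put the weight `pw w * H (last w) z * P z y` on the
list `le w z ++ [y]`, where `le w z` is the loop erasure of the initial piece of `w` ending at the
first visit of `z` (define the erasure by recursion: `er (a :: l) = if a ∈ er l then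
(er l).dropWhile (· ≠ a) else a :: er l`; it has no repetition, the same head and last entry, its
entries are entries of the input, it commutes with `List.map` of injective maps, and a chain of
equal-or-adjacent steps becomes a chain of adjacent steps).
`mass`, `loop`: drop the constraints, bound a sum over the entries of `w` by the sum over the
times `i ≤ k`, and use `∑_w pw w * F (w i) (w k) = ∑ P^i u a * P^(k-i) a b * F a b`.
`esc`: iterate `esc_of_notMem` along `k` steps avoiding `B`, then `last_exit` with `R` the set of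
entries of `w`, then `esc_anti`. -/
theorem exists_pat {k : ℕ} (hk : 1 ≤ k) : ∃ π : List V → ℝ≥0∞, E.IsPat k π := by
  obtain ⟨k, rfl⟩ : ∃ j, k = j + 1 := ⟨k - 1, by omega⟩
  exact ⟨PatAux.pat E (k + 1), PatAux.pat_supp E _, PatAux.pat_inv E _, PatAux.pat_ker E _,
    PatAux.pat_mass E _, PatAux.pat_loop E _, PatAux.pat_esc E k⟩

variable {E}

omit [DecidableEq V] in
private theorem tsum_head_last' (π : List V → ℝ≥0∞) (u : V) (g : V → ℝ≥0∞) :
    ∑' η : List V, ind (η.head? = some u) * π η * g (η.getLastD u) = ∑' f, PiK π u f * g f := by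
  simp only [PiK, ← ENNReal.tsum_mul_right]
  rw [ENNReal.tsum_comm]
  refine tsum_congr fun η => ?_
  by_cases hη : η.head? = some u
  · have h1 : η.getLast? = some (η.getLastD u) := by
      cases η with
      | nil => cases hη
      | cons a l => rw [List.getLastD_eq_getLast?, List.getLast?_cons]; rfl
    have h2 : ∀ f, ind (η.head? = some u ∧ η.getLast? = some f) = ind (η.getLastD u = f) := by
      intro f
      refine ind_congr ⟨fun h => Option.some_inj.1 (h1.symm.trans h.2), fun h => ⟨hη, ?_⟩⟩
      rw [← h]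
      exact h1
    simp only [h2, mul_assoc]
    rw [tsum_ind_eq, ind_pos hη, one_mul]
  · have h2 : ∀ f, ind (η.head? = some u ∧ η.getLast? = some f) = 0 :=
      fun f => ind_neg fun h => hη h.1
    simp only [h2, ind_neg hη, zero_mul, tsum_zero]

theorem IsPat.nw_le {k : ℕ} {π : List V → ℝ≥0∞} (h : E.IsPat k π) :
    E.nw 6 (PiK π) ≤ E.ρ ^ k * E.CH := by
  refine (E.nw_mono 6 (fun u f => h.ker_le u f)).trans ((E.nw_kmul_le 6 _ _).trans ?_)
  refine (mul_le_mul' ((E.nw_kmul_le 6 _ _).trans (mul_le_mul' (E.nw_kpow_P k) E.nw_H))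
    (E.nw_P.trans E.ρ_lt.le)).trans ?_
  rw [mul_one]

theorem IsPat.row_le {k : ℕ} {π : List V → ℝ≥0∞} (h : E.IsPat k π) (u : V) :
    ∑' f, PiK π u f ≤ E.CH ^ 2 := by
  have h1 := tsum_head_last' π u fun _ => 1
  simp only [mul_one] at h1
  rw [← h1]
  exact h.mass u

theorem IsPat.range {k : ℕ} {π : List V → ℝ≥0∞} (h : E.IsPat k π) {u f : V}
    (hf : PiK π u f ≠ 0) : f ∈ ball G u (k + 1) := by
  by_contra hcon
  refine hf (ENNReal.tsum_eq_zero.2 fun η => ?_)
  by_contra h0
  have h1 : η.head? = some u ∧ η.getLast? = some f := by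
    by_contra h1
    exact h0 (by rw [ind_neg h1, zero_mul])
  obtain ⟨-, h2, -, h3⟩ := h.supp η (right_ne_zero_of_mul h0)
  exact hcon (ball_mono u (by omega) (mem_ball_of_chain h2 (List.mem_of_mem_head? h1.1)
    (List.mem_of_mem_getLast? h1.2)))

theorem IsPat.kinv {k : ℕ} {π : List V → ℝ≥0∞} (h : E.IsPat k π) : KInv G (PiK π) :=
  PiK_inv h.inv

/-- the head of a pattern through `v` lies in `ball v (k+1)` -/
theorem IsPat.through_le {k : ℕ} {π : List V → ℝ≥0∞} (h : E.IsPat k π) (v : V) :
    ∑' η : List V, ind (v ∈ η) * π η ≤ ((E.D : ℝ≥0∞) + 1) ^ (k + 1) * E.CH ^ 2 := by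
  have h1 : ∀ η : List V, ind (v ∈ η) * π η ≤
      ∑ u ∈ ball G v (k + 1), ind (η.head? = some u) * π η := by
    intro η
    by_cases h0 : π η = 0
    · rw [h0, mul_zero]
      exact zero_le
    rw [← Finset.sum_mul]
    refine mul_le_mul' ((ind_mono fun hv => ?_).trans (ind_exists_le _ _)) le_rfl
    obtain ⟨-, h2, -, h3⟩ := h.supp η h0
    cases η with
    | nil => exact absurd hv List.not_mem_nil
    | cons a l =>
      exact ⟨a, ball_mono v (by omega) (mem_ball_of_chain h2 hv List.mem_cons_self), rfl⟩
  refine (ENNReal.tsum_le_tsum h1).trans ?_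
  rw [PatAux.tsum_fin]
  refine (Finset.sum_le_card_nsmul _ _ _ fun u _ => h.mass u).trans ?_
  rw [nsmul_eq_mul]
  refine mul_le_mul' ?_ le_rfl
  exact_mod_cast card_ball_le E.deg_le v (k + 1)

theorem IsPat.le {k : ℕ} {π : List V → ℝ≥0∞} (h : E.IsPat k π) (η : List V) :
    π η ≤ E.CH ^ 2 := by
  by_cases h0 : π η = 0
  · rw [h0]
    exact zero_le
  obtain ⟨-, -, h2, -⟩ := h.supp η h0
  cases η with
  | nil => simp at h2
  | cons a l =>
    refine le_trans ?_ (h.mass a)
    refine le_trans ?_ (ENNReal.le_tsum (a :: l))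
    rw [ind_pos (show (a :: l).head? = some a from rfl), one_mul]

/-- regrouping a sum over patterns with head `u` by the last entry -/
theorem tsum_head_last (π : List V → ℝ≥0∞) (u : V) (g : V → ℝ≥0∞) :
    ∑' η : List V, ind (η.head? = some u) * π η * g (η.getLastD u) = ∑' f, PiK π u f * g f :=
  tsum_head_last' π u g

end Env

end Vale.Agent.P165
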