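import Mathlib
import Vale.Agent.P165.Pat

/-!
Action of a stage on the size profile, and norms of the stage kernels.
-/

open scoped ENNReal

namespace Vale.Agent.P165

variable {V : Type*} [DecidableEq V] {G : SimpleGraph V} [G.LocallyFinite]

namespace Env

variable (E : Env G)

theorem dec_mono (x : Ker V × Ker V) (v w : Prof) (h : E.Dec x v) (h1 : v.a ≤ w.a)
    (h2 : v.b ≤ w.b) (h3 : v.a' ≤ w.a') (h4 : v.b' ≤ w.b') (h5 : v.s ≤ w.s) : E.Dec x w := by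
  obtain ⟨Ga, Gb, Ua, Ub, Uc, a1, a2, a3, a4, a5, a6, a7⟩ := h
  exact ⟨Ga, Gb, Ua, Ub, Uc, a1, a2, a3.trans h1, E.tr_mono a4 le_rfl h2, a5.trans h3,
    E.tr_mono a6 le_rfl h4, fun y z => (a7 y z).trans h5⟩

theorem dec_fresh (x : Ker V × Ker V) (η : ℝ≥0∞) (h : E.Tr x.1 η) (h' : ∀ y z, x.2 y z ≤ η) :
    E.Dec x ⟨0, η, 0, 0, η⟩ :=
  ⟨0, x.1, 0, 0, x.2, by rw [zero_add], by rw [zero_add, zero_add], (E.nw_zero 2).le, h,
    (E.nw_zero 2).le, E.tr_zero, h'⟩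

theorem dec_capThin (t : ℝ≥0∞) (x : Ker V × Ker V) (v : Prof) (h : E.Dec x v) :
    E.Dec (capThin t x) ⟨v.a, v.b, t * v.a', t * v.b', t * v.s⟩ := by
  obtain ⟨Ga, Gb, Ua, Ub, Uc, a1, a2, a3, a4, a5, a6, a7⟩ := h
  refine ⟨Ga, Gb, t • Ua, t • Ub, t • Uc, a1, fun y z => ?_, a3, a4, ?_, E.tr_smul t a6,
    fun y z => mul_le_mul' le_rfl (a7 y z)⟩
  · rw [← smul_add, ← smul_add]
    exact mul_le_mul' le_rfl ((min_le_right _ _).trans (a2 y z))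
  · rw [E.nw_smul]
    exact mul_le_mul' le_rfl a5

/-- With `Φ' = μ⁻¹ • Φ`: new `Ga = Hs + Φ' Ga`, `Gb = Φ' Gb`,
`Ua = (H + Hs + Φ' Ga) Ttᵀ + Φ' H Ttᵀ + Φ' Ua Φᵀ + Φ' Φᵀ`, `Ub = Φ' Gb Ttᵀ + Φ' Ub Φᵀ`,
`Uc = Φ' Uc Φᵀ`. -/
theorem dec_step {Hs Tt Φ : Ker V} {μ B B' γ ϑ M B₀ : ℝ≥0∞} (hΦ : KInv G Φ) (hT : KInv G Tt)
    (h1 : E.nw 2 (μ⁻¹ • Φ) ≤ γ) (h2 : E.nw 2 Φ ≤ 1) (h3 : E.Np (μ⁻¹ • Φ) ≤ 1)
    (h4 : E.Np (μ⁻¹ • Φ) * E.Nm Φ ≤ ϑ)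
    (h5 : ∀ y y', μ⁻¹ * ((∑' f, Φ y f) * ∑' f, Φ y' f) ≤ ϑ) (h6 : E.nw 2 Tt ≤ M)
    (h7 : E.Nm Tt ≤ B') (h8 : E.nw 2 Hs ≤ B₀) (hγ : γ ≤ 1) (hB₀ : B₀ ≤ B)
    (hB : (2 * E.CH + B₀) * M + 1 ≤ B) (hM : M ≤ B) (x : Ker V × Ker V) (v : Prof)
    (h : E.Dec x v) : E.Dec (stepOp E.H Hs Tt Φ μ x) (Lam B B' γ ϑ v) := by
  obtain ⟨Ga, Gb, Ua, Ub, Uc, a1, a2, a3, a4, a5, a6, a7⟩ := h
  have hΦ' : KInv G (μ⁻¹ • Φ) := hΦ.smul _
  have hUc : ∀ y z, kmul (kmul (μ⁻¹ • Φ) Uc) (ktr Φ) y z ≤ ϑ * v.s := by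
    intro y z
    refine le_trans ?_ (mul_le_mul' (h5 y z) le_rfl)
    have b1 : ∀ w, kmul (μ⁻¹ • Φ) Uc y w ≤ μ⁻¹ * (∑' f, Φ y f) * v.s := fun w => by
      rw [← ENNReal.tsum_mul_left, ← ENNReal.tsum_mul_right]
      exact ENNReal.tsum_le_tsum fun f => mul_le_mul' le_rfl (a7 f w)
    calc _ ≤ ∑' w, μ⁻¹ * (∑' f, Φ y f) * v.s * Φ z w :=
          ENNReal.tsum_le_tsum fun w => mul_le_mul' (b1 w) le_rfl
      _ = _ := by rw [ENNReal.tsum_mul_left]; ring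
  have e1 : (stepOp E.H Hs Tt Φ μ x).1 = Hs + kmul (μ⁻¹ • Φ) x.1 := by
    simp only [stepOp, smul_kmul]
  have e2 : (stepOp E.H Hs Tt Φ μ x).2 =
      kmul (E.H + (Hs + kmul (μ⁻¹ • Φ) x.1)) (ktr Tt) + kmul (kmul (μ⁻¹ • Φ) E.H) (ktr Tt) +
        kmul (kmul (μ⁻¹ • Φ) (x.2 + kid)) (ktr Φ) := by
    simp only [stepOp, smul_kmul]
  generalize μ⁻¹ • Φ = Φ' at *
  have hH : E.nw 2 E.H ≤ E.CH := (E.nw_mono_exp (by norm_num) _).trans E.nw_H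
  have hGa : E.nw 2 (Hs + kmul Φ' Ga) ≤ B₀ + γ * v.a :=
    (E.nw_add_le 2 _ _).trans (add_le_add h8 ((E.nw_kmul_le 2 _ _).trans (mul_le_mul' h1 a3)))
  have hT' : E.nw 2 (ktr Tt) ≤ M := (E.nw_ktr 2 Tt).trans_le h6
  have hΦt : E.nw 2 (ktr Φ) ≤ 1 := (E.nw_ktr 2 Φ).trans_le h2
  refine ⟨Hs + kmul Φ' Ga, kmul Φ' Gb,
    kmul (E.H + (Hs + kmul Φ' Ga)) (ktr Tt) + kmul (kmul Φ' E.H) (ktr Tt) +
      kmul (kmul Φ' Ua) (ktr Φ) + kmul Φ' (ktr Φ),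
    kmul (kmul Φ' Gb) (ktr Tt) + kmul (kmul Φ' Ub) (ktr Φ), kmul (kmul Φ' Uc) (ktr Φ),
    ?_, ?_, hGa.trans (add_le_add hB₀ le_rfl), ?_, ?_, ?_, hUc⟩
  · rw [e1, add_assoc, ← kmul_add]
    exact add_le_add le_rfl (kmul_mono le_rfl a1)
  · rw [e2]
    calc _ ≤ kmul (E.H + (Hs + kmul Φ' (Ga + Gb))) (ktr Tt) + kmul (kmul Φ' E.H) (ktr Tt) +
          kmul (kmul Φ' (Ua + Ub + Uc + kid)) (ktr Φ) :=
          add_le_add (add_le_add (kmul_mono (add_le_add le_rfl (add_le_add le_rfl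
            (kmul_mono le_rfl a1))) le_rfl) le_rfl)
            (kmul_mono (kmul_mono le_rfl (add_le_add a2 le_rfl)) le_rfl)
      _ = _ := by
          simp only [kmul_add, add_kmul, kmul_kid]
          abel
  · refine E.tr_mono (E.tr_left hΦ' a4) le_rfl ?_
    exact mul_le_of_le_one_left' h3
  · have b1 : E.nw 2 (kmul (E.H + (Hs + kmul Φ' Ga)) (ktr Tt)) ≤ (E.CH + (B₀ + γ * v.a)) * M :=
      (E.nw_kmul_le 2 _ _).trans (mul_le_mul' ((E.nw_add_le 2 _ _).trans (add_le_add hH hGa)) hT')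
    have b2 : E.nw 2 (kmul (kmul Φ' E.H) (ktr Tt)) ≤ 1 * E.CH * M :=
      (E.nw_kmul_le 2 _ _).trans (mul_le_mul' ((E.nw_kmul_le 2 _ _).trans
        (mul_le_mul' (h1.trans hγ) hH)) hT')
    have b3 : E.nw 2 (kmul (kmul Φ' Ua) (ktr Φ)) ≤ γ * v.a' * 1 :=
      (E.nw_kmul_le 2 _ _).trans (mul_le_mul' ((E.nw_kmul_le 2 _ _).trans (mul_le_mul' h1 a5)) hΦt)
    have b4 : E.nw 2 (kmul Φ' (ktr Φ)) ≤ 1 * 1 :=
      (E.nw_kmul_le 2 _ _).trans (mul_le_mul' (h1.trans hγ) hΦt)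
    have b5 : M * γ ≤ B := (mul_le_of_le_one_right' hγ).trans hM
    calc _ ≤ (E.CH + (B₀ + γ * v.a)) * M + 1 * E.CH * M + γ * v.a' * 1 + 1 * 1 :=
          (E.nw_add_le 2 _ _).trans (add_le_add ((E.nw_add_le 2 _ _).trans (add_le_add
            ((E.nw_add_le 2 _ _).trans (add_le_add b1 b2)) b3)) b4)
      _ = (2 * E.CH + B₀) * M + 1 + M * γ * v.a + γ * v.a' := by ring
      _ ≤ B + B * v.a + γ * v.a' :=
          add_le_add (add_le_add hB (mul_le_mul' b5 le_rfl)) le_rfl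
  · refine E.tr_mono (E.tr_add (E.tr_right hT (E.tr_left hΦ' a4))
      (E.tr_right hΦ (E.tr_left hΦ' a6))) le_rfl (add_le_add ?_ ?_)
    · calc _ ≤ 1 * v.b * B' := mul_le_mul' (mul_le_mul' h3 le_rfl) h7
        _ = _ := by ring
    · calc _ = E.Np Φ' * E.Nm Φ * v.b' := by ring
        _ ≤ _ := mul_le_mul' h4 le_rfl

theorem tr_step {Hs Tt Φ : Ker V} {μ t δ ε₀ : ℝ≥0∞} (hΦ : KInv G Φ) (hHs : E.Tr Hs t)
    (h3 : E.Np (μ⁻¹ • Φ) ≤ δ) (x : Ker V × Ker V) (hx : E.Tr x.1 ε₀) :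
    E.Tr (stepOp E.H Hs Tt Φ μ x).1 (t + δ * ε₀) := by
  have e1 : (stepOp E.H Hs Tt Φ μ x).1 = Hs + kmul (μ⁻¹ • Φ) x.1 := by
    simp only [stepOp, smul_kmul]
  rw [e1]
  exact E.tr_mono (E.tr_add hHs (E.tr_left (hΦ.smul _) hx)) le_rfl
    (add_le_add le_rfl (mul_le_mul' h3 le_rfl))

private theorem alg_row {W Q σ : Ker V} {κ R c m : ℝ≥0∞} (a : V)
    (hσ : ∀ u f, Q u f ≠ 0 → σ a f ≤ σ a u * R) (hQ : ∀ u, ∑' f, Q u f ≤ c)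
    (hW : ∑' u, W a u * σ a u ≤ m) :
    ∑' f, (κ • kmul W Q) a f * σ a f ≤ κ * (m * (R * c)) := by
  have h1 : ∀ f, (κ • kmul W Q) a f * σ a f ≤ κ * ∑' u, W a u * σ a u * (R * Q u f) := by
    intro f
    rw [Pi.smul_apply, Pi.smul_apply, smul_eq_mul, mul_assoc, kmul, ← ENNReal.tsum_mul_right]
    refine mul_le_mul' le_rfl (ENNReal.tsum_le_tsum fun u => ?_)
    by_cases h : Q u f = 0
    · simp [h]
    · calc _ ≤ W a u * Q u f * (σ a u * R) := mul_le_mul' le_rfl (hσ u f h)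
        _ = _ := by ring
  refine (ENNReal.tsum_le_tsum h1).trans ?_
  rw [ENNReal.tsum_mul_left, ENNReal.tsum_comm]
  refine mul_le_mul' le_rfl ?_
  calc _ ≤ ∑' u, W a u * σ a u * (R * c) := ENNReal.tsum_le_tsum fun u => by
        rw [ENNReal.tsum_mul_left, ENNReal.tsum_mul_left]
        exact mul_le_mul' le_rfl (mul_le_mul' le_rfl (hQ u))
    _ ≤ _ := by
        rw [ENNReal.tsum_mul_right]
        exact mul_le_mul' hW le_rfl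

/-- norms of the exit kernel: `nw_kmul_le`, `IsPat.nw_le`, `kmul_row_le`, `IsPat.row_le`,
`nrm_tl_pred_le`, `nrm_tl_succ_le` with `IsPat.range` and `τ_ball` -/
theorem phi_bounds {k : ℕ} {π : List V → ℝ≥0∞} (hπ : E.IsPat k π) {T φ Φ : Ker V}
    {φ₀ w g Cw κ : ℝ≥0∞} (hφ : E.IsWin φ φ₀) (hT : KInv G T)
    (hg : ∀ y, ∑' u, φ y u ^ 2 * T y u ≤ g)
    (hb : ∀ y, ∑' u, φ y u ^ 2 * T y u * E.τ y u ≤ Cw * w * g)
    (hc : ∀ y, ∑' u, φ y u ^ 2 * T y u * E.τ u y ≤ Cw * w⁻¹ * g)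
    (hΦ : Φ = κ • kmul (fun y u => φ y u ^ 2 * T y u) (PiK π)) :
    KInv G Φ ∧ E.nw 2 Φ ≤ κ * (E.nw 6 T * (E.ρ ^ k * E.CH)) ∧
      (∀ y, ∑' f, Φ y f ≤ κ * (g * E.CH ^ 2)) ∧
      nrm (E.tl (E.n - 1) Φ) ≤ E.reps.card * (κ * (Cw * w * g * (E.r ^ (k + 1) * E.CH ^ 2))) ∧
      nrm (E.tl (E.n + 1) Φ) ≤ E.reps.card * (κ * (Cw * w⁻¹ * g * (E.r ^ (k + 1) * E.CH ^ 2))) := by
  subst hΦ
  have hinv : KInv G (κ • kmul (fun y u => φ y u ^ 2 * T y u) (PiK π)) :=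
    (((hφ.inv.pow 2).mul hT).kmul hπ.kinv).smul κ
  refine ⟨hinv, ?_, fun y => ?_, E.nrm_tl_pred_le hinv fun a => ?_,
    E.nrm_tl_succ_le hinv fun a => ?_⟩
  · rw [E.nw_smul]
    refine mul_le_mul' le_rfl ((E.nw_kmul_le 2 _ _).trans (mul_le_mul' ?_ ?_))
    · refine (E.nw_mono 2 fun y u => ?_).trans (E.nw_mono_exp (by norm_num) T)
      exact mul_le_of_le_one_left' (pow_le_one' (hφ.le_one y u) 2)
    · exact (E.nw_mono_exp (by norm_num) _).trans hπ.nw_le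
  · simp only [Pi.smul_apply, smul_eq_mul, ENNReal.tsum_mul_left]
    exact mul_le_mul' le_rfl (kmul_row_le hg hπ.row_le y)
  · refine alg_row (σ := E.τ) a (fun u f h => ?_) hπ.row_le (hb a)
    rw [← E.τ_mul a u f]
    exact mul_le_mul' le_rfl (E.τ_ball (hπ.range h))
  · refine alg_row (σ := fun a y => E.τ y a) a (fun u f h => ?_) hπ.row_le (hc a)
    rw [← E.τ_mul f u a, mul_comm]
    exact mul_le_mul' le_rfl (E.τ_ball (mem_ball_symm (hπ.range h)))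

/-- `ksum_split`: `T H = T (∑_{i<j} P^i) + T P^j H`; `tr_right` with `Nm_ne_top_of_range` for the
symmetric finite-range kernel `∑_{i<j} P^i`, and `tr_nrm` -/
theorem tr_TH (j : ℕ) : ∃ C : ℝ≥0∞, C ≠ ⊤ ∧ ∀ (T : Ker V) (t : ℝ≥0∞), E.Tr T t →
    E.Tr (kmul T E.H) (t * C + nrm T * (E.ρ ^ j * E.CH)) := by
  set S : Ker V := fun x y => ∑ i ∈ Finset.range j, kpow E.P i x y with hS
  have hSinv : KInv G S := KInv.sum _ fun i => E.P_inv.kpow i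
  have hSt : ktr S = S := by
    funext x y
    refine Finset.sum_congr rfl fun i _ => ?_
    have := congrFun (congrFun (ktr_kpow E.P i) x) y
    rwa [E.ktr_P] at this
  refine ⟨E.Nm S, E.Nm_ne_top_of_range (c := j) (ENNReal.natCast_ne_top j) j fun x y => ?_,
    fun T t hT => ?_⟩
  · calc _ ≤ ∑ _i ∈ Finset.range j, ballK G j x y := Finset.sum_le_sum fun i hi => by
          by_cases h : kpow E.P i x y = 0
          · rw [h]; exact zero_le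
          · rw [ballK, ind_pos (ball_mono x (Finset.mem_range.mp hi).le (E.kpow_P_supp h))]
            exact E.kpow_P_le_one i x y
      _ = _ := by rw [Finset.sum_const, Finset.card_range, nsmul_eq_mul]
  · have e1 : kmul T E.H = kmul T (ktr S) + kmul T (kmul (kpow E.P j) E.H) := by
      rw [hSt, ← kmul_add]
      exact congrArg _ (ksum_split E.P j)
    rw [e1]
    refine E.tr_mono (E.tr_add (E.tr_right hSinv hT) (E.tr_nrm _)) le_rfl (add_le_add le_rfl ?_)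
    exact (nrm_kmul_le _ _).trans (mul_le_mul' le_rfl ((nrm_kmul_le _ _).trans (mul_le_mul'
      ((E.nrm_le_nw 6 _).trans (E.nw_kpow_P j)) ((E.nrm_le_nw 6 _).trans E.nw_H))))

/-- `nrm_tl_pred_interp` and `nrm_tl_n_le` -/
theorem np_small_of {δ C : ℝ≥0∞} (hδ : δ ≠ 0) (hC : C ≠ ⊤) : ∃ γ₀ : ℝ≥0∞, γ₀ ≠ 0 ∧
    ∀ K : Ker V, KInv G K → (∀ y, ∑' f, K y f ≤ C) → nrm K ≤ γ₀ → E.Np K ≤ δ := by
  set A : ℝ≥0∞ := E.reps.card * C + 1 with hA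
  have hA0 : A ≠ 0 := by rw [hA]; simp
  have hA1 : A ≠ ⊤ :=
    ENNReal.add_ne_top.mpr ⟨ENNReal.mul_ne_top (ENNReal.natCast_ne_top _) hC, ENNReal.one_ne_top⟩
  set d : ℝ≥0∞ := min δ 1 / 2 with hd
  have hm0 : min δ 1 ≠ 0 := (lt_min (pos_iff_ne_zero.mpr hδ) one_pos).ne'
  have hm1 : min δ 1 ≠ ⊤ := ne_top_of_le_ne_top ENNReal.one_ne_top (min_le_right _ _)
  have hd0 : d ≠ 0 := (ENNReal.div_pos hm0 ENNReal.ofNat_ne_top).ne'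
  have hd1 : d ≠ ⊤ := ENNReal.div_ne_top hm1 two_ne_zero
  have he0 : d / A ≠ 0 := (ENNReal.div_pos hd0 hA1).ne'
  have he1 : d / A ≠ ⊤ := ENNReal.div_ne_top hd1 hA0
  refine ⟨min δ ((d / A) ^ (E.n - 1) * d), (lt_min (pos_iff_ne_zero.mpr hδ)
    (pos_iff_ne_zero.mpr (mul_ne_zero (pow_ne_zero _ he0) hd0))).ne', fun K hK hC' hγ => ?_⟩
  refine max_le (hγ.trans (min_le_left _ _)) ((E.nrm_tl_pred_interp K he0 he1).trans ?_)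
  calc _ ≤ d / A * A + (d / A)⁻¹ ^ (E.n - 1) * ((d / A) ^ (E.n - 1) * d) :=
        add_le_add (mul_le_mul' le_rfl ((E.nrm_tl_n_le hK hC').trans le_self_add))
          (mul_le_mul' le_rfl (hγ.trans (min_le_right _ _)))
    _ = d + d := by
        rw [ENNReal.div_mul_cancel hA0 hA1, ← mul_assoc, ← mul_pow,
          ENNReal.inv_mul_cancel he0 he1, one_pow, one_mul]
    _ = min δ 1 := ENNReal.add_halves _
    _ ≤ δ := min_le_left _ _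

end Env

end Vale.Agent.P165
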