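import Mathlib

/-!
Small arithmetic helpers in `ℝ≥0∞`.
-/

open scoped ENNReal

namespace Vale.Agent.P165

theorem exists_small {a b : ℝ≥0∞} (ha : a ≠ ⊤) (hb : b ≠ 0) :
    ∃ e : ℝ≥0∞, e ≠ 0 ∧ e ≤ 1 ∧ a * e ≤ b := by
  refine ⟨min 1 (b / (a + 1)), ?_, min_le_left _ _, ?_⟩
  · refine (lt_min zero_lt_one ?_).ne'
    exact ENNReal.div_pos hb (by simpa using ha)
  · calc a * min 1 (b / (a + 1)) ≤ (a + 1) * (b / (a + 1)) :=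
          mul_le_mul' le_self_add (min_le_right _ _)
      _ ≤ b := ENNReal.mul_div_le

theorem exists_large {a b : ℝ≥0∞} (ha : a ≠ ⊤) (hb : b ≠ 0) :
    ∃ K : ℝ≥0∞, K ≠ ⊤ ∧ a ≤ K * b := by
  rcases eq_or_ne b ⊤ with rfl | hb'
  · exact ⟨1, by simp, by simp⟩
  exact ⟨a / b, ENNReal.div_ne_top ha hb, (ENNReal.div_mul_cancel hb hb').ge⟩

theorem exists_pow_small {ρ a b : ℝ≥0∞} (hρ : ρ < 1) (ha : a ≠ ⊤) (hb : b ≠ 0) :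
    ∃ k₀ : ℕ, ∀ k, k₀ ≤ k → a * ρ ^ k ≤ b := by
  obtain ⟨e, he0, -, he⟩ := exists_small ha hb
  have h := ENNReal.tendsto_pow_atTop_nhds_zero_of_lt_one hρ
  obtain ⟨k₀, hk⟩ := Filter.eventually_atTop.1 (h.eventually (ge_mem_nhds (pos_iff_ne_zero.2 he0)))
  exact ⟨k₀, fun k hk' => (mul_le_mul_right (hk k hk') a).trans he⟩

theorem cast_add_two_le (k : ℕ) : ((k : ℝ≥0∞) + 2) ≤ 2 * 2 ^ k := by
  have : k + 2 ≤ 2 * 2 ^ k := by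
    have := Nat.lt_two_pow_self (n := k)
    omega
  exact_mod_cast this

theorem inv_mul_le_of_le_mul {μ a b : ℝ≥0∞} (h0 : μ ≠ 0) (h1 : μ ≠ ⊤) (h : a ≤ b * μ) :
    μ⁻¹ * a ≤ b := by
  calc μ⁻¹ * a ≤ μ⁻¹ * (b * μ) := mul_le_mul_right h _
    _ = b * (μ⁻¹ * μ) := by ring
    _ = b := by rw [ENNReal.inv_mul_cancel h0 h1, mul_one]

end Vale.Agent.P165
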