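import Mathlib
import Vale.Agent.P165.Defs

/-!
Deterministic facts on `Op`, `Conn`, `EP`, `LL`.
-/

namespace Vale.Agent.P165

variable {V : Type*} [DecidableEq V] {G : SimpleGraph V} [G.LocallyFinite]

theorem mem_EP {R : Finset V} {e : Sym2 V} : e ∈ EP G R ↔ e ∈ G.edgeSet ∧ ∃ v ∈ R, v ∈ e := by
  simp only [EP, Finset.mem_biUnion, SimpleGraph.mem_incidenceFinset, SimpleGraph.incidenceSet,
    Set.mem_ofPred_eq]
  constructor
  · rintro ⟨v, hv, he, hve⟩
    exact ⟨he, v, hv, hve⟩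
  · rintro ⟨he, v, hv, hve⟩
    exact ⟨v, hv, he, hve⟩

theorem mk_mem_EP {R : Finset V} {a b : V} (h : G.Adj a b) (ha : a ∈ R) : s(a, b) ∈ EP G R :=
  mem_EP.2 ⟨h, a, ha, Sym2.mem_mk_left a b⟩

theorem EP_mono {R R' : Finset V} (h : R ⊆ R') : EP G R ⊆ EP G R' := fun _ he => by
  obtain ⟨h1, v, hv, hve⟩ := mem_EP.1 he
  exact mem_EP.2 ⟨h1, v, h hv, hve⟩

theorem EP_image (φ : G ≃g G) (R : Finset V) :
    EP G (R.image φ) = (EP G R).image (Sym2.map φ) := by
  ext e
  simp only [Finset.mem_image, mem_EP]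
  constructor
  · rintro ⟨he, v, ⟨u, hu, rfl⟩, hve⟩
    induction e using Sym2.ind with
    | h a b =>
      refine ⟨s(φ.symm a, φ.symm b), ⟨φ.symm.map_adj_iff.2 he, u, hu, ?_⟩, by simp⟩
      rcases Sym2.mem_iff.1 hve with h | h
      · rw [← h]; simp
      · rw [← h]; simp
  · rintro ⟨e', ⟨he, v, hv, hve⟩, rfl⟩
    induction e' using Sym2.ind with
    | h a b =>
      refine ⟨φ.map_adj_iff.2 he, φ v, ⟨v, hv, rfl⟩, ?_⟩
      rcases Sym2.mem_iff.1 hve with h | h
      · rw [h]; simp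
      · rw [h]; simp

theorem card_EP_le {D : ℕ} (hD : ∀ x, G.degree x ≤ D) (R : Finset V) :
    (EP G R).card ≤ D * R.card := by
  refine Finset.card_biUnion_le.trans ?_
  rw [mul_comm, ← smul_eq_mul, ← Finset.sum_const]
  refine Finset.sum_le_sum fun v _ => ?_
  rw [SimpleGraph.card_incidenceFinset_eq_degree]
  exact hD v

theorem mem_LL {R : Finset V} {η : List V} : η ∈ LL R ↔ η.Nodup ∧ ∀ v ∈ η, v ∈ R := by
  simp only [LL, Finset.mem_biUnion, Finset.mem_powerset, List.mem_toFinset,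
    List.mem_permutations]
  constructor
  · rintro ⟨s, hs, hp⟩
    exact ⟨hp.nodup_iff.2 s.nodup_toList, fun v hv => hs (Finset.mem_toList.1 (hp.mem_iff.1 hv))⟩
  · rintro ⟨hn, hR⟩
    refine ⟨η.toFinset, fun v hv => hR v (List.mem_toFinset.1 hv), ?_⟩
    exact (List.perm_ext_iff_of_nodup hn (Finset.nodup_toList _)).2 fun v => by simp

theorem LL_mono {R R' : Finset V} (h : R ⊆ R') : LL R ⊆ LL R' := fun _ hη =>
  mem_LL.2 ⟨(mem_LL.1 hη).1, fun v hv => h ((mem_LL.1 hη).2 v hv)⟩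

theorem LL_image (φ : G ≃g G) (R : Finset V) :
    LL (R.image φ) = (LL R).image (List.map φ) := by
  ext η
  simp only [Finset.mem_image, mem_LL]
  constructor
  · rintro ⟨hn, hR⟩
    refine ⟨η.map φ.symm, ⟨hn.map φ.symm.injective, fun v hv => ?_⟩, ?_⟩
    · obtain ⟨w, hw, rfl⟩ := List.mem_map.1 hv
      obtain ⟨u, hu, rfl⟩ := hR w hw
      simpa using hu
    · rw [List.map_map]
      simp
  · rintro ⟨σ, ⟨hn, hR⟩, rfl⟩
    refine ⟨hn.map φ.injective, fun v hv => ?_⟩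
    obtain ⟨w, hw, rfl⟩ := List.mem_map.1 hv
    exact ⟨w, hR w hw, rfl⟩

theorem mem_mOff {η σ : List V} {m : Finset (List V)} :
    σ ∈ mOff η m ↔ σ ∈ m ∧ ∀ v ∈ η, v ∉ σ := by
  simp only [mOff, Finset.mem_filter]

theorem Op.symm {ω : Finset (Sym2 V)} {a b : V} (h : Op G ω a b) : Op G ω b a :=
  ⟨h.1.symm, by rw [Sym2.eq_swap]; exact h.2⟩

theorem Op.mono {ω ω' : Finset (Sym2 V)} (hω : ω ⊆ ω') {a b : V} (h : Op G ω a b) :
    Op G ω' a b := ⟨h.1, hω h.2⟩

theorem Op_image (φ : G ≃g G) {ω : Finset (Sym2 V)} {a b : V} :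
    Op G (ω.image (Sym2.map φ)) (φ a) (φ b) ↔ Op G ω a b := by
  unfold Op
  rw [φ.map_adj_iff, ← Sym2.map_mk φ a b,
    Function.Injective.mem_finset_image (Sym2.map.injective φ.injective)]

theorem Conn.refl {R : Finset V} (ω : Finset (Sym2 V)) {x : V} (h : x ∈ R) : Conn G R ω x x :=
  ⟨h, Relation.ReflTransGen.refl⟩

theorem Conn.left {R : Finset V} {ω : Finset (Sym2 V)} {x v : V} (h : Conn G R ω x v) : x ∈ R :=
  h.1

theorem Conn.right {R : Finset V} {ω : Finset (Sym2 V)} {x v : V} (h : Conn G R ω x v) :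
    v ∈ R := by
  obtain ⟨hx, h⟩ := h
  induction h with
  | refl => exact hx
  | tail _ h _ => exact h.1

theorem Conn.trans {R : Finset V} {ω : Finset (Sym2 V)} {x y z : V} (h : Conn G R ω x y)
    (h' : Conn G R ω y z) : Conn G R ω x z := ⟨h.1, h.2.trans h'.2⟩

theorem Conn.tail {R : Finset V} {ω : Finset (Sym2 V)} {x y z : V} (h : Conn G R ω x y)
    (h' : Op G ω y z) (hz : z ∈ R) : Conn G R ω x z := ⟨h.1, h.2.tail ⟨hz, h'⟩⟩

theorem Conn.symm {R : Finset V} {ω : Finset (Sym2 V)} {x y : V} (h : Conn G R ω x y) :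
    Conn G R ω y x := by
  obtain ⟨hx, h⟩ := h
  induction h with
  | refl => exact Conn.refl ω hx
  | tail _ h ih => exact ((Conn.refl ω h.1).tail h.2.symm ih.1).trans ih

/-- `Conn` only looks at edges of `G` with both ends in `R` -/
theorem Conn.congr {R : Finset V} {ω ω' : Finset (Sym2 V)}
    (h : ∀ a ∈ R, ∀ b ∈ R, G.Adj a b → s(a, b) ∈ ω → s(a, b) ∈ ω') {x v : V}
    (hc : Conn G R ω x v) : Conn G R ω' x v := by
  obtain ⟨hx, hc⟩ := hc
  induction hc with
  | refl => exact Conn.refl ω' hx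
  | tail _ hb ih => exact ih.tail ⟨hb.2.1, h _ ih.right _ hb.1 hb.2.1 hb.2.2⟩ hb.1

theorem Conn.mono {R R' : Finset V} {ω ω' : Finset (Sym2 V)} (hR : R ⊆ R') (hω : ω ⊆ ω') {x y : V}
    (h : Conn G R ω x y) : Conn G R' ω' x y := by
  obtain ⟨hx, hc⟩ := h
  induction hc with
  | refl => exact Conn.refl ω' (hR hx)
  | tail _ hb ih => exact ih.tail (hb.2.mono hω) (hR hb.1)

/-- locality of the cluster exploration -/
theorem conn_local {R : Finset V} {ω ω' : Finset (Sym2 V)} {x : V}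
    (h : ∀ a b, Conn G R ω x a → (Op G ω a b ↔ Op G ω' a b)) (v : V) :
    Conn G R ω' x v ↔ Conn G R ω x v := by
  constructor
  · rintro ⟨hx, hc⟩
    induction hc with
    | refl => exact Conn.refl ω hx
    | tail _ hb ih => exact ih.tail ((h _ _ ih).2 hb.2) hb.1
  · rintro ⟨hx, hc⟩
    induction hc with
    | refl => exact Conn.refl ω' hx
    | tail hc hb ih => exact ih.tail ((h _ _ ⟨hx, hc⟩).1 hb.2) hb.1

/-- last exit from `S` -/
theorem Conn.last_exit {R S : Finset V} {ω : Finset (Sym2 V)} {x v : V} (h : Conn G R ω x v)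
    (hx : x ∈ S) (hv : v ∉ S) : ∃ u ∈ S, ∃ z, Op G ω u z ∧ Conn G (R \ S) ω z v := by
  obtain ⟨hxR, hc⟩ := h
  induction hc with
  | refl => exact absurd hx hv
  | @tail b c _ hb ih =>
    have hc' : c ∈ R \ S := Finset.mem_sdiff.2 ⟨hb.1, hv⟩
    by_cases hbS : b ∈ S
    · exact ⟨b, hbS, c, hb.2, Conn.refl ω hc'⟩
    · obtain ⟨u, hu, z, hz, hzb⟩ := ih hbS
      exact ⟨u, hu, z, hz, hzb.tail hb.2 hc'⟩

theorem conn_head_of_chain {R : Finset V} {ω : Finset (Sym2 V)} {γ : List V} {a : V}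
    (hc : (a :: γ).IsChain (Op G ω)) (hR : ∀ v ∈ a :: γ, v ∈ R) {v : V} (hv : v ∈ a :: γ) :
    Conn G R ω a v := by
  induction γ generalizing a with
  | nil =>
    rw [List.mem_singleton.1 hv]
    exact Conn.refl ω (hR a List.mem_cons_self)
  | cons b γ ih =>
    have ha : Conn G R ω a a := Conn.refl ω (hR a List.mem_cons_self)
    rcases List.mem_cons.1 hv with rfl | hv
    · exact ha
    · rw [List.isChain_cons_cons] at hc
      exact (ha.tail hc.1 (hR b (List.mem_cons_of_mem _ List.mem_cons_self))).trans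
        (ih hc.2 (fun w hw => hR w (List.mem_cons_of_mem _ hw)) hv)

theorem conn_of_chain {R : Finset V} {ω : Finset (Sym2 V)} {γ : List V}
    (hc : γ.IsChain (Op G ω)) (hR : ∀ v ∈ γ, v ∈ R) {x v : V} (hx : x ∈ γ) (hv : v ∈ γ) :
    Conn G R ω x v := by
  cases γ with
  | nil => exact absurd hx List.not_mem_nil
  | cons a γ => exact (conn_head_of_chain hc hR hx).symm.trans (conn_head_of_chain hc hR hv)

theorem conn_image_of (φ : G ≃g G) {R : Finset V} {ω : Finset (Sym2 V)} {x v : V}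
    (h : Conn G R ω x v) : Conn G (R.image φ) (ω.image (Sym2.map φ)) (φ x) (φ v) := by
  obtain ⟨hx, hc⟩ := h
  induction hc with
  | refl => exact Conn.refl _ (Finset.mem_image_of_mem _ hx)
  | tail _ hb ih => exact ih.tail ((Op_image φ).2 hb.2) (Finset.mem_image_of_mem _ hb.1)

theorem image_symm_image (φ : G ≃g G) (R : Finset V) : (R.image φ).image φ.symm = R := by
  rw [Finset.image_image]
  simp

theorem image_symm_image_sym2 (φ : G ≃g G) (ω : Finset (Sym2 V)) :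
    (ω.image (Sym2.map φ)).image (Sym2.map φ.symm) = ω := by
  rw [Finset.image_image, ← Sym2.map_comp]
  simp

theorem conn_image (φ : G ≃g G) {R : Finset V} {ω : Finset (Sym2 V)} {x v : V} :
    Conn G (R.image φ) (ω.image (Sym2.map φ)) (φ x) (φ v) ↔ Conn G R ω x v := by
  refine ⟨fun h => ?_, conn_image_of φ⟩
  have h1 := conn_image_of φ.symm h
  rwa [image_symm_image, image_symm_image_sym2, φ.symm_apply_apply, φ.symm_apply_apply] at h1

theorem out_image (φ : G ≃g G) {R : Finset V} {ω : Finset (Sym2 V)} {x : V} :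
    Out G (R.image φ) (ω.image (Sym2.map φ)) (φ x) ↔ Out G R ω x := by
  constructor
  · rintro ⟨u, v, h1, h2, h3⟩
    obtain ⟨u, rfl⟩ := φ.surjective u
    obtain ⟨v, rfl⟩ := φ.surjective v
    exact ⟨u, v, (conn_image φ).1 h1, fun h => h2 (Finset.mem_image_of_mem _ h), (Op_image φ).1 h3⟩
  · rintro ⟨u, v, h1, h2, h3⟩
    exact ⟨φ u, φ v, (conn_image φ).2 h1,
      fun h => h2 ((Function.Injective.mem_finset_image φ.injective).1 h), (Op_image φ).2 h3⟩

theorem Out.mono {R : Finset V} {ω ω' : Finset (Sym2 V)} (hω : ω ⊆ ω') {x : V}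
    (h : Out G R ω x) : Out G R ω' x := by
  obtain ⟨u, v, h1, h2, h3⟩ := h
  exact ⟨u, v, h1.mono (Finset.Subset.refl _) hω, h2, h3.mono hω⟩

end Vale.Agent.P165
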