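import Mathlib
import Vale.Agent.P165.Ex

/-!
Correlation inequalities, sprinkling and the Markov property for `Ex`.
-/

open scoped ENNReal

namespace Vale.Agent.P165

variable {ι : Type*} [DecidableEq ι] {p : ι → ℝ≥0∞} {J : Finset ι} {f g : Finset ι → ℝ≥0∞}

theorem ExB_cheb {a b : ℝ≥0∞} (h : a + b = 1) (F G x y : ℝ≥0∞) :
    (a * F + b * (F + x)) * (a * G + b * (G + y)) ≤ a * (F * G) + b * ((F + x) * (G + y)) := by
  have hb : b * b ≤ b := mul_le_of_le_one_left' (h ▸ le_add_self)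
  calc (a * F + b * (F + x)) * (a * G + b * (G + y))
      = ((a + b) * F + b * x) * ((a + b) * G + b * y) := by ring
    _ = F * G + b * (F * y + x * G) + b * b * (x * y) := by
      rw [h]
      ring
    _ ≤ F * G + b * (F * y + x * G) + b * (x * y) := by gcongr
    _ = (a + b) * (F * G) + b * (F * y + x * G) + b * (x * y) := by rw [h, one_mul]
    _ = _ := by ring

/-- Harris inequality. Induction on `J`; the one-coordinate step is Chebyshev's inequality
(write `f₁ = f₀ + a`, `g₁ = g₀ + b` with `exists_add_of_le`, and `1 = (1 - p) + p`). -/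
theorem harris (hp : ∀ e, p e ≤ 1) (J : Finset ι) (hf : Monotone f) (hg : Monotone g) :
    Ex p J f * Ex p J g ≤ Ex p J (fun ω => f ω * g ω) := by
  induction J using Finset.induction_on generalizing f g with
  | empty => rw [Ex_empty, Ex_empty, Ex_empty]
  | insert e J he ih =>
    have hf' : Monotone fun ω => f (insert e ω) := fun _ _ h => hf (Finset.insert_subset_insert _ h)
    have hg' : Monotone fun ω => g (insert e ω) := fun _ _ h => hg (Finset.insert_subset_insert _ h)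
    obtain ⟨x, hx⟩ := exists_add_of_le (Ex_mono (p := p) (J := J) (f := f)
      (g := fun ω => f (insert e ω)) fun ω _ => hf (Finset.subset_insert _ _))
    obtain ⟨y, hy⟩ := exists_add_of_le (Ex_mono (p := p) (J := J) (f := g)
      (g := fun ω => g (insert e ω)) fun ω _ => hg (Finset.subset_insert _ _))
    have h1 := ih hf' hg'
    rw [Ex_insert he, Ex_insert he, Ex_insert he]
    refine le_trans ?_ (add_le_add (mul_le_mul_right (ih hf hg) _) (mul_le_mul_right h1 _))
    rw [hx, hy]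
    exact ExB_cheb (tsub_add_cancel_of_le (hp e)) _ _ _ _

/-- `Ex_mem`, then antitonicity; zero if `e ∉ J` -/
theorem Ex_mem_anti (hp : ∀ e, p e ≤ 1) (J : Finset ι) (e : ι) (hf : Antitone f) :
    Ex p J (fun ω => ind (e ∈ ω) * f ω) ≤ p e * Ex p J f := by
  by_cases he : e ∈ J
  · rw [Ex_mem hp he]
    exact mul_le_mul_right (Ex_mono fun ω _ => hf (Finset.subset_insert _ _)) _
  · rw [Ex_congr (g := fun _ => 0) fun ω hω => by rw [ind_neg fun h => he (hω h), zero_mul],
      Ex_zero]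
    exact zero_le

theorem Ex_mem_mem_anti (hp : ∀ e, p e ≤ 1) (J : Finset ι) {e e' : ι} (he : e ≠ e')
    (hf : Antitone f) :
    Ex p J (fun ω => ind (e ∈ ω ∧ e' ∈ ω) * f ω) ≤ p e * p e' * Ex p J f := by
  simp only [ind_and, mul_assoc]
  by_cases hJ : e ∈ J
  · rw [Ex_mem hp hJ]
    refine mul_le_mul_right (le_trans (Ex_mono fun ω _ => ?_) (Ex_mem_anti hp J e' hf)) _
    exact mul_le_mul' (ind_mono fun h => (Finset.mem_insert.1 h).resolve_left he.symm)
      (hf (Finset.subset_insert _ _))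
  · rw [Ex_congr (g := fun _ => 0) fun ω hω => by rw [ind_neg fun h => hJ (hω h), zero_mul],
      Ex_zero]
    exact zero_le

theorem Ex_insert_le (hp : ∀ e, p e ≤ 1) {e : ι} (he : e ∈ J) (f : Finset ι → ℝ≥0∞) :
    p e * Ex p J (fun ω => f (insert e ω)) ≤ Ex p J f := by
  rw [← Ex_mem hp he]
  exact Ex_mono fun ω _ => ind_mul_le _ _

omit [DecidableEq ι] in
theorem ExB_half {t : Finset ι} (h : 2 * ∑ e ∈ t, p e ≤ 1) : 1 ≤ 2 * ∏ e ∈ t, (1 - p e) := by
  have h1 := mul_le_mul_right (one_le_prod_add_sum t p) 2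
  rw [mul_add, mul_one] at h1
  have h2 : (1 : ℝ≥0∞) + 1 ≤ 2 * ∏ e ∈ t, (1 - p e) + 1 := by
    rw [one_add_one_eq_two]
    exact h1.trans (add_le_add_right h _)
  exact (ENNReal.add_le_add_iff_right ENNReal.one_ne_top).1 h2

/-- removing the coordinates of `t` costs at most a factor `2` when `∑ p ≤ 1/2` on `t`
(`Ex_none` and `one_le_prod_add_sum`) -/
theorem Ex_sdiff_le (hp : ∀ e, p e ≤ 1) {t : Finset ι} (ht : t ⊆ J) (h : 2 * ∑ e ∈ t, p e ≤ 1)
    (f : Finset ι → ℝ≥0∞) : Ex p J (fun ω => f (ω \ t)) ≤ 2 * Ex p J f := by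
  calc Ex p J (fun ω => f (ω \ t)) ≤ (2 * ∏ e ∈ t, (1 - p e)) * Ex p J (fun ω => f (ω \ t)) :=
        le_mul_of_one_le_left' (ExB_half h)
    _ = 2 * Ex p J (fun ω => ind (Disjoint ω t) * f ω) := by rw [Ex_none hp ht, mul_assoc]
    _ ≤ _ := mul_le_mul_right (Ex_mono fun ω _ => ind_mul_le _ _) _

/-- the event that `e` is the only present coordinate of `t` (`Ex_cyl` with `s = {e}`) -/
theorem Ex_lonely (hp : ∀ e, p e ≤ 1) {t : Finset ι} (ht : t ⊆ J) {e : ι} (he : e ∈ t)
    (h : 2 * ∑ e ∈ t, p e ≤ 1) (f : Finset ι → ℝ≥0∞) :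
    p e * Ex p J (fun ω => f (ω \ t)) ≤ 2 * Ex p J (fun ω => ind (ω ∩ t = {e}) * f (ω \ t)) := by
  rw [Ex_cyl hp (Finset.singleton_subset_iff.2 he) ht (fun ω => f (ω \ t))]
  have e1 : ∀ ω : Finset ι, (ω \ t ∪ {e}) \ t = ω \ t := fun ω => by
    ext x
    simp only [Finset.mem_sdiff, Finset.mem_union, Finset.mem_singleton]
    constructor
    · rintro ⟨h1 | rfl, h2⟩
      · exact h1
      · exact absurd he h2
    · exact fun h => ⟨Or.inl h, h.2⟩
  have e2 : wt p t {e} = p e * ∏ x ∈ t.erase e, (1 - p x) := by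
    rw [wt, ← Finset.mul_prod_erase _ _ he, if_pos (Finset.mem_singleton_self e)]
    congr 1
    exact Finset.prod_congr rfl fun x hx =>
      if_neg fun h => Finset.ne_of_mem_erase hx (Finset.mem_singleton.1 h)
  have h3 : 1 ≤ 2 * ∏ x ∈ t.erase e, (1 - p x) := ExB_half (le_trans (mul_le_mul_right
    (Finset.sum_le_sum_of_subset (Finset.erase_subset _ _)) _) h)
  simp only [e1]
  rw [e2, ← mul_assoc, mul_left_comm]
  exact mul_le_mul_left (le_mul_of_one_le_right' h3) _

theorem ExB_mix {a b X Y A B C : ℝ≥0∞} (h : a + b = 1) (h1 : X + Y ≤ A + B) (h2 : Y ≤ C) :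
    a * X + b * Y ≤ a * (a * X + b * A) + b * (a * B + b * C) := by
  calc a * X + b * Y = (a + b) * (a * X + b * Y) := by rw [h, one_mul]
    _ = a * a * X + a * b * (X + Y) + b * b * Y := by ring
    _ ≤ a * a * X + a * b * (A + B) + b * b * C := by gcongr
    _ = _ := by ring

/-- BK inequality for a monotone relation. Induction on `J` with `W` general: on the branch
where the new coordinate `e` is absent use `W`, on the other branch use the relation
`W (insert e I) I' ∨ W I (insert e I')`; then pointwise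
`ind (W₁₀ ∨ W₀₁) + ind W₀₀ ≤ ind W₁₀ + ind W₀₁` and `ind (W₁₀ ∨ W₀₁) ≤ ind W₁₁`. -/
theorem bk_rel (hp : ∀ e, p e ≤ 1) (J : Finset ι) (W : Finset ι → Finset ι → Prop)
    (hW : ∀ I₁ I₂ I₁' I₂', I₁ ⊆ I₁' → I₂ ⊆ I₂' → W I₁ I₂ → W I₁' I₂') :
    Ex p J (fun ω => ind (∃ I I', I ⊆ ω ∧ I' ⊆ ω ∧ Disjoint I I' ∧ W I I')) ≤
      Ex p J (fun ω => Ex p J (fun ω' => ind (W ω ω'))) := by
  induction J using Finset.induction_on generalizing W with
  | empty =>
    rw [Ex_empty, Ex_empty, Ex_empty]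
    exact ind_mono fun ⟨I, I', h1, h2, _, h⟩ => hW _ _ _ _ h1 h2 h
  | insert e J he ih =>
    have h0 := ih W hW
    have h1 := ih (fun I I' => W (insert e I) I' ∨ W I (insert e I')) fun _ _ _ _ a b h =>
      h.imp (hW _ _ _ _ (Finset.insert_subset_insert _ a) b)
        (hW _ _ _ _ a (Finset.insert_subset_insert _ b))
    have h2 : Ex p J (fun ω => ind (∃ I I', I ⊆ insert e ω ∧ I' ⊆ insert e ω ∧ Disjoint I I' ∧
        W I I')) ≤ _ := le_trans (Ex_mono fun ω _ => ind_mono fun ⟨I, I', a, b, c, h⟩ =>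
      ⟨I.erase e, I'.erase e, Finset.subset_insert_iff.1 a, Finset.subset_insert_iff.1 b,
        c.mono (Finset.erase_subset _ _) (Finset.erase_subset _ _), by
          by_cases h' : e ∈ I
          · rw [Finset.erase_eq_of_notMem (Finset.disjoint_left.1 c h')]
            exact Or.inl (hW _ _ _ _ (Finset.insert_erase_subset _ _) subset_rfl h)
          · rw [Finset.erase_eq_of_notMem h']
            exact Or.inr (hW _ _ _ _ subset_rfl (Finset.insert_erase_subset _ _) h)⟩) h1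
    have h3 : Ex p J (fun ω => Ex p J fun ω' => ind (W ω ω')) +
        Ex p J (fun ω => Ex p J fun ω' => ind (W (insert e ω) ω' ∨ W ω (insert e ω'))) ≤
        Ex p J (fun ω => Ex p J fun ω' => ind (W ω (insert e ω'))) +
        Ex p J (fun ω => Ex p J fun ω' => ind (W (insert e ω) ω')) := by
      simp only [← Ex_add]
      refine Ex_mono fun ω _ => Ex_mono fun ω' _ => ?_
      by_cases h : W ω ω'
      · rw [ind_pos (hW _ _ _ _ subset_rfl (Finset.subset_insert e _) h),
          ind_pos (hW _ _ _ _ (Finset.subset_insert e _) subset_rfl h)]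
        exact add_le_add (ind_le_one _) (ind_le_one _)
      · rw [ind_neg h, zero_add, add_comm]
        exact ind_or_le _ _
    have h4 : Ex p J (fun ω => Ex p J fun ω' => ind (W (insert e ω) ω' ∨ W ω (insert e ω'))) ≤
        Ex p J (fun ω => Ex p J fun ω' => ind (W (insert e ω) (insert e ω'))) :=
      Ex_mono fun ω _ => Ex_mono fun ω' _ => ind_mono fun h =>
        h.elim (hW _ _ _ _ subset_rfl (Finset.subset_insert e _))
          (hW _ _ _ _ (Finset.subset_insert e _) subset_rfl)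
    simp only [Ex_insert he, Ex_add, Ex_mul_left]
    refine le_trans (add_le_add (mul_le_mul_right h0 _) (mul_le_mul_right h2 _)) ?_
    exact ExB_mix (tsub_add_cancel_of_le (hp e)) h3 h4

/-- BK inequality -/
theorem bk (hp : ∀ e, p e ≤ 1) (J : Finset ι) {X Y : Finset ι → Prop}
    (hX : ∀ I I', I ⊆ I' → X I → X I') (hY : ∀ I I', I ⊆ I' → Y I → Y I') :
    Ex p J (fun ω => ind (∃ I I', I ⊆ ω ∧ I' ⊆ ω ∧ Disjoint I I' ∧ X I ∧ Y I')) ≤
      Ex p J (fun ω => ind (X ω)) * Ex p J (fun ω => ind (Y ω)) := by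
  have h := bk_rel hp J (fun I I' => X I ∧ Y I') fun _ _ _ _ a b h => ⟨hX _ _ a h.1, hY _ _ b h.2⟩
  simpa only [ind_and (X _), Ex_mul_left, Ex_mul_right] using h

/-- sprinkling: the union of two independent random sets -/
theorem Ex_union_law {q δ : ι → ℝ≥0∞} (hq : ∀ e, q e ≤ 1) (hδ : ∀ e, δ e ≤ 1)
    (h : ∀ e, p e = q e + (1 - q e) * δ e) (J : Finset ι) (f : Finset ι → ℝ≥0∞) :
    Ex p J f = Ex q J (fun ω => Ex δ J (fun σ => f (ω ∪ σ))) := by
  induction J using Finset.induction_on generalizing f with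
  | empty => rw [Ex_empty, Ex_empty, Ex_empty, Finset.union_empty]
  | insert e J he ih =>
    have h1 := tsub_add_cancel_of_le (hq e)
    have h2 := tsub_add_cancel_of_le (hδ e)
    have h3 : (1 - q e) * (1 - δ e) + p e = 1 := by
      calc (1 - q e) * (1 - δ e) + p e = (1 - q e) * (1 - δ e + δ e) + q e := by
            rw [h e]
            ring
        _ = 1 := by rw [h2, mul_one, h1]
    have h4 : 1 - p e = (1 - q e) * (1 - δ e) :=
      ENNReal.sub_eq_of_eq_add (ne_top_of_le_ne_top ENNReal.one_ne_top (h3 ▸ le_add_self)) h3.symm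
    simp only [Ex_insert he, Ex_add, Ex_mul_left, Finset.union_insert, Finset.insert_union,
      Finset.insert_idem]
    rw [ih, ih fun ω => f (insert e ω), h4, h e, ← add_mul (1 - δ e), h2]
    ring

theorem Ex_mono_p {q : ι → ℝ≥0∞} (hqp : ∀ e, q e ≤ p e) (hp : ∀ e, p e ≤ 1) (J : Finset ι)
    (hf : Monotone f) : Ex q J f ≤ Ex p J f := by
  choose δ hδ h using fun e => exists_sprinkle (hqp e) (hp e)
  rw [Ex_union_law (fun e => (hqp e).trans (hp e)) hδ h]
  exact Ex_mono fun ω _ => const_le_Ex hδ fun σ _ => hf Finset.subset_union_left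

/-- Markov property of an exploration `S` revealing the coordinates `D (S ω)`. Sum over the
finitely many values `a` of `S` on the powerset of `J`: `ind (S ω = a)` depends on `D a` only;
use `Ex_indep`. -/
theorem Ex_markov (hp : ∀ e, p e ≤ 1) (J : Finset ι) {α : Type*} (S : Finset ι → α)
    (D : α → Set ι) (hS : ∀ ω ω', (∀ e ∈ D (S ω), (e ∈ ω ↔ e ∈ ω')) → S ω' = S ω)
    (g : α → Finset ι → ℝ≥0∞) (hg : ∀ a, Dep (D a)ᶜ (g a)) :
    Ex p J (fun ω => g (S ω) ω) = Ex p J (fun ω => Ex p J (g (S ω))) := by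
  classical
  have key : ∀ F : α → Finset ι → ℝ≥0∞, Ex p J (fun ω => F (S ω) ω) =
      ∑ a ∈ J.powerset.image S, Ex p J fun ω => ind (S ω = a) * F a ω := fun F => by
    rw [← Ex_sum]
    refine Ex_congr fun ω hω => ?_
    rw [Finset.sum_eq_single_of_mem (S ω)
      (Finset.mem_image_of_mem S (Finset.mem_powerset.2 hω)) fun a _ ha => by
        rw [ind_neg (Ne.symm ha), zero_mul], ind_pos rfl, one_mul]
  rw [key g, key fun a _ => Ex p J (g a)]
  refine Finset.sum_congr rfl fun a _ => ?_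
  rw [Ex_mul_right]
  refine Ex_indep hp (fun ω ω' h => ind_congr ⟨fun h' => ?_, fun h' => ?_⟩) (hg a)
  · exact (hS ω ω' (h' ▸ h)).trans h'
  · exact (hS ω' ω fun e he => (h e (h' ▸ he)).symm).trans h'

/-- Markov property with sprinkling. For fixed `σ` apply `Ex_markov` in `ω` to the exploration
`ω ↦ (S ω, fun σ => h ω σ)` with `D ∘ Prod.fst`; swap; for fixed `ω` use `Ex_indep` in `σ`;
finish with `Ex_union_law`. -/
theorem Ex_markov₂ {q δ : ι → ℝ≥0∞} (hq : ∀ e, q e ≤ 1) (hδ : ∀ e, δ e ≤ 1)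
    (hpq : ∀ e, p e = q e + (1 - q e) * δ e) (J : Finset ι) {α : Type*} (S : Finset ι → α)
    (D : α → Set ι) (hS : ∀ ω ω', (∀ e ∈ D (S ω), (e ∈ ω ↔ e ∈ ω')) → S ω' = S ω)
    (h : Finset ι → Finset ι → ℝ≥0∞)
    (hh : ∀ ω ω' σ σ', (∀ e ∈ D (S ω), (e ∈ ω ↔ e ∈ ω')) → (∀ e ∈ D (S ω), (e ∈ σ ↔ e ∈ σ')) →
      h ω σ = h ω' σ')
    (g : α → Finset ι → ℝ≥0∞) (hg : ∀ a, Dep (D a)ᶜ (g a)) :
    Ex q J (fun ω => Ex δ J (fun σ => h ω σ * g (S ω) (ω ∪ σ))) =
      Ex q J (fun ω => Ex δ J (fun σ => h ω σ) * Ex p J (g (S ω))) := by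
  have hu : ∀ a σ, Dep (D a)ᶜ fun ω => g a (ω ∪ σ) := fun a σ ω ω' h =>
    hg a _ _ fun e he => by rw [Finset.mem_union, Finset.mem_union, h e he]
  have h1 : ∀ σ, Ex q J (fun ω => h ω σ * g (S ω) (ω ∪ σ)) =
      Ex q J fun ω => h ω σ * Ex q J fun ω' => g (S ω) (ω' ∪ σ) := fun σ => by
    have := Ex_markov hq J (fun ω => (S ω, h ω σ)) (fun a => D a.1)
      (fun ω ω' h' => Prod.ext (hS ω ω' h') (hh ω ω' σ σ h' fun _ _ => Iff.rfl).symm)
      (fun a ω => a.2 * g a.1 (ω ∪ σ)) fun a ω ω' h' => congrArg _ (hu a.1 σ ω ω' h')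
    simpa only [Ex_mul_left] using this
  rw [Ex_comm]
  simp only [h1]
  rw [Ex_comm]
  refine Ex_congr fun ω _ => ?_
  rw [Ex_union_law hq hδ hpq, Ex_comm q J δ J]
  refine Ex_indep hδ (D := D (S ω)) (fun σ σ' h' => hh ω ω σ σ' (fun _ _ => Iff.rfl) h')
    fun σ σ' h' => Ex_congr fun ω' _ => hg _ _ _ fun e he => ?_
  rw [Finset.mem_union, Finset.mem_union, h' e he]

end Vale.Agent.P165
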