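import Mathlib
import Vale.Agent.P165.ExB
import Vale.Agent.P165.Geo
import Vale.Agent.P165.Conn

/-!
The two-point function `TT`.
-/

open scoped ENNReal

namespace Vale.Agent.P165

variable {V : Type*} [DecidableEq V] {G : SimpleGraph V} [G.LocallyFinite] {p : ℝ≥0∞}

theorem dep_conn (R : Finset V) (x v : V) :
    Dep (↑(EP G R) : Set (Sym2 V)) fun ω => ind (Conn G R ω x v) := fun _ _ h =>
  ind_congr ⟨Conn.congr fun _ ha _ _ hab => (h _ (Finset.mem_coe.2 (mk_mem_EP hab ha))).1,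
    Conn.congr fun _ ha _ _ hab => (h _ (Finset.mem_coe.2 (mk_mem_EP hab ha))).2⟩

theorem mono_conn (R : Finset V) (x v : V) :
    Monotone fun ω : Finset (Sym2 V) => ind (Conn G R ω x v) :=
  fun _ _ h => ind_mono (Conn.mono (Finset.Subset.refl _) h)

/-- `Ex_ext` with `Conn.congr` -/
theorem tc_eq (hp : p ≤ 1) {R W : Finset V} (h : R ⊆ W) (x v : V) :
    Ex (fun _ => p) (EP G W) (fun ω => ind (Conn G R ω x v)) = tc G p R x v :=
  Ex_ext (fun _ => hp) (dep_conn R x v) fun _ he =>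
    ⟨fun _ => Finset.mem_coe.1 he, fun h' => EP_mono h h'⟩

theorem tc_mono (hp : p ≤ 1) {R R' : Finset V} (h : R ⊆ R') : tc G p R ≤ tc G p R' :=
  fun x v => by
    rw [← tc_eq hp h]
    exact Ex_mono fun ω _ => ind_mono (Conn.mono h (Finset.Subset.refl _))

theorem tc_le_TT (p : ℝ≥0∞) (R : Finset V) : tc G p R ≤ TT G p :=
  fun x v => le_iSup (fun R : Finset V => tc G p R x v) R

theorem tc_le_one (hp : p ≤ 1) (R : Finset V) (x v : V) : tc G p R x v ≤ 1 :=
  Ex_le_const (fun _ => hp) fun _ _ => ind_le_one _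

theorem tc_eq_zero (p : ℝ≥0∞) {R : Finset V} {x v : V} (h : x ∉ R ∨ v ∉ R) :
    tc G p R x v = 0 := by
  rw [← Ex_zero (fun _ => p) (EP G R)]
  exact Ex_congr fun ω _ => ind_neg fun hc => h.elim (fun h => h hc.left) fun h => h hc.right

theorem tc_symm (p : ℝ≥0∞) (R : Finset V) (x v : V) : tc G p R x v = tc G p R v x :=
  Ex_congr fun _ _ => ind_congr ⟨Conn.symm, Conn.symm⟩

theorem tc_self (hp : p ≤ 1) {R : Finset V} {x : V} (h : x ∈ R) : tc G p R x x = 1 := by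
  rw [← Ex_const (p := fun _ => p) (fun _ => hp) (EP G R) 1]
  exact Ex_congr fun ω _ => ind_pos (Conn.refl ω h)

theorem tc_mono_p {q : ℝ≥0∞} (hq : q ≤ p) (hp : p ≤ 1) (R : Finset V) : tc G q R ≤ tc G p R :=
  fun x v => Ex_mono_p (fun _ => hq) (fun _ => hp) _ (mono_conn R x v)

/-- `Ex_image`, `EP_image`, `conn_image` -/
theorem tc_image (p : ℝ≥0∞) (φ : G ≃g G) (R : Finset V) (x v : V) :
    tc G p (R.image φ) (φ x) (φ v) = tc G p R x v := by
  unfold tc
  rw [EP_image, Ex_image (Sym2.map.injective φ.injective)]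
  exact Ex_congr fun ω _ => ind_congr (conn_image φ)

theorem TT_le_one (hp : p ≤ 1) (x v : V) : TT G p x v ≤ 1 :=
  iSup_le fun R => tc_le_one hp R x v

theorem TT_symm (p : ℝ≥0∞) (x v : V) : TT G p x v = TT G p v x :=
  iSup_congr fun R => tc_symm p R x v

theorem TT_self (hp : p ≤ 1) (x : V) : TT G p x x = 1 :=
  le_antisymm (TT_le_one hp x x)
    ((tc_self hp (Finset.mem_singleton_self x)).ge.trans (tc_le_TT p {x} x x))

theorem TT_le_map (p : ℝ≥0∞) (φ : G ≃g G) (x v : V) : TT G p x v ≤ TT G p (φ x) (φ v) :=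
  iSup_le fun R => (tc_image p φ R x v).ge.trans (tc_le_TT p _ _ _)

theorem TT_inv (p : ℝ≥0∞) : KInv G (TT G p) := fun φ x v =>
  le_antisymm (by simpa using TT_le_map p φ.symm (φ x) (φ v)) (TT_le_map p φ x v)

theorem TT_mono_p {q : ℝ≥0∞} (hq : q ≤ p) (hp : p ≤ 1) : TT G q ≤ TT G p :=
  fun x v => iSup_mono fun R => tc_mono_p hq hp R x v

/-- `harris` on a common region -/
theorem TT_mul_le (hp : p ≤ 1) (a b c : V) : TT G p a b * TT G p b c ≤ TT G p a c := by
  rw [TT, ENNReal.iSup_mul]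
  refine iSup_le fun R => ?_
  rw [TT, ENNReal.mul_iSup]
  refine iSup_le fun R' => ?_
  calc tc G p R a b * tc G p R' b c ≤ tc G p (R ∪ R') a b * tc G p (R ∪ R') b c :=
        mul_le_mul' (tc_mono hp Finset.subset_union_left a b)
          (tc_mono hp Finset.subset_union_right b c)
    _ ≤ _ := harris (fun _ => hp) _ (mono_conn _ a b) (mono_conn _ b c)
    _ ≤ tc G p (R ∪ R') a c := Ex_mono fun ω _ => by
        rw [← ind_and]
        exact ind_mono fun h => h.1.trans h.2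
    _ ≤ _ := tc_le_TT p _ a c

theorem le_TT_adj (hp : p ≤ 1) {a b : V} (h : G.Adj a b) : p ≤ TT G p a b := by
  have ha : a ∈ ({a, b} : Finset V) := by simp
  have hb : b ∈ ({a, b} : Finset V) := by simp
  refine le_trans ?_ (tc_le_TT p {a, b} a b)
  refine le_trans ?_ (Ex_insert_le (p := fun _ => p) (fun _ => hp) (mk_mem_EP h ha) _)
  refine le_mul_of_one_le_right' (const_le_Ex (fun _ => hp) fun ω _ => ?_)
  exact (ind_pos ((Conn.refl _ ha).tail ⟨h, Finset.mem_insert_self _ _⟩ hb)).ge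

theorem pow_le_TT (hp : p ≤ 1) {a b : V} {L : ℕ} (h : b ∈ ball G a L) :
    p ^ L ≤ TT G p a b := by
  induction L generalizing b with
  | zero => rw [Finset.mem_singleton.1 h, TT_self hp, pow_zero]
  | succ L ih =>
    rw [pow_succ]
    rcases mem_ball_succ_iff.1 h with h1 | ⟨w, h1, h2⟩
    · exact (mul_le_of_le_one_right' hp).trans (ih h1)
    · exact (mul_le_mul' (ih h1) (le_TT_adj hp h2)).trans (TT_mul_le hp a w b)

theorem percA_Ex_zero {ι : Type*} [DecidableEq ι] (J : Finset ι) (f : Finset ι → ℝ≥0∞) :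
    Ex (fun _ => 0) J f = f ∅ := by
  induction J using Finset.induction_on with
  | empty => exact Ex_empty _ _
  | insert e J he ih => rw [Ex_insert he, ih, tsub_zero, one_mul, zero_mul, add_zero]

theorem TT_zero_le : TT G 0 ≤ kid := fun x v => iSup_le fun R => by
  unfold tc
  rw [percA_Ex_zero]
  refine ind_mono fun h => ?_
  obtain ⟨-, hc⟩ := h
  induction hc with
  | refl => rfl
  | tail _ hb _ => exact absurd hb.2.2 (Finset.notMem_empty _)

theorem tsum_TT (hp : p ≤ 1) (x : V) (g : V → ℝ≥0∞) :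
    ∑' v, TT G p x v * g v = ⨆ R : Finset V, ∑' v, tc G p R x v * g v := by
  simp only [TT, ENNReal.iSup_mul]
  exact tsum_iSup_dir (fun (R : Finset V) v => tc G p R x v * g v) fun R R' =>
    ⟨R ∪ R', fun v => ⟨mul_le_mul_left (tc_mono hp Finset.subset_union_left x v) _,
      mul_le_mul_left (tc_mono hp Finset.subset_union_right x v) _⟩⟩

theorem nrm_TT_le (hp : p ≤ 1) : nrm (TT G p) ≤ ⨆ R : Finset V, nrm (tc G p R) :=
  nrm_iSup_le (fun R : Finset V => tc G p R) fun R R' =>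
    ⟨R ∪ R', tc_mono hp Finset.subset_union_left, tc_mono hp Finset.subset_union_right⟩

theorem tc_row_le (hp : p ≤ 1) (R : Finset V) (x : V) : ∑' v, tc G p R x v ≤ R.card := by
  rw [tsum_eq_sum (s := R) fun v hv => tc_eq_zero p (Or.inr hv), ← mul_one (R.card : ℝ≥0∞),
    ← nsmul_eq_mul]
  exact Finset.sum_le_card_nsmul _ _ _ fun v _ => tc_le_one hp R x v

theorem nrm_tc_ne_top (hp : p ≤ 1) (R : Finset V) : nrm (tc G p R) ≠ ⊤ :=
  ne_top_of_le_ne_top (ENNReal.natCast_ne_top R.card) (nrm_le_of_row_col (tc_row_le hp R)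
    fun y => (tsum_congr fun x => tc_symm p R x y).le.trans (tc_row_le hp R y))

theorem good_zero : Good G 0 := ⟨zero_le, fun x => by
  refine ne_top_of_le_ne_top ENNReal.one_ne_top
    ((ENNReal.tsum_le_tsum fun v => TT_zero_le x v).trans ?_)
  have h := tsum_ind_eq x fun _ => (1 : ℝ≥0∞)
  simp only [mul_one] at h
  exact h.le⟩

theorem Good.mono {q : ℝ≥0∞} (h : Good G p) (hq : q ≤ p) : Good G q :=
  ⟨hq.trans h.1, fun x =>
    ne_top_of_le_ne_top (h.2 x) (ENNReal.tsum_le_tsum fun v => TT_mono_p hq h.1 x v)⟩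

namespace Env

variable (E : Env G)

include E in
theorem good_bound (h : Good G p) : ∃ χ : ℝ≥0∞, χ ≠ ⊤ ∧ ∀ x, ∑' v, TT G p x v ≤ χ := by
  refine ⟨∑ a ∈ E.reps, ∑' v, TT G p a v, ENNReal.sum_ne_top.2 fun a _ => h.2 a, fun x => ?_⟩
  obtain ⟨a, ha, φ, rfl⟩ := E.cover x
  rw [(TT_inv p).row φ a]
  exact Finset.single_le_sum (f := fun a => ∑' v, TT G p a v) (fun _ _ => zero_le) ha

include E in
/-- finitely many representatives; `ENNReal.tendsto_tsum_compl_atTop_zero`, `exists_subset_ball` -/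
theorem tail_small (h : Good G p) {δ : ℝ≥0∞} (hδ : δ ≠ 0) :
    ∃ L, ∀ y, ∑' u, ind (u ∉ ball G y L) * TT G p y u ≤ δ := by
  have h1 : ∀ a, ∃ L, ∀ L', L ≤ L' → ∑' u, ind (u ∉ ball G a L') * TT G p a u ≤ δ := fun a => by
    have h2 := (ENNReal.tendsto_tsum_compl_atTop_zero (h.2 a)).eventually
      (ge_mem_nhds (pos_iff_ne_zero.2 hδ))
    obtain ⟨s, hs⟩ := h2.exists
    obtain ⟨L, hL⟩ := E.exists_subset_ball a s
    refine ⟨L, fun L' hL' => le_trans ?_ hs⟩
    rw [show (∑' b : { x // x ∉ s }, TT G p a b) = _ from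
      tsum_subtype {x | x ∉ s} (TT G p a)]
    refine ENNReal.tsum_le_tsum fun u => ?_
    by_cases hu : u ∈ ball G a L'
    · rw [ind_neg (not_not.2 hu), zero_mul]
      exact zero_le
    · rw [ind_pos hu, one_mul, Set.indicator_of_mem]
      exact fun hus => hu (ball_mono a hL' (hL hus))
  choose L hL using h1
  refine ⟨E.reps.sup L, fun y => ?_⟩
  obtain ⟨a, ha, φ, rfl⟩ := E.cover y
  have h3 : KInv G fun y u => ind (u ∉ ball G y (E.reps.sup L)) * TT G p y u := fun ψ y u =>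
    congrArg₂ (· * ·) (ind_congr (not_congr (mem_ball_map ψ))) (TT_inv p ψ y u)
  rw [h3.row φ a]
  exact hL a _ (Finset.le_sup ha)

theorem tilt_bound (h : Good G p) :
    ∃ χ : ℝ≥0∞, χ ≠ ⊤ ∧ ∀ a, ∑' b, TT G p a b * E.τ a b ^ (2 * E.n) ≤ χ := by
  obtain ⟨χ, hχ, h1⟩ := E.good_bound h
  exact ⟨E.reps.card * χ, ENNReal.mul_ne_top (ENNReal.natCast_ne_top _) hχ,
    E.row_le (TT_inv p) fun b => (tsum_congr fun x => TT_symm p x b).le.trans (h1 b)⟩

theorem w1_pow_le (a b : V) : E.w1 a b ^ 6 * E.τ a b ^ E.n ≤ 1 + E.τ a b ^ (2 * E.n) := by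
  have hn := E.n_ge
  rcases le_total (E.τ b a) (E.τ a b) with h | h
  · have h1 : E.w1 a b = E.τ a b := max_eq_left h
    refine le_add_left ?_
    rw [h1, ← pow_add]
    exact pow_le_pow_right₀ (h1 ▸ E.one_le_w1 a b) (by omega)
  · have h1 : E.w1 a b = E.τ b a := max_eq_right h
    have h2 : E.τ a b ≤ 1 := by
      rw [← E.τ_mul_symm a b]
      exact le_mul_of_one_le_right' (h1 ▸ E.one_le_w1 a b)
    refine le_add_right ?_
    obtain ⟨j, hj⟩ : ∃ j, E.n = 6 + j := ⟨E.n - 6, by omega⟩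
    rw [h1, hj, E.τ_pow_cancel]
    exact pow_le_one' h2 j

/-- `nrm_le_schur` with `w1 ^ 6 * τ ^ n ≤ 1 + τ ^ (2n)` -/
theorem nw_TT_ne_top (h : Good G p) : E.nw 6 (TT G p) ≠ ⊤ := by
  obtain ⟨χ, hχ, h1⟩ := E.good_bound h
  obtain ⟨χ', hχ', h2⟩ := E.tilt_bound h
  refine ne_top_of_le_ne_top (ENNReal.mul_ne_top (ENNReal.natCast_ne_top _)
    (ENNReal.add_ne_top.2 ⟨hχ, hχ'⟩))
    (E.nrm_le_schur ((TT_inv p).mul (E.w1_inv.pow 6)) fun a => ?_)
  refine le_trans (ENNReal.tsum_le_tsum fun y => ?_) (ENNReal.tsum_add.le.trans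
    (add_le_add (h1 a) (h2 a)))
  rw [mul_assoc]
  refine (mul_le_mul_right (E.w1_pow_le a y) _).trans ?_
  rw [mul_add, mul_one]

end Env

end Vale.Agent.P165
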