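import Mathlib
import Vale.Agent.P165.PercA

/-!
From finite expectations to the percolation measure. (See `Vale/Agent/P151/Bridge.lean` for a
real-valued model of the first lemmas.)
-/

open MeasureTheory ProbabilityTheory unitInterval
open scoped ENNReal

namespace Vale.Agent.P165

variable {V : Type*} [DecidableEq V] {G : SimpleGraph V} [G.LocallyFinite]

namespace BridgeAux

variable {ι : Type*}

/-- cylinder event -/
def cyl (F ξ : Finset ι) : Set (Set ι) := {ω | ∀ e ∈ F, (e ∈ ω ↔ e ∈ ξ)}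

theorem meas_cyl (F ξ : Finset ι) : MeasurableSet (cyl F ξ) := by
  have : cyl F ξ = ⋂ e ∈ F, {ω : Set ι | e ∈ ω ↔ e ∈ ξ} := by
    ext ω
    simp [cyl]
  rw [this]
  refine Finset.measurableSet_biInter F fun e _ => ?_
  by_cases h : e ∈ ξ
  · simp only [h, iff_true]
    exact measurableSet_mem e
  · simp only [h, iff_false]
    exact measurableSet_notMem e

open Classical in
theorem event_eq (F : Finset ι) (A : Finset ι → Prop) :
    {ω : Set ι | A (F.filter (· ∈ ω))} = ⋃ ξ ∈ F.powerset.filter A, cyl F ξ := by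
  ext ω
  simp only [Set.mem_ofPred_eq, Set.mem_iUnion, Finset.mem_filter, Finset.mem_powerset, cyl]
  constructor
  · intro h
    exact ⟨_, ⟨Finset.filter_subset _ _, h⟩, fun e he => by simp [he]⟩
  · rintro ⟨ξ, ⟨h1, h2⟩, h3⟩
    have : F.filter (· ∈ ω) = ξ := by
      ext e
      rw [Finset.mem_filter]
      exact ⟨fun h => (h3 e h.1).1 h.2, fun h => ⟨h1 h, (h3 e (h1 h)).2 h⟩⟩
    rw [this]
    exact h2

theorem measure_cyl [DecidableEq ι] (u : Set ι) (p : I) (F ξ : Finset ι)
    (hF : (↑F : Set ι) ⊆ u) :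
    setBernoulli u p (cyl F ξ) = wt (fun _ => ENNReal.ofReal p) F ξ := by
  have e1 : (fun q : ι → Prop => {i | q i}) ⁻¹' cyl F ξ =
      Set.pi (↑F) (fun e => {q : Prop | q ↔ e ∈ ξ}) := by
    ext q
    simp [cyl]
  have e2 : ((toNNReal p : NNReal) : ℝ≥0∞) = ENNReal.ofReal p := by
    rw [← ENNReal.ofReal_coe_nnreal]; rfl
  have e3 : ((toNNReal (σ p) : NNReal) : ℝ≥0∞) = 1 - ENNReal.ofReal p := by
    rw [← ENNReal.ofReal_coe_nnreal, ← ENNReal.ofReal_one, ← ENNReal.ofReal_sub _ p.2.1]; rfl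
  rw [setBernoulli_apply', e1, Measure.infinitePi_pi _ (fun _ _ => MeasurableSet.of_discrete), wt]
  refine Finset.prod_congr rfl fun e he => ?_
  have hu : e ∈ u := hF he
  by_cases h : e ∈ ξ
  · simp [h, hu, e2]
  · simp [h, hu, e3]

/-- connection in at most `n` steps -/
def st (x : V) : ℕ → V → Set (Set (Sym2 V))
  | 0 => fun y => {_ω | x = y}
  | n + 1 => fun y => ⋃ z, st x n z ∩ {ω | s(z, y) ∈ ω}

end BridgeAux

open BridgeAux

open Classical in
theorem meas_event {ι : Type*} (J : Finset ι) (A : Finset ι → Prop) :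
    MeasurableSet {ω : Set ι | A (J.filter (· ∈ ω))} := by
  rw [event_eq]
  exact Finset.measurableSet_biUnion _ fun ξ _ => meas_cyl J ξ

open Classical in
theorem perc_eq (p : I) (J : Finset (Sym2 V)) (hJ : (↑J : Set (Sym2 V)) ⊆ G.edgeSet)
    (A : Finset (Sym2 V) → Prop) :
    perc G p {ω | A (J.filter (· ∈ ω))} =
      Ex (fun _ => ENNReal.ofReal p) J (fun ω => ind (A ω)) := by
  rw [event_eq, perc, measure_biUnion_finset _ (fun ξ _ => meas_cyl J ξ), Ex,
    Finset.sum_filter]
  · refine Finset.sum_congr rfl fun ξ _ => ?_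
    rw [measure_cyl _ p J ξ hJ, ind]
    split_ifs <;> simp
  · intro ξ hξ ξ' hξ' hne
    refine Set.disjoint_left.2 fun ω h1 h2 => hne ?_
    have a1 := Finset.mem_powerset.1 (Finset.mem_filter.1 hξ).1
    have a2 := Finset.mem_powerset.1 (Finset.mem_filter.1 hξ').1
    ext e
    exact ⟨fun h => (h2 e (a1 h)).1 ((h1 e (a1 h)).2 h),
      fun h => (h1 e (a2 h)).1 ((h2 e (a2 h)).2 h)⟩

theorem meas_reach [Countable V] (x y : V) :
    MeasurableSet {ω : Set (Sym2 V) | (SimpleGraph.fromEdgeSet ω).Reachable x y} := by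
  have hm : ∀ n y, MeasurableSet (st x n y) := by
    intro n
    induction n with
    | zero => exact fun y => MeasurableSet.const _
    | succ n ih => exact fun y => MeasurableSet.iUnion fun z => (ih z).inter (measurableSet_mem _)
  have e1 : {ω : Set (Sym2 V) | (SimpleGraph.fromEdgeSet ω).Reachable x y} = ⋃ n, st x n y := by
    ext ω
    simp only [Set.mem_ofPred_eq, Set.mem_iUnion]
    constructor
    · intro h
      rw [SimpleGraph.reachable_iff_reflTransGen] at h
      induction h with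
      | refl => exact ⟨0, rfl⟩
      | tail _ h2 ih =>
        obtain ⟨n, hn⟩ := ih
        exact ⟨n + 1, Set.mem_iUnion.2 ⟨_, hn, ((SimpleGraph.fromEdgeSet_adj _).1 h2).1⟩⟩
    · rintro ⟨n, hn⟩
      induction n generalizing y with
      | zero => exact (show x = y from hn) ▸ SimpleGraph.Reachable.refl _
      | succ n ih =>
        obtain ⟨z, h1, h2⟩ := Set.mem_iUnion.1 hn
        by_cases hzy : z = y
        · exact hzy ▸ ih z h1
        · exact (ih z h1).trans (SimpleGraph.Adj.reachable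
            ((SimpleGraph.fromEdgeSet_adj _).2 ⟨h2, hzy⟩))
  rw [e1]
  exact MeasurableSet.iUnion fun n => hm n y

theorem meas_inf [Countable V] (x : V) :
    MeasurableSet {ω : Set (Sym2 V) | {y | (SimpleGraph.fromEdgeSet ω).Reachable x y}.Infinite} := by
  have e1 : {ω : Set (Sym2 V) | {y | (SimpleGraph.fromEdgeSet ω).Reachable x y}.Infinite} =
      ⋂ F : Finset V, ⋃ y, ⋃ (_ : y ∉ F),
        {ω : Set (Sym2 V) | (SimpleGraph.fromEdgeSet ω).Reachable x y} := by
    ext ω
    simp only [Set.mem_ofPred_eq, Set.mem_iInter, Set.mem_iUnion]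
    constructor
    · intro h F
      obtain ⟨y, hy, hy'⟩ := h.exists_notMem_finset F
      exact ⟨y, hy', hy⟩
    · intro h hfin
      obtain ⟨y, hy, hy'⟩ := h hfin.toFinset
      exact hy (hfin.mem_toFinset.2 hy')
  rw [e1]
  exact MeasurableSet.iInter fun F => MeasurableSet.iUnion fun y => MeasurableSet.iUnion fun _ =>
    meas_reach x y

namespace BridgeAux

omit [DecidableEq V] in
theorem supp_mk (H : SimpleGraph V) (x : V) :
    (H.connectedComponentMk x).supp = {y | H.Reachable x y} := by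
  ext y
  rw [SimpleGraph.ConnectedComponent.mem_supp_iff, SimpleGraph.ConnectedComponent.eq]
  exact ⟨fun h => h.symm, fun h => h.symm⟩

omit [DecidableEq V] in
theorem numInf_eq_one_iff (ω : Set (Sym2 V)) : numInf ω = 1 ↔
    (∃ x, {y | (SimpleGraph.fromEdgeSet ω).Reachable x y}.Infinite) ∧
      ∀ x y, {z | (SimpleGraph.fromEdgeSet ω).Reachable x z}.Infinite →
        {z | (SimpleGraph.fromEdgeSet ω).Reachable y z}.Infinite →
          (SimpleGraph.fromEdgeSet ω).Reachable x y := by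
  rw [numInf, Set.encard_eq_one]
  simp only [← supp_mk]
  constructor
  · rintro ⟨C, hC⟩
    have h1 : ∀ D : (SimpleGraph.fromEdgeSet ω).ConnectedComponent, D.supp.Infinite ↔ D = C :=
      fun D => Set.ext_iff.1 hC D
    refine ⟨?_, fun x y hx hy => ?_⟩
    · obtain ⟨x, hx⟩ := C.exists_rep
      exact ⟨x, (h1 _).2 hx⟩
    · exact SimpleGraph.ConnectedComponent.eq.1 (((h1 _).1 hx).trans ((h1 _).1 hy).symm)
  · rintro ⟨⟨x, hx⟩, h⟩
    refine ⟨_, Set.eq_singleton_iff_unique_mem.2 ⟨hx, fun D => ?_⟩⟩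
    induction D using SimpleGraph.ConnectedComponent.ind with
    | h y => exact fun hy => SimpleGraph.ConnectedComponent.eq.2 (h y x hy hx)

theorem rtg_mono {α : Type*} {r r' : α → α → Prop} {x y : α} (h : Relation.ReflTransGen r x y)
    (hr : ∀ a b, r a b → r' a b) : Relation.ReflTransGen r' x y := by
  induction h with
  | refl => exact Relation.ReflTransGen.refl
  | tail _ h2 ih => exact ih.tail (hr _ _ h2)

/-- connection by edges of `G` lying in `ω` -/
def Rch (G : SimpleGraph V) (ω : Set (Sym2 V)) (x y : V) : Prop :=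
  Relation.ReflTransGen (fun a b => G.Adj a b ∧ s(a, b) ∈ ω) x y

omit [DecidableEq V] [G.LocallyFinite] in
theorem Rch.reach {ω : Set (Sym2 V)} {x y : V} (h : Rch G ω x y) :
    (SimpleGraph.fromEdgeSet ω).Reachable x y := by
  rw [SimpleGraph.reachable_iff_reflTransGen]
  exact rtg_mono h fun a b hab => (SimpleGraph.fromEdgeSet_adj _).2 ⟨hab.2, hab.1.ne⟩

omit [DecidableEq V] [G.LocallyFinite] in
theorem rch_iff {ω : Set (Sym2 V)} (hω : ω ⊆ G.edgeSet) {x y : V} :
    Rch G ω x y ↔ (SimpleGraph.fromEdgeSet ω).Reachable x y := by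
  refine ⟨Rch.reach, fun h => ?_⟩
  rw [SimpleGraph.reachable_iff_reflTransGen] at h
  exact rtg_mono h fun a b hab =>
    ⟨hω ((SimpleGraph.fromEdgeSet_adj _).1 hab).1, ((SimpleGraph.fromEdgeSet_adj _).1 hab).1⟩

open Classical in
theorem out_iff {ω : Set (Sym2 V)} {R : Finset V} {x : V} (hx : x ∈ R) :
    Out G R ((EP G R).filter (· ∈ ω)) x ↔ ∃ z, z ∉ R ∧ Rch G ω x z := by
  constructor
  · rintro ⟨u, v, hc, hv, ho⟩
    refine ⟨v, hv, Relation.ReflTransGen.tail (rtg_mono hc.2 fun a b hab =>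
      ⟨hab.2.1, (Finset.mem_filter.1 hab.2.2).2⟩) ⟨ho.1, (Finset.mem_filter.1 ho.2).2⟩⟩
  · rintro ⟨z, hz, h⟩
    have key : Out G R ((EP G R).filter (· ∈ ω)) x ∨ Conn G R ((EP G R).filter (· ∈ ω)) x z := by
      clear hz
      induction h with
      | refl => exact Or.inr (Conn.refl _ hx)
      | @tail b c _ h2 ih =>
        rcases ih with ih | ih
        · exact Or.inl ih
        · have ho : Op G ((EP G R).filter (· ∈ ω)) b c :=
            ⟨h2.1, Finset.mem_filter.2 ⟨mk_mem_EP h2.1 ih.right, h2.2⟩⟩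
          by_cases hc : c ∈ R
          · exact Or.inr (ih.tail ho hc)
          · exact Or.inl ⟨b, c, ih, hc, ho⟩
    exact key.resolve_right fun hc => hz hc.right

theorem EP_sub (R : Finset V) : (↑(EP G R) : Set (Sym2 V)) ⊆ G.edgeSet :=
  fun _ he => (mem_EP.1 (Finset.mem_coe.1 he)).1

/-- the event of an infinite cluster -/
def InfE (G : SimpleGraph V) (x : V) : Set (Set (Sym2 V)) := {ω | {z | Rch G ω x z}.Infinite}

open Classical in
theorem infE_eq (E : Env G) (x : V) : InfE G x =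
    ⋂ L, {ω | Out G (ball G x L) ((EP G (ball G x L)).filter (· ∈ ω)) x} := by
  ext ω
  simp only [InfE, Set.mem_iInter, Set.mem_ofPred_eq, out_iff (self_mem_ball x _)]
  constructor
  · intro h L
    obtain ⟨y, hy, hy'⟩ := h.exists_notMem_finset (ball G x L)
    exact ⟨y, hy', hy⟩
  · intro h hfin
    obtain ⟨L, hL⟩ := E.exists_subset_ball x hfin.toFinset
    obtain ⟨y, hy, hy'⟩ := h L
    exact hy (hL (hfin.mem_toFinset.2 hy'))

theorem meas_infE (E : Env G) (x : V) : MeasurableSet (InfE G x) := by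
  rw [infE_eq E]
  exact MeasurableSet.iInter fun L => meas_event _ fun ω => Out G (ball G x L) ω x

theorem perc_infE (E : Env G) (p : I) (x : V) : perc G p (InfE G x) =
    ⨅ L, Ex (fun _ => ENNReal.ofReal p) (EP G (ball G x L))
      (fun ω => ind (Out G (ball G x L) ω x)) := by
  classical
  have : IsProbabilityMeasure (perc G p) := by
    unfold perc
    infer_instance
  rw [infE_eq E, Antitone.measure_iInter]
  · exact iInf_congr fun L => perc_eq p _ (EP_sub _) fun ω => Out G (ball G x L) ω x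
  · intro L L' hL ω hω
    simp only [Set.mem_ofPred_eq, out_iff (self_mem_ball x _)] at hω ⊢
    obtain ⟨z, hz, h⟩ := hω
    exact ⟨z, fun hz' => hz (ball_mono x hL hz'), h⟩
  · exact fun L => (meas_event _ fun ω => Out G (ball G x L) ω x).nullMeasurableSet
  · exact ⟨0, measure_ne_top _ _⟩

theorem perc_infE_map (E : Env G) (p : I) (φ : G ≃g G) (x : V) :
    perc G p (InfE G (φ x)) = perc G p (InfE G x) := by
  rw [perc_infE E, perc_infE E]
  refine iInf_congr fun L => ?_
  have hb : ball G (φ x) L = (ball G x L).image φ := by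
    ext z
    obtain ⟨w, rfl⟩ := φ.surjective z
    exact (mem_ball_map φ).trans φ.injective.mem_finset_image.symm
  rw [hb, EP_image, Ex_image (Sym2.map.injective φ.injective)]
  simp only [out_image]

theorem perc_rch_le (p : I) (y z : V) :
    perc G p {ω | Rch G ω y z} ≤ TT G (ENNReal.ofReal p) y z := by
  classical
  have hmono : Monotone fun L =>
      {ω : Set (Sym2 V) | Conn G (ball G y L) ((EP G (ball G y L)).filter (· ∈ ω)) y z} := by
    intro L L' hL ω hω
    exact Conn.mono (ball_mono y hL) (Finset.filter_subset_filter _ (EP_mono (ball_mono y hL))) hω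
  have hsub : {ω | Rch G ω y z} ⊆ ⋃ L,
      {ω : Set (Sym2 V) | Conn G (ball G y L) ((EP G (ball G y L)).filter (· ∈ ω)) y z} := by
    intro ω hω
    simp only [Set.mem_iUnion, Set.mem_ofPred_eq] at hω ⊢
    clear hmono
    induction hω with
    | refl => exact ⟨0, Conn.refl _ (self_mem_ball y 0)⟩
    | @tail b c _ h2 ih =>
      obtain ⟨L, hL⟩ := ih
      have hb := ball_mono (G := G) y (Nat.le_succ L)
      refine ⟨L + 1, (hL.mono hb (Finset.filter_subset_filter _ (EP_mono hb))).tail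
        ⟨h2.1, Finset.mem_filter.2 ⟨mk_mem_EP h2.1 (hb hL.right), h2.2⟩⟩
        (mem_ball_succ hL.right h2.1)⟩
  refine (measure_mono hsub).trans ?_
  rw [hmono.measure_iUnion]
  refine iSup_le fun L => ?_
  rw [perc_eq p _ (EP_sub _) fun ω => Conn G (ball G y L) ω y z]
  exact tc_le_TT _ _ y z

theorem two_mul_le_sq_add (a b : ℝ≥0∞) : 2 * (a * b) ≤ a ^ 2 + b ^ 2 := by
  rcases eq_or_ne a ⊤ with rfl | ha
  · simp
  rcases eq_or_ne b ⊤ with rfl | hb
  · simp
  lift a to NNReal using ha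
  lift b to NNReal using hb
  have h : 2 * ((a : ℝ) * b) ≤ (a : ℝ) ^ 2 + (b : ℝ) ^ 2 := by nlinarith [sq_nonneg ((a : ℝ) - b)]
  exact_mod_cast h

theorem sq_sum_le {Ω κ : Type*} [MeasurableSpace Ω] (μ : Measure Ω) [IsProbabilityMeasure μ]
    (B : Finset κ) (A : κ → Set Ω) (hA : ∀ y, MeasurableSet (A y)) :
    (∑ y ∈ B, μ (A y)) ^ 2 ≤ ∑ y ∈ B, ∑ z ∈ B, μ (A y ∩ A z) := by
  set m := ∑ y ∈ B, μ (A y) with hm
  have hmt : m ≠ ⊤ := ENNReal.sum_ne_top.2 fun y _ => measure_ne_top _ _
  set X : Ω → ℝ≥0∞ := fun ω => ∑ y ∈ B, (A y).indicator 1 ω with hX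
  have hXm : Measurable X :=
    Finset.measurable_sum _ fun y _ => measurable_one.indicator (hA y)
  have h1 : ∫⁻ ω, X ω ∂μ = m := by
    rw [hX, lintegral_finsetSum _ fun y _ => measurable_one.indicator (hA y)]
    exact Finset.sum_congr rfl fun y _ => lintegral_indicator_one (hA y)
  have h2 : ∫⁻ ω, X ω ^ 2 ∂μ = ∑ y ∈ B, ∑ z ∈ B, μ (A y ∩ A z) := by
    have h3 : ∀ ω, X ω ^ 2 = ∑ y ∈ B, ∑ z ∈ B, (A y ∩ A z).indicator 1 ω := by
      intro ω
      rw [hX, sq, Finset.sum_mul_sum]
      refine Finset.sum_congr rfl fun y _ => Finset.sum_congr rfl fun z _ => ?_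
      rw [Set.inter_indicator_one]
      rfl
    simp only [h3]
    rw [lintegral_finsetSum _ fun y _ => Finset.measurable_sum _ fun z _ =>
      measurable_one.indicator ((hA y).inter (hA z))]
    refine Finset.sum_congr rfl fun y _ => ?_
    rw [lintegral_finsetSum _ fun z _ => measurable_one.indicator ((hA y).inter (hA z))]
    exact Finset.sum_congr rfl fun z _ => lintegral_indicator_one ((hA y).inter (hA z))
  have h4 := lintegral_mono (μ := μ) fun ω => two_mul_le_sq_add (X ω) m
  rw [lintegral_const_mul _ (hXm.mul_const m), lintegral_mul_const _ hXm, h1,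
    lintegral_add_right _ measurable_const, h2, lintegral_const, measure_univ, mul_one, two_mul,
    ← sq] at h4
  exact (ENNReal.add_le_add_iff_right (ENNReal.pow_ne_top hmt)).1 h4

end BridgeAux

/-- `numInf ω = 1` iff some vertex has an infinite cluster and any two such vertices are joined -/
theorem meas_numInf_eq_one [Countable V] :
    MeasurableSet {ω : Set (Sym2 V) | numInf ω = 1} := by
  simp only [numInf_eq_one_iff, Set.ofPred_and, Set.ofPred_exists, Set.ofPred_forall]
  refine (MeasurableSet.iUnion fun x => meas_inf x).inter ?_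
  have e1 : ∀ x y : V, MeasurableSet {ω : Set (Sym2 V) |
      {z | (SimpleGraph.fromEdgeSet ω).Reachable x z}.Infinite →
        {z | (SimpleGraph.fromEdgeSet ω).Reachable y z}.Infinite →
          (SimpleGraph.fromEdgeSet ω).Reachable x y} := fun x y =>
    (meas_inf x).imp ((meas_inf y).imp (meas_reach x y))
  exact MeasurableSet.iInter fun x => MeasurableSet.iInter fun y => e1 x y

/-- the decreasing events `Out (ball x L)` have probability at least `c`; on their intersection
the cluster of `x` is infinite (every finite set lies in a ball) -/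
theorem Env.perc_pos (E : Env G) (p : I) {x : V} {c : ℝ≥0∞} (hc : c ≠ 0)
    (h : ∀ R : Finset V, x ∈ R →
      c ≤ Ex (fun _ => ENNReal.ofReal p) (EP G R) (fun ω => ind (Out G R ω x))) :
    0 < perc G p {ω | 1 ≤ numInf ω} := by
  have h1 : c ≤ perc G p (InfE G x) := by
    rw [perc_infE E]
    exact le_iInf fun L => h _ (self_mem_ball x L)
  refine (pos_iff_ne_zero.2 hc).trans_le (h1.trans (measure_mono fun ω hω => ?_))
  refine Set.one_le_encard_iff_nonempty.2 ⟨(SimpleGraph.fromEdgeSet ω).connectedComponentMk x, ?_⟩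
  change Set.Infinite _
  rw [supp_mk]
  exact Set.Infinite.mono (fun z hz => Rch.reach hz) hω

/-- Almost surely `ω ⊆ G.edgeSet`. `V` is countable (`exh`). Some `x` has `θ = P(x ↔ ∞) > 0`;
`θ` is the infimum over `L` of the probabilities of `Out (ball x L)`, hence the same on the orbit
of `x` (`Ex_image`, `out_image`, `mem_ball_map`), which is infinite (else all orbits are finite by
`near`). For a finite `B` in the orbit, by uniqueness and Cauchy–Schwarz,
`(|B| θ)² ≤ ∑_{y, z ∈ B} P(y ↔ ∞, z ↔ ∞) ≤ ∑_{y,z ∈ B} TT y z ≤ nrm TT * |B|` (`quad_le`), where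
`P(y ↔ z) ≤ TT y z` by continuity from below. -/
theorem Env.nrm_top_of_unique (E : Env G) [Infinite V] (p : I)
    (h : perc G p {ω | numInf ω = 1} = 1) : nrm (TT G (ENNReal.ofReal p)) = ⊤ := by
  classical
  have : IsProbabilityMeasure (perc G p) := by
    unfold perc
    infer_instance
  obtain ⟨x₀⟩ : Nonempty V := inferInstance
  have hcount : Countable V := by
    rw [← Set.countable_univ_iff]
    refine (Set.countable_iUnion fun L => (ball G x₀ L).countable_toSet).mono fun y _ => ?_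
    obtain ⟨L, hL⟩ := E.exh x₀ y
    exact Set.mem_iUnion.2 ⟨L, hL⟩
  have hae1 : ∀ᵐ ω ∂(perc G p), ω ⊆ G.edgeSet := setBernoulli_ae_subset
  have hae2 : ∀ᵐ ω ∂(perc G p), numInf ω = 1 := (mem_ae_iff_prob_eq_one meas_numInf_eq_one).2 h
  have hinf : ∀ ω, ω ⊆ G.edgeSet → ∀ x,
      (ω ∈ InfE G x ↔ {y | (SimpleGraph.fromEdgeSet ω).Reachable x y}.Infinite) := by
    intro ω hω x
    simp only [InfE, Set.mem_ofPred_eq, rch_iff hω]
  obtain ⟨x, hx⟩ : ∃ x, perc G p (InfE G x) ≠ 0 := by
    by_contra hc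
    push Not at hc
    have h0 : ∀ᵐ ω ∂(perc G p), ω ∉ ⋃ x, InfE G x :=
      measure_eq_zero_iff_ae_notMem.1 (measure_iUnion_null hc)
    obtain ⟨ω, h1, h2, h3⟩ := (hae1.and (hae2.and h0)).exists
    obtain ⟨x, hx⟩ := ((numInf_eq_one_iff ω).1 h2).1
    exact h3 (Set.mem_iUnion.2 ⟨x, (hinf ω h1 x).2 hx⟩)
  set θ := perc G p (InfE G x) with hθ
  have hO : (Set.range fun φ : G ≃g G => φ x).Infinite := by
    intro hfin
    refine Set.infinite_univ (α := V) ((hfin.biUnion fun o _ =>
      (ball G o E.D0).finite_toSet).subset fun y _ => ?_)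
    obtain ⟨φ, hφ⟩ := E.near y x
    exact Set.mem_biUnion ⟨φ, rfl⟩ (Finset.mem_coe.2 (mem_ball_symm hφ))
  have hpair : ∀ y z, perc G p (InfE G y ∩ InfE G z) ≤ TT G (ENNReal.ofReal p) y z := by
    intro y z
    refine le_trans (measure_mono_ae ?_) (perc_rch_le p y z)
    filter_upwards [hae1, hae2] with ω h1 h2 h3
    exact (rch_iff h1).2 (((numInf_eq_one_iff ω).1 h2).2 y z ((hinf ω h1 y).1 h3.1)
      ((hinf ω h1 z).1 h3.2))
  by_contra htop
  have hθ2 : θ ^ 2 ≠ 0 := pow_ne_zero _ hx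
  have hθ3 : θ ^ 2 ≠ ⊤ := ENNReal.pow_ne_top (measure_ne_top _ _)
  obtain ⟨n, hn⟩ := ENNReal.exists_nat_gt (ENNReal.div_ne_top htop hθ2)
  obtain ⟨B, hB, hcard⟩ := hO.exists_subset_card_eq n
  have hn0 : (n : ℝ≥0∞) ≠ 0 := (zero_le.trans_lt hn).ne'
  have h1 := sq_sum_le (perc G p) B (InfE G) (meas_infE E)
  have h2 : ∑ y ∈ B, perc G p (InfE G y) = n * θ := by
    rw [Finset.sum_congr rfl (g := fun _ => θ), Finset.sum_const, hcard, nsmul_eq_mul]
    intro y hy
    obtain ⟨φ, rfl⟩ := hB hy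
    exact perc_infE_map E p φ x
  have h3 := quad_le (TT G (ENNReal.ofReal p)) fun y => ind (y ∈ B)
  have h4 : ∑' y, ind (y ∈ B) ^ 2 = n := by
    rw [tsum_eq_sum (s := B) fun y hy => by rw [ind_neg hy, zero_pow two_ne_zero],
      Finset.sum_congr rfl (g := fun _ => 1) fun y hy => by rw [ind_pos hy, one_pow],
      Finset.sum_const, hcard, nsmul_eq_mul, mul_one]
  have h5 : ∑ y ∈ B, ∑ z ∈ B, perc G p (InfE G y ∩ InfE G z) ≤
      ∑' y, ∑' z, ind (y ∈ B) * TT G (ENNReal.ofReal p) y z * ind (z ∈ B) := by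
    refine le_trans (Finset.sum_le_sum fun y hy => ?_) (ENNReal.sum_le_tsum B)
    refine le_trans (Finset.sum_le_sum fun z hz => ?_) (ENNReal.sum_le_tsum B)
    rw [ind_pos hy, ind_pos hz, one_mul, mul_one]
    exact hpair y z
  rw [h2] at h1
  rw [h4] at h3
  have h6 : n * θ ^ 2 * n ≤ nrm (TT G (ENNReal.ofReal p)) * n :=
    le_trans (le_of_eq (by ring)) (h1.trans (h5.trans h3))
  rw [ENNReal.mul_le_mul_iff_left hn0 (ENNReal.natCast_ne_top n)] at h6
  rw [ENNReal.div_lt_iff (Or.inl hθ2) (Or.inl hθ3)] at hn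
  exact hn.not_ge h6

end Vale.Agent.P165
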