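import Mathlib
import Vale.Agent.P165.Conn

/-!
Deterministic facts on `InE`, `Inn`, `Side`, `Tube`, `Eta`.
-/

namespace Vale.Agent.P165

variable {V : Type*} [DecidableEq V] {G : SimpleGraph V} [G.LocallyFinite]

theorem InE_reverse_of {σ : List V} {e : Sym2 V} (h : InE σ e) : InE σ.reverse e := by
  obtain ⟨a, b, ⟨s, t, rfl⟩, rfl⟩ := h
  exact ⟨b, a, ⟨t.reverse, s.reverse, by simp⟩, Sym2.eq_swap⟩

theorem InE_reverse {σ : List V} {e : Sym2 V} : InE σ.reverse e ↔ InE σ e :=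
  ⟨fun h => by simpa using InE_reverse_of h, InE_reverse_of⟩

theorem Inn_reverse_of {σ : List V} {v : V} (h : Inn σ v) : Inn σ.reverse v := by
  obtain ⟨l₁, l₂, h1, h2, rfl⟩ := h
  exact ⟨l₂.reverse, l₁.reverse, by simpa using h2, by simpa using h1, by simp⟩

theorem Inn_reverse {σ : List V} {v : V} : Inn σ.reverse v ↔ Inn σ v :=
  ⟨fun h => by simpa using Inn_reverse_of h, Inn_reverse_of⟩

theorem Inn.mem_tail {σ : List V} {v : V} (h : Inn σ v) : v ∈ σ.tail := by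
  obtain ⟨l₁, l₂, h1, _, rfl⟩ := h
  rw [List.tail_append_of_ne_nil h1]
  simp

theorem Inn.mem_dropLast {σ : List V} {v : V} (h : Inn σ v) : v ∈ σ.dropLast := by
  obtain ⟨l₁, l₂, _, h2, rfl⟩ := h
  rw [List.dropLast_append_of_ne_nil (List.cons_ne_nil _ _), List.dropLast_cons_of_ne_nil h2]
  simp

theorem InE.mem {σ : List V} {e : Sym2 V} (h : InE σ e) {v : V} (hv : v ∈ e) : v ∈ σ := by
  obtain ⟨a, b, ⟨s, t, rfl⟩, rfl⟩ := h
  rcases Sym2.mem_iff.1 hv with rfl | rfl <;> simp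

theorem InE.exists_tail {σ : List V} {e : Sym2 V} (h : InE σ e) : ∃ v ∈ σ.tail, v ∈ e := by
  obtain ⟨a, b, ⟨s, t, rfl⟩, rfl⟩ := h
  refine ⟨b, ?_, Sym2.mem_mk_right a b⟩
  cases s <;> simp

theorem InE.exists_dropLast {σ : List V} {e : Sym2 V} (h : InE σ e) :
    ∃ v ∈ σ.dropLast, v ∈ e := by
  obtain ⟨a, b, ⟨s, t, rfl⟩, rfl⟩ := h
  refine ⟨a, ?_, Sym2.mem_mk_left a b⟩
  rw [List.append_assoc, List.dropLast_append_of_ne_nil (by simp)]
  simp

theorem side_reverse {ω : Finset (Sym2 V)} {σ : List V} :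
    Side G ω σ.reverse ↔ Side G ω σ := by
  simp only [Side, Inn_reverse, InE_reverse]

theorem chain_reverse {ω : Finset (Sym2 V)} {σ : List V} :
    σ.reverse.IsChain (Op G ω) ↔ σ.IsChain (Op G ω) := by
  rw [List.isChain_reverse]
  exact ⟨fun h => h.imp fun _ _ => Op.symm, fun h => h.imp fun _ _ => Op.symm⟩

theorem tube_reverse {ω : Finset (Sym2 V)} {σ : List V} :
    Tube G ω σ.reverse ↔ Tube G ω σ := by
  simp only [Tube, side_reverse, chain_reverse]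

theorem Side.mono {ω ω' : Finset (Sym2 V)} (hω : ω ⊆ ω') {σ : List V} (h : Side G ω σ) :
    Side G ω' σ := by
  obtain ⟨v, w, h1, h2, h3⟩ := h
  exact ⟨v, w, h1, h2.mono hω, h3⟩

theorem InE.map {W : Type*} (f : V → W) {σ : List V} {e : Sym2 V} (h : InE σ e) :
    InE (σ.map f) (e.map f) := by
  obtain ⟨a, b, ⟨s, t, rfl⟩, rfl⟩ := h
  exact ⟨f a, f b, ⟨s.map f, t.map f, by simp⟩, rfl⟩

theorem Inn.map {W : Type*} (f : V → W) {σ : List V} {v : V} (h : Inn σ v) :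
    Inn (σ.map f) (f v) := by
  obtain ⟨l₁, l₂, h1, h2, rfl⟩ := h
  exact ⟨l₁.map f, l₂.map f, by simpa using h1, by simpa using h2, by simp⟩

theorem map_symm_map (φ : G ≃g G) (σ : List V) : (σ.map φ).map φ.symm = σ := by
  rw [List.map_map]
  simp

theorem InE_map (φ : G ≃g G) {σ : List V} {e : Sym2 V} :
    InE (σ.map φ) (e.map φ) ↔ InE σ e := by
  refine ⟨fun h => ?_, InE.map φ⟩
  have h1 := h.map φ.symm
  rw [map_symm_map, Sym2.map_map] at h1
  simpa using h1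

theorem Inn_map (φ : G ≃g G) {σ : List V} {v : V} : Inn (σ.map φ) (φ v) ↔ Inn σ v := by
  refine ⟨fun h => ?_, Inn.map φ⟩
  have h1 := h.map φ.symm
  rwa [map_symm_map, φ.symm_apply_apply] at h1

theorem side_image (φ : G ≃g G) {ω : Finset (Sym2 V)} {σ : List V} :
    Side G (ω.image (Sym2.map φ)) (σ.map φ) ↔ Side G ω σ := by
  constructor
  · rintro ⟨v, w, h1, h2, h3⟩
    obtain ⟨v, rfl⟩ := φ.surjective v
    obtain ⟨w, rfl⟩ := φ.surjective w
    exact ⟨v, w, (Inn_map φ).1 h1, (Op_image φ).1 h2, fun h => h3 (h.map φ)⟩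
  · rintro ⟨v, w, h1, h2, h3⟩
    exact ⟨φ v, φ w, h1.map φ, (Op_image φ).2 h2, fun h => h3 ((InE_map φ (e := s(v, w))).1 h)⟩

theorem tube_image (φ : G ≃g G) {ω : Finset (Sym2 V)} {σ : List V} :
    Tube G (ω.image (Sym2.map φ)) (σ.map φ) ↔ Tube G ω σ := by
  simp only [Tube, side_image, List.isChain_map, Op_image]

theorem mem_Eta {η : List V} {e : Sym2 V} :
    e ∈ Eta G η ↔ e ∈ G.edgeSet ∧ (InE η e ∨ ∃ v, Inn η v ∧ v ∈ e) := by
  simp only [Eta, Finset.mem_filter, mem_EP, List.mem_toFinset]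
  constructor
  · rintro ⟨⟨h1, _⟩, h2⟩
    exact ⟨h1, h2⟩
  · rintro ⟨h1, h2⟩
    refine ⟨⟨h1, ?_⟩, h2⟩
    rcases h2 with h2 | ⟨v, hv, hve⟩
    · obtain ⟨v, hv, hve⟩ := h2.exists_tail
      exact ⟨v, List.mem_of_mem_tail hv, hve⟩
    · exact ⟨v, List.mem_of_mem_tail hv.mem_tail, hve⟩

theorem exists_tail_of_mem_Eta {η : List V} {e : Sym2 V} (h : e ∈ Eta G η) :
    ∃ v ∈ η.tail, v ∈ e := by
  rcases (mem_Eta.1 h).2 with h2 | ⟨v, hv, hve⟩
  · exact h2.exists_tail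
  · exact ⟨v, hv.mem_tail, hve⟩

theorem exists_dropLast_of_mem_Eta {η : List V} {e : Sym2 V} (h : e ∈ Eta G η) :
    ∃ v ∈ η.dropLast, v ∈ e := by
  rcases (mem_Eta.1 h).2 with h2 | ⟨v, hv, hve⟩
  · exact h2.exists_dropLast
  · exact ⟨v, hv.mem_dropLast, hve⟩

theorem Eta_subset_EP {η : List V} {R : Finset V} (h : ∀ v ∈ η, v ∈ R) :
    Eta G η ⊆ EP G R := fun _ he => by
  obtain ⟨v, hv, hve⟩ := exists_tail_of_mem_Eta he
  exact mem_EP.2 ⟨(mem_Eta.1 he).1, v, h v (List.mem_of_mem_tail hv), hve⟩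

theorem Eta_reverse (η : List V) : Eta G η.reverse = Eta G η := by
  ext e
  simp only [mem_Eta, InE_reverse, Inn_reverse]

theorem Eta_image (φ : G ≃g G) (η : List V) :
    Eta G (η.map φ) = (Eta G η).image (Sym2.map φ) := by
  have key : ∀ e : Sym2 V, e.map φ ∈ Eta G (η.map φ) ↔ e ∈ Eta G η := fun e => by
    rw [mem_Eta, mem_Eta, InE_map, φ.map_mem_edgeSet_iff]
    refine and_congr_right fun _ => or_congr_right ⟨?_, ?_⟩
    · rintro ⟨v, hv, hve⟩
      obtain ⟨u, hu, rfl⟩ := Sym2.mem_map.1 hve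
      exact ⟨u, (Inn_map φ).1 hv, hu⟩
    · rintro ⟨v, hv, hve⟩
      exact ⟨φ v, hv.map φ, Sym2.mem_map.2 ⟨v, hve, rfl⟩⟩
  ext e
  rw [Finset.mem_image]
  constructor
  · intro he
    have h1 : (e.map φ.symm).map φ = e := by
      rw [Sym2.map_map]
      simp
    exact ⟨e.map φ.symm, (key _).1 (by rwa [h1]), h1⟩
  · rintro ⟨e', he', rfl⟩
    exact (key _).2 he'

theorem card_Eta_le {D : ℕ} (hD : ∀ x, G.degree x ≤ D) (η : List V) :
    (Eta G η).card ≤ D * η.length :=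
  (Finset.card_le_card (Eta_subset_EP fun _ hv => List.mem_toFinset.2 hv)).trans
    ((card_EP_le hD _).trans (Nat.mul_le_mul_left _ (List.toFinset_card_le η)))

theorem isChain_iff_pair {r : V → V → Prop} {η : List V} :
    η.IsChain r ↔ ∀ a b, [a, b] <:+: η → r a b := by
  rw [List.isChain_iff_forall_rel_of_append_cons_cons]
  constructor
  · rintro h a b ⟨s, t, rfl⟩
    exact h (l₁ := s) (l₂ := t) (by simp)
  · intro h a b s t e
    exact h a b ⟨s, t, by rw [e]; simp⟩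

theorem tube_congr_of {ω ω' : Finset (Sym2 V)} {η : List V}
    (h : ∀ e ∈ Eta G η, (e ∈ ω ↔ e ∈ ω')) (ht : Tube G ω η) : Tube G ω' η := by
  refine ⟨isChain_iff_pair.2 fun a b hab => ?_, ?_⟩
  · have h1 := isChain_iff_pair.1 ht.1 a b hab
    exact ⟨h1.1, (h _ (mem_Eta.2 ⟨h1.1, Or.inl ⟨a, b, hab, rfl⟩⟩)).1 h1.2⟩
  · rintro ⟨v, w, h1, h2, h3⟩
    exact ht.2 ⟨v, w, h1, ⟨h2.1, (h _ (mem_Eta.2 ⟨h2.1, Or.inr ⟨v, h1, Sym2.mem_mk_left v w⟩⟩)).2
      h2.2⟩, h3⟩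

/-- `Tube` depends on `Eta` only -/
theorem tube_congr {ω ω' : Finset (Sym2 V)} {η : List V}
    (h : ∀ e ∈ Eta G η, (e ∈ ω ↔ e ∈ ω')) : Tube G ω η ↔ Tube G ω' η :=
  ⟨tube_congr_of h, tube_congr_of fun e he => (h e he).symm⟩

/-- the configuration consisting of the edges of `η` makes it a tube -/
theorem exists_tube {η : List V} (hc : η.IsChain G.Adj) : ∃ ω, ω ⊆ Eta G η ∧ Tube G ω η := by
  classical
  refine ⟨(Eta G η).filter (InE η), Finset.filter_subset _ _,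
    isChain_iff_pair.2 fun a b hab => ?_, ?_⟩
  · have h1 := isChain_iff_pair.1 hc a b hab
    have h2 : InE η s(a, b) := ⟨a, b, hab, rfl⟩
    exact ⟨h1, Finset.mem_filter.2 ⟨mem_Eta.2 ⟨h1, Or.inl h2⟩, h2⟩⟩
  · rintro ⟨v, w, _, h2, h3⟩
    exact h3 (Finset.mem_filter.1 h2.2).2

/-- the edges of `Eta` present in a tube configuration are the edges of `η` -/
theorem Tube.inE {ω : Finset (Sym2 V)} {η : List V} (h : Tube G ω η) {a b : V}
    (hab : Op G ω a b) (he : s(a, b) ∈ Eta G η) : InE η s(a, b) := by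
  by_contra hn
  rcases (mem_Eta.1 he).2 with h2 | ⟨v, hv, hve⟩
  · exact hn h2
  · rcases Sym2.mem_iff.1 hve with rfl | rfl
    · exact h.2 ⟨v, b, hv, hab, hn⟩
    · exact h.2 ⟨v, a, hv, hab.symm, by rwa [Sym2.eq_swap]⟩

/-- an edge of a repetition-free list with an end off the tail is the first edge -/
theorem InE.first {u b : V} {l : List V} {v w : V} (h : InE (u :: b :: l) s(v, w))
    (hv : v ∉ b :: l) : v = u ∧ w = b := by
  obtain ⟨c, d, ⟨s, t, e⟩, he⟩ := h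
  cases s with
  | nil =>
    simp only [List.nil_append, List.cons_append, List.cons.injEq] at e
    obtain ⟨rfl, rfl, -⟩ := e
    rcases Sym2.eq_iff.1 he with h | h
    · exact h
    · exact absurd (h.1 ▸ List.mem_cons_self) hv
  | cons s₀ s =>
    simp only [List.cons_append, List.cons.injEq] at e
    refine absurd ?_ hv
    rw [← e.2]
    rcases Sym2.eq_iff.1 he with h | h <;> simp [h.1]

end Vale.Agent.P165
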