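import Mathlib
import Vale.Agent.P165.ConnL

/-!
The explored set `K0`: monotonicity, symmetry, locality.
-/

namespace Vale.Agent.P165

variable {V : Type*} [DecidableEq V] {G : SimpleGraph V} [G.LocallyFinite]
variable {R : Finset V} {x u : V} {ω : Finset (Sym2 V)} {m : Finset (List V)}

theorem mem_K0 : u ∈ K0 G R x ω m ↔ ∃ γ, FPath G R ω m x u γ := by
  classical
  unfold K0
  rw [Finset.mem_filter]
  exact ⟨fun h => h.2, fun ⟨γ, h⟩ => ⟨h.2.2.1 u (List.mem_of_getLast? h.2.2.2.2.1), γ, h⟩⟩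

theorem K0_subset : K0 G R x ω m ⊆ R := by
  classical
  unfold K0
  exact Finset.filter_subset _ _

theorem mem_Kp {v : V} :
    v ∈ Kp G R x ω m ↔ v ∈ R ∧ (v ∈ K0 G R x ω m ∨ ∃ a ∈ K0 G R x ω m, Op G ω a v) := by
  classical
  unfold Kp
  rw [Finset.mem_filter]

theorem K0_subset_Kp : K0 G R x ω m ⊆ Kp G R x ω m :=
  fun _ h => mem_Kp.2 ⟨K0_subset h, Or.inl h⟩

theorem Kp_subset : Kp G R x ω m ⊆ R := fun _ h => (mem_Kp.1 h).1

theorem mem_Exits {c : Finset (List V)} {f : V} :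
    f ∈ Exits G R x ω m c ↔ ∃ η, IsExit G R x ω m c η ∧ η.getLast? = some f := by
  classical
  unfold Exits
  rw [Finset.mem_filter]
  exact ⟨fun h => h.2, fun ⟨η, h, h'⟩ => ⟨h.2.2.2.2.1 f (List.mem_of_getLast? h'), η, h, h'⟩⟩

theorem Exits_subset {c : Finset (List V)} : Exits G R x ω m c ⊆ R := by
  classical
  unfold Exits
  exact Finset.filter_subset _ _

omit [DecidableEq V] [G.LocallyFinite] in
theorem Free.sub {γ σ : List V} (h : Free G ω m γ) (hσ : σ <:+: γ) : Free G ω m σ :=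
  fun τ h1 => h τ (h1.trans hσ)

omit [DecidableEq V] in
theorem Inn.supA {γ σ : List V} {v : V} (h : Inn σ v) (hσ : σ <:+: γ) : Inn γ v := by
  obtain ⟨l₁, l₂, h1, h2, rfl⟩ := h
  obtain ⟨s, t, rfl⟩ := hσ
  exact ⟨s ++ l₁, l₂ ++ t, by simp [h1], by simp [h2], by simp⟩

omit [DecidableEq V] in
theorem InE.supA {γ σ : List V} {e : Sym2 V} (h : InE σ e) (hσ : σ <:+: γ) : InE γ e := by
  obtain ⟨a, b, h1, h2⟩ := h
  exact ⟨a, b, h1.trans hσ, h2⟩

omit [DecidableEq V] in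
theorem Inn.memA {σ : List V} {v : V} (h : Inn σ v) : v ∈ σ := by
  obtain ⟨l₁, l₂, -, -, rfl⟩ := h
  simp

omit [DecidableEq V] in
theorem chain_pairsA {r : V → V → Prop} {γ : List V} :
    γ.IsChain r ↔ ∀ a b, [a, b] <:+: γ → r a b := by
  rw [List.isChain_iff_forall_rel_of_append_cons_cons]
  refine ⟨fun h a b ⟨s, t, e⟩ => h (l₁ := s) (l₂ := t) (by simp [← e]),
    fun h a b s t e => h a b ⟨s, t, by simp [e]⟩⟩

omit [DecidableEq V] in
theorem pair_dropLastA {γ : List V} {a b : V} (h : [a, b] <:+: γ) : a ∈ γ.dropLast := by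
  obtain ⟨s, t, rfl⟩ := h
  rw [List.append_assoc, List.dropLast_append_of_ne_nil (by simp)]
  simp

omit [DecidableEq V] in
theorem pair_tailA {γ : List V} {a b : V} (h : [a, b] <:+: γ) : b ∈ γ.tail := by
  obtain ⟨s, t, rfl⟩ := h
  cases s <;> simp

omit [DecidableEq V] [G.LocallyFinite] in
/-- a piece of a free path is a free path -/
theorem FPath.piece {γ σ : List V} (h : FPath G R ω m x u γ) (hσ : σ <:+: γ) {a b : V}
    (ha : σ.head? = some a) (hb : σ.getLast? = some b) : FPath G R ω m a b σ :=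
  ⟨h.1.sublist hσ.sublist, chain_pairsA.2 fun a b e => chain_pairsA.1 h.2.1 a b (e.trans hσ),
    fun v hv => h.2.2.1 v (hσ.subset hv), ha, hb, h.2.2.2.2.2.sub hσ⟩

omit [DecidableEq V] [G.LocallyFinite] in
theorem FPath.pre {l₁ l₂ : List V} {v : V} (h : FPath G R ω m x u (l₁ ++ v :: l₂)) :
    FPath G R ω m x v (l₁ ++ [v]) :=
  h.piece ⟨[], l₂, by simp⟩ (by
    have := h.2.2.2.1
    cases l₁ <;> simpa using this) (by simp)

omit [DecidableEq V] [G.LocallyFinite] in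
theorem FPath.suf {l₁ l₂ : List V} {v : V} (h : FPath G R ω m x u (l₁ ++ v :: l₂)) :
    FPath G R ω m v u (v :: l₂) :=
  h.piece ⟨l₁, [], by simp⟩ rfl (by
    have := h.2.2.2.2.1
    rwa [List.getLast?_append_of_ne_nil _ (by simp)] at this)

omit [DecidableEq V] [G.LocallyFinite] in
/-- changing the configuration along a free path -/
theorem FPath.move {γ : List V} {R' : Finset V} {ω' : Finset (Sym2 V)} {m' : Finset (List V)}
    (h : FPath G R ω m x u γ) (hR : ∀ v ∈ γ, v ∈ R')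
    (hc : ∀ a b, [a, b] <:+: γ → Op G ω a b → Op G ω' a b)
    (hs : ∀ σ, σ <:+: γ → ∀ v w, Inn σ v → Op G ω v w → ¬ InE σ s(v, w) → Op G ω' v w)
    (hm : ∀ σ, σ <:+: γ → 2 ≤ σ.length → σ ∈ m' ∨ σ.reverse ∈ m' → σ ∈ m ∨ σ.reverse ∈ m) :
    FPath G R' ω' m' x u γ := by
  refine ⟨h.1, chain_pairsA.2 fun a b e => hc a b e (chain_pairsA.1 h.2.1 a b e), hR,
    h.2.2.2.1, h.2.2.2.2.1, fun σ h1 h2 h3 => ?_⟩
  obtain ⟨v, w, e1, e2, e3⟩ := h.2.2.2.2.2 σ h1 h2 (hm σ h1 h2 h3)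
  exact ⟨v, w, e1, hs σ h1 v w e1 e2 e3, e3⟩

theorem FPath.move' {γ : List V} {R' : Finset V} {ω' : Finset (Sym2 V)} {m' : Finset (List V)}
    (h : FPath G R ω m x u γ) (hR : ∀ v ∈ γ, v ∈ R')
    (hc : ∀ a ∈ γ.dropLast, ∀ b, Op G ω a b → Op G ω' a b)
    (hm : ∀ σ, σ <:+: γ → 2 ≤ σ.length → σ ∈ m' ∨ σ.reverse ∈ m' → σ ∈ m ∨ σ.reverse ∈ m) :
    FPath G R' ω' m' x u γ :=
  h.move hR (fun a b e => hc a (pair_dropLastA e) b)
    (fun _ e v w e1 e2 _ => hc v (e1.supA e).mem_dropLast w e2) hm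

/-- every vertex of a free path is explored (initial piece of the path) -/
theorem FPath.mem_K0 {γ : List V} (h : FPath G R ω m x u γ) {v : V} (hv : v ∈ γ) :
    v ∈ K0 G R x ω m := by
  obtain ⟨l₁, l₂, rfl⟩ := List.append_of_mem hv
  exact P165.mem_K0.2 ⟨_, h.pre⟩

theorem K0_mono {R' : Finset V} {ω' : Finset (Sym2 V)} {m' : Finset (List V)} (hR : R ⊆ R')
    (hω : ω ⊆ ω') (hm : m' ⊆ m) : K0 G R x ω m ⊆ K0 G R' x ω' m' := by
  intro u hu
  obtain ⟨γ, h⟩ := mem_K0.1 hu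
  exact mem_K0.2 ⟨γ, h.move' (fun v hv => hR (h.2.2.1 v hv)) (fun _ _ _ e => e.mono hω)
    fun _ _ _ e => e.imp (@hm _) (@hm _)⟩

theorem FPath.rev {γ : List V} (h : FPath G R ω m x u γ) : FPath G R ω m u x γ.reverse := by
  obtain ⟨h1, h2, h3, h4, h5, h6⟩ := h
  refine ⟨List.nodup_reverse.2 h1, List.isChain_reverse.2 (h2.imp fun _ _ e => e.symm),
    fun v hv => h3 v (List.mem_reverse.1 hv), by rwa [List.head?_reverse],
    by rwa [List.getLast?_reverse], fun σ e1 e2 e3 => side_reverse.1 (h6 _ ?_ ?_ ?_)⟩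
  · rw [← List.reverse_infix, List.reverse_reverse]
    exact e1
  · rwa [List.length_reverse]
  · rw [List.reverse_reverse]
    exact e3.symm

theorem K0_symm (h : u ∈ K0 G R x ω m) : x ∈ K0 G R u ω m := by
  obtain ⟨γ, h⟩ := mem_K0.1 h
  exact mem_K0.2 ⟨_, h.rev⟩

omit [DecidableEq V] [G.LocallyFinite] in
theorem FPath.single (h : x ∈ R) : FPath G R ω m x x [x] :=
  ⟨by simp, by simp, by simpa using h, rfl, rfl, fun σ h1 h2 _ => by
    have := h1.length_le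
    simp at this
    omega⟩

theorem self_mem_K0 (h : x ∈ R) : x ∈ K0 G R x ω m := mem_K0.2 ⟨_, FPath.single h⟩

theorem K0_conn (h : u ∈ K0 G R x ω m) : Conn G R ω x u := by
  obtain ⟨γ, h⟩ := mem_K0.1 h
  exact conn_of_chain h.2.1 h.2.2.1 (List.mem_of_head? h.2.2.2.1)
    (List.mem_of_getLast? h.2.2.2.2.1)

theorem root_mem_K0 (h : u ∈ K0 G R x ω m) : x ∈ K0 G R x ω m :=
  self_mem_K0 (K0_conn h).left

/-- Locality. A free path of `(ω, m)` stays free for `(ω', m')` since its vertices are in `K0`.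
Conversely, by induction on the length, a free path of `(ω', m')` has all but its last vertex in
`K0`, so all its vertices are in `Kp`, and it is a free path of `(ω, m)`. -/
theorem K0_local {ω' : Finset (Sym2 V)} {m' : Finset (List V)}
    (hω : ∀ a ∈ K0 G R x ω m, ∀ b, (Op G ω a b ↔ Op G ω' a b))
    (hm : ∀ σ : List V, σ.Nodup → (∀ v ∈ σ, v ∈ Kp G R x ω m) → (σ ∈ m ↔ σ ∈ m')) :
    K0 G R x ω' m' = K0 G R x ω m := by
  have hm' : ∀ γ : List V, γ.Nodup → (∀ v ∈ γ, v ∈ Kp G R x ω m) → ∀ σ, σ <:+: γ →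
      ((σ ∈ m ∨ σ.reverse ∈ m) ↔ (σ ∈ m' ∨ σ.reverse ∈ m')) := by
    intro γ h1 h2 σ h3
    have h4 := h1.sublist h3.sublist
    rw [hm σ h4 fun v hv => h2 v (h3.subset hv), hm σ.reverse (List.nodup_reverse.2 h4)
      fun v hv => h2 v (h3.subset (List.mem_reverse.1 hv))]
  have key : ∀ (γ : List V) (u : V), FPath G R ω' m' x u γ → FPath G R ω m x u γ := by
    intro γ
    induction γ using List.reverseRecOn with
    | nil => exact fun u h => absurd h.2.2.2.1 (by simp)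
    | append_singleton γ z ih =>
      intro u h
      have h1 : ∀ v ∈ γ, v ∈ K0 G R x ω m := by
        intro v hv
        obtain rfl | ⟨γ', a, rfl⟩ := List.eq_nil_or_concat' γ
        · simp at hv
        · exact (ih a (FPath.pre (l₂ := [z]) (by simpa using h))).mem_K0 hv
      have h2 : z ∈ Kp G R x ω m := by
        have hz := h.2.2.1 z (by simp)
        obtain rfl | ⟨γ', a, rfl⟩ := List.eq_nil_or_concat' γ
        · have : z = x := by simpa using h.2.2.2.1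
          exact K0_subset_Kp (this ▸ self_mem_K0 hz)
        · have ha := h1 a (by simp)
          exact mem_Kp.2 ⟨hz, Or.inr ⟨a, ha, (hω a ha z).2
            (chain_pairsA.1 h.2.1 a z ⟨γ', [], by simp⟩)⟩⟩
      refine h.move' h.2.2.1 (fun a ha b => (hω a (h1 a (by simpa using ha)) b).2)
        fun σ e _ => (hm' _ h.1 (fun v hv => ?_) σ e).1
      rcases List.mem_append.1 hv with hv | hv
      · exact K0_subset_Kp (h1 v hv)
      · exact List.mem_singleton.1 hv ▸ h2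
  ext u
  rw [mem_K0, mem_K0]
  refine ⟨fun ⟨γ, h⟩ => ⟨γ, key γ u h⟩, fun ⟨γ, h⟩ => ⟨γ, h.move' h.2.2.1
    (fun a ha b => (hω a (h.mem_K0 (List.mem_of_mem_dropLast ha)) b).1)
    fun σ e _ => (hm' γ h.1 (fun v hv => K0_subset_Kp (h.mem_K0 hv)) σ e).2⟩⟩

theorem Kp_local {ω' : Finset (Sym2 V)} {m' : Finset (List V)}
    (hω : ∀ a ∈ K0 G R x ω m, ∀ b, (Op G ω a b ↔ Op G ω' a b))
    (hm : ∀ σ : List V, σ.Nodup → (∀ v ∈ σ, v ∈ Kp G R x ω m) → (σ ∈ m ↔ σ ∈ m')) :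
    Kp G R x ω' m' = Kp G R x ω m := by
  ext v
  rw [mem_Kp, mem_Kp, K0_local hω hm]
  exact and_congr_right fun _ => or_congr_right
    (exists_congr fun a => and_congr_right fun ha => (hω a ha v).symm)

theorem op_congrA {S : Finset V} {ω' : Finset (Sym2 V)} (hω : ∀ e ∈ EP G S, (e ∈ ω ↔ e ∈ ω'))
    {a : V} (ha : a ∈ S) (b : V) : Op G ω a b ↔ Op G ω' a b :=
  and_congr_right fun h => hω _ (mk_mem_EP h ha)

theorem K0_dep {ω' : Finset (Sym2 V)} {m' : Finset (List V)}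
    (hω : ∀ e ∈ EP G R, (e ∈ ω ↔ e ∈ ω')) (hm : ∀ σ ∈ LL R, (σ ∈ m ↔ σ ∈ m')) :
    K0 G R x ω' m' = K0 G R x ω m :=
  K0_local (fun _ ha => op_congrA hω (K0_subset ha))
    fun σ h1 h2 => hm σ (mem_LL.2 ⟨h1, fun v hv => Kp_subset (h2 v hv)⟩)

/-- the explored set and the exits depend only on the edges meeting the explored set
(`K0_local`, `tube_congr`, `exists_dropLast_of_mem_Eta`) -/
theorem exits_local {c : Finset (List V)} {ω' : Finset (Sym2 V)}
    (h : ∀ e ∈ EP G (K0 G R x ω m), (e ∈ ω ↔ e ∈ ω')) :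
    K0 G R x ω' m = K0 G R x ω m ∧ Exits G R x ω' m c = Exits G R x ω m c := by
  have h1 : K0 G R x ω' m = K0 G R x ω m :=
    K0_local (fun _ ha => op_congrA h ha) fun _ _ _ => Iff.rfl
  refine ⟨h1, ?_⟩
  have h2 : ∀ η : List V, (∀ v ∈ η.dropLast, v ∈ K0 G R x ω m) → (Tube G ω η ↔ Tube G ω' η) := by
    intro η h3
    refine tube_congr fun e he => h e ?_
    obtain ⟨v, h4, h5⟩ := exists_dropLast_of_mem_Eta he
    exact mem_EP.2 ⟨(mem_Eta.1 he).1, v, h3 v h4, h5⟩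
  ext f
  rw [mem_Exits, mem_Exits]
  refine exists_congr fun η => and_congr_left fun _ => ?_
  unfold IsExit
  rw [h1]
  exact ⟨fun ⟨a, b, c, d, e, f, g, k⟩ => ⟨a, b, c, d, e, (h2 η g).2 f, g, k⟩,
    fun ⟨a, b, c, d, e, f, g, k⟩ => ⟨a, b, c, d, e, (h2 η g).1 f, g, k⟩⟩

/-- an exit is joined to the root -/
theorem exit_conn {c : Finset (List V)} {f : V} (h : f ∈ Exits G R x ω m c) :
    Conn G R ω x f := by
  obtain ⟨η, ⟨-, -, -, h2, h3, h4, h5, -⟩, h6⟩ := mem_Exits.1 h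
  match η, h2 with
  | a :: b :: l, _ =>
    exact (K0_conn (h5 a (by simp))).trans
      (conn_of_chain h4.1 h3 (by simp) (List.mem_of_getLast? h6))

end Vale.Agent.P165
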