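import Mathlib
import Vale.Agent.P165.CombA

/-!
Surgery along a tube.
-/

namespace Vale.Agent.P165

variable {V : Type*} [DecidableEq V] {G : SimpleGraph V} [G.LocallyFinite]
variable {R : Finset V} {x : V} {ω : Finset (Sym2 V)} {m : Finset (List V)}

omit [DecidableEq V] in
theorem inE_nbrB {p l : List V} {a b c d : V} (hn : (p ++ a :: b :: c :: l).Nodup)
    (h : InE (p ++ a :: b :: c :: l) s(b, d)) : d = a ∨ d = c := by
  obtain ⟨y, z, ⟨s, t, e⟩, h2⟩ := h
  have e0 : p ++ a :: b :: c :: l = (p ++ [a]) ++ b :: c :: l := by simp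
  rw [e0] at e hn
  have h3 := List.nodup_append.1 hn
  have h4 : b ∉ p ++ [a] := fun hb => h3.2.2 b hb b (by simp) rfl
  have h5 : b ∉ c :: l := (List.nodup_cons.1 h3.2.1).1
  rcases Sym2.eq_iff.1 h2 with ⟨rfl, rfl⟩ | ⟨rfl, rfl⟩
  · have := (List.append_cons_inj_of_notMem h4 h5 (x₂ := s) (z₂ := d :: t)).1
      (e.symm.trans (by simp))
    exact Or.inr (List.cons.inj this.2.2).1.symm
  · have := (List.append_cons_inj_of_notMem h4 h5 (x₂ := s ++ [d]) (z₂ := t)).1
      (e.symm.trans (by simp))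
    exact Or.inl (by simpa using (List.append_inj' this.1 rfl).2.symm)

omit [DecidableEq V] [G.LocallyFinite] in
theorem forcedB {η : List V} (hn : η.Nodup) (hT : Tube G ω η) (l₁ l : List V) :
    ∀ (p : List V) (a b : V) (l₂ : List V), η = p ++ a :: b :: l →
      (l₁ ++ (p ++ a :: b :: l₂)).Nodup → (l₁ ++ (p ++ a :: b :: l₂)).IsChain (Op G ω) →
      η <:+: (l₁ ++ (p ++ a :: b :: l₂)) ∨
        ∃ z, (l₁ ++ (p ++ a :: b :: l₂)).getLast? = some z ∧ Inn η z := by
  induction l with
  | nil => exact fun p a b l₂ e _ _ => Or.inl ⟨l₁, l₂, by simp [e]⟩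
  | cons c l ih =>
    intro p a b l₂ e h1 h2
    have hb : Inn η b := ⟨p ++ [a], c :: l, by simp, by simp, by simp [e]⟩
    cases l₂ with
    | nil =>
      refine Or.inr ⟨b, ?_, hb⟩
      rw [show l₁ ++ (p ++ [a, b]) = (l₁ ++ p ++ [a]) ++ [b] by simp, List.getLast?_concat]
    | cons d l₂ =>
      have h3 : Op G ω b d := chain_pairsA.1 h2 b d ⟨l₁ ++ p ++ [a], l₂, by simp⟩
      have h4 : InE η s(b, d) := by
        by_contra h5
        exact hT.2 ⟨b, d, hb, h3, h5⟩
      rcases inE_nbrB (e ▸ hn) (e ▸ h4) with rfl | rfl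
      · have := (List.nodup_cons.1 (List.nodup_append.1 (List.nodup_append.1 h1).2.1).2.1).1
        simp at this
      · simpa using ih (p ++ [a]) b d l₂ (by simp [e]) (by simpa using h1) (by simpa using h2)

omit [DecidableEq V] in
theorem first_entryB {T : List V} (γ : List V) : ∀ x, γ.head? = some x → x ∉ T →
    (∃ t ∈ γ, t ∈ T) → ∃ l₁ v t l₂, γ = l₁ ++ v :: t :: l₂ ∧ t ∈ T ∧ ∀ y ∈ l₁ ++ [v], y ∉ T := by
  induction γ with
  | nil => simp
  | cons a γ ih =>
    rintro x h1 h2 ⟨t, h3, h4⟩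
    obtain rfl : a = x := by simpa using h1
    have h5 : t ∈ γ := (List.mem_cons.1 h3).resolve_left fun e => h2 (e ▸ h4)
    cases γ with
    | nil => simp at h5
    | cons b γ =>
      by_cases h6 : b ∈ T
      · exact ⟨[], a, b, γ, rfl, h6, by simpa using h2⟩
      · obtain ⟨l₁, v, t, l₂, e, h7, h8⟩ := ih b rfl h6 ⟨t, h5, h4⟩
        exact ⟨a :: l₁, v, t, l₂, by simp [e], h7, List.forall_mem_cons.2 ⟨h2, h8⟩⟩

omit [DecidableEq V] in
theorem inn_of_tailB {u t : V} {l : List V} (h : t ∈ l) (h' : (u :: l).getLast? ≠ some t) :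
    Inn (u :: l) t := by
  obtain ⟨s, r, rfl⟩ := List.append_of_mem h
  refine ⟨u :: s, r, by simp, ?_, rfl⟩
  rintro rfl
  exact h' (by rw [← List.cons_append, List.getLast?_concat])

/-- A self-avoiding path that enters a tube by its first edge either follows it to the end or
stops at an interior vertex. (Generalise to a final piece `a :: b :: l` of the tube and induct on
`l`; at an interior vertex the only edges of `ω` are the two tube edges.) -/
theorem forced {u b : V} {l l₁ l₂ : List V} (hn : (u :: b :: l).Nodup)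
    (hT : Tube G ω (u :: b :: l)) (hγ : (l₁ ++ u :: b :: l₂).Nodup)
    (hc : (l₁ ++ u :: b :: l₂).IsChain (Op G ω)) :
    (u :: b :: l) <:+: (l₁ ++ u :: b :: l₂) ∨
      ∃ z, (l₁ ++ u :: b :: l₂).getLast? = some z ∧ Inn (u :: b :: l) z :=
  forcedB hn hT l₁ l [] u b l₂ rfl hγ hc

/-- The free path to `z` avoids the tail of the tube: it does not contain the last vertex (which
is unexplored); its first tail vertex is entered from `u` and its last tail vertex is left towards
`u` (`Tube.inE`, `InE.first`), contradicting `Nodup`. Hence its edges and the side edges of its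
subpaths are outside `Eta`, except possibly the first edge `s(u, b)`. -/
theorem exit_upper {u b : V} {l : List V} (hn : (u :: b :: l).Nodup)
    (hT : Tube G ω (u :: b :: l))
    (hf : ∀ f, (u :: b :: l).getLast? = some f → f ∉ K0 G R x ω m) (hx : x ∉ b :: l) {z : V}
    (hz : z ∈ K0 G R x ω m) (hz' : z ∉ b :: l) :
    z ∈ K0 G R x (insert s(u, b) (ω \ Eta G (u :: b :: l))) m := by
  obtain ⟨γ, h⟩ := mem_K0.1 hz
  have h1 : ∀ t ∈ γ, t ∉ b :: l := by
    by_contra hc
    push Not at hc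
    obtain ⟨l₁, v, t, l₂, rfl, h2, h3⟩ := first_entryB γ x h.2.2.2.1 hx hc
    have h4 : Inn (u :: b :: l) t := inn_of_tailB h2 fun e => hf t e (h.mem_K0 (by simp))
    have h5 : Op G ω v t := chain_pairsA.1 h.2.1 v t ⟨l₁, l₂, by simp⟩
    have h6 : InE (u :: b :: l) s(v, t) := by
      by_contra h7
      exact hT.2 ⟨t, v, h4, h5.symm, by rwa [Sym2.eq_swap]⟩
    obtain ⟨rfl, rfl⟩ := h6.first (h3 v (by simp))
    rcases forced hn hT h.1 h.2.1 with h7 | ⟨y, h7, h8⟩
    · exact hf _ (List.getLast?_eq_some_getLast (by simp))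
        (h.mem_K0 (h7.subset (List.getLast_mem _)))
    · obtain rfl : z = y := by simpa [h.2.2.2.2.1] using h7
      exact hz' h8.mem_tail
  refine mem_K0.2 ⟨γ, h.move' h.2.2.1 (fun a ha w e => ⟨e.1, ?_⟩) fun _ _ _ e => e⟩
  by_cases h2 : s(a, w) ∈ Eta G (u :: b :: l)
  · obtain ⟨rfl, rfl⟩ := (hT.inE e h2).first (h1 a (List.mem_of_mem_dropLast ha))
    exact Finset.mem_insert_self _ _
  · exact Finset.mem_insert_of_mem (Finset.mem_sdiff.2 ⟨e.2, h2⟩)

/-- Surgery. Write `S₀` for the explored set of `(ω \ Eta η, mOff η m)`.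
(i) Extend the free path to `u` along `η` up to an interior vertex: a marked subpath meeting `η`
would be `η` or its reverse and contain the last vertex.
(ii) For a free path of `(ω, m)` to `z`, the longest initial piece avoiding the tail is a free path
for `(ω \ Eta η, mOff η m)`; if the path goes on to a tail vertex `t`, the edge used is in `Eta`
(else `t ∈ Kp`), so it is the first edge of `η`, and `forced` applies (the path cannot contain the
marked tube `η`). So the explored set lies in `S₀ ∪ interior`, which misses the last vertex. -/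
theorem surgery {c : Finset (List V)} {u : V} {η : List V} (hn : η.Nodup) (h2 : 2 ≤ η.length)
    (hT : Tube G ω η) (hm : η ∈ m) (hc : η ∈ c)
    (hlone : ∀ σ ∈ m, (∃ v ∈ η, v ∈ σ) → σ = η) (hu : η.head? = some u)
    (huS : u ∈ K0 G R x (ω \ Eta G η) (mOff η m)) (hR : ∀ v ∈ η.tail, v ∈ R)
    (hav : ∀ v ∈ η.tail, v ∉ Kp G R x (ω \ Eta G η) (mOff η m)) :
    IsExit G R x ω m c η ∧
      K0 G R x ω m ⊆ K0 G R x (ω \ Eta G η) (mOff η m) ∪ η.dropLast.toFinset := by
  obtain ⟨u', l, rfl⟩ := List.exists_cons_of_length_pos (l := η) (by omega)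
  obtain rfl : u' = u := by simpa using hu
  obtain ⟨b, l, rfl⟩ := List.exists_cons_of_length_pos (l := l)
    (by rw [List.length_cons] at h2; omega)
  rw [List.tail_cons] at hR hav
  have hx : x ∉ b :: l := fun e => hav x e (K0_subset_Kp (root_mem_K0 huS))
  obtain ⟨d, f, hd⟩ : ∃ d f, b :: l = d ++ [f] := by
    obtain ⟨d, f, e⟩ := (List.eq_nil_or_concat' (b :: l)).resolve_left (by simp)
    exact ⟨d, f, e⟩
  have hdl : (u' :: b :: l).dropLast = u' :: d := by
    rw [hd, ← List.cons_append, List.dropLast_concat]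
  have hf : f ∈ b :: l := by simp [hd]
  have hfd : f ∉ u' :: d := fun e => by
    rw [hd, ← List.cons_append, List.nodup_append] at hn
    exact hn.2.2 f e f (by simp) rfl
  have hsub : ∀ v ∈ d, v ∈ b :: l := fun v hv => by simp [hd, hv]
  have hA : ∀ γ z, FPath G R ω m x z γ → (∀ v ∈ γ, v ∉ b :: l) →
      z ∈ K0 G R x (ω \ Eta G (u' :: b :: l)) (mOff (u' :: b :: l) m) := by
    intro γ z h h1
    refine mem_K0.2 ⟨γ, h.1, chain_pairsA.2 fun v w e => ?_, h.2.2.1, h.2.2.2.1, h.2.2.2.2.1,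
      fun σ e1 e2 e3 => ?_⟩
    · have h3 := chain_pairsA.1 h.2.1 v w e
      refine ⟨h3.1, Finset.mem_sdiff.2 ⟨h3.2, fun e' => ?_⟩⟩
      obtain ⟨y, h4, h5⟩ := exists_tail_of_mem_Eta e'
      exact h1 y (e.subset (by simpa using h5)) h4
    · obtain ⟨v, w, g1, g2, g3⟩ := h.2.2.2.2.2 σ e1 e2
        (e3.imp (fun e => (mem_mOff.1 e).1) fun e => (mem_mOff.1 e).1)
      refine ⟨v, w, g1, ⟨g2.1, Finset.mem_sdiff.2 ⟨g2.2, fun e' => ?_⟩⟩, g3⟩
      obtain ⟨rfl, -⟩ := (hT.inE g2 e').first (h1 v (e1.subset g1.memA))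
      rcases e3 with e | e
      · exact (mem_mOff.1 e).2 v (by simp) g1.memA
      · exact (mem_mOff.1 e).2 v (by simp) (List.mem_reverse.2 g1.memA)
  have hB : K0 G R x ω m ⊆ K0 G R x (ω \ Eta G (u' :: b :: l)) (mOff (u' :: b :: l) m) ∪
      (u' :: b :: l).dropLast.toFinset := by
    intro z hz
    obtain ⟨γ, h⟩ := mem_K0.1 hz
    by_cases h1 : ∃ t ∈ γ, t ∈ b :: l
    · obtain ⟨l₁, v, t, l₂, rfl, g2, g3⟩ := first_entryB γ x h.2.2.2.1 hx h1
      have g4 := hA _ v h.pre g3
      have g5 : Op G ω v t := chain_pairsA.1 h.2.1 v t ⟨l₁, l₂, by simp⟩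
      have g6 : s(v, t) ∈ Eta G (u' :: b :: l) := by
        by_contra g7
        exact hav t g2 (mem_Kp.2 ⟨hR t g2, Or.inr ⟨v, g4, g5.1, Finset.mem_sdiff.2 ⟨g5.2, g7⟩⟩⟩)
      obtain ⟨rfl, rfl⟩ := (hT.inE g5 g6).first (g3 v (by simp))
      rcases forced hn hT h.1 h.2.1 with h7 | ⟨y, h7, h8⟩
      · exact absurd (h.2.2.2.2.2 _ h7 h2 (Or.inl hm)) hT.2
      · obtain rfl : z = y := by simpa [h.2.2.2.2.1] using h7
        exact Finset.mem_union_right _ (List.mem_toFinset.2 h8.mem_dropLast)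
    · exact Finset.mem_union_left _ (hA γ z h fun v hv e => h1 ⟨v, hv, e⟩)
  refine ⟨⟨hm, hc, hn, h2, List.forall_mem_cons.2 ⟨K0_subset huS, hR⟩, hT, ?_, fun y hy e => ?_,
    hx⟩, hB⟩
  · obtain ⟨γ, h⟩ := mem_K0.1 huS
    obtain ⟨l₀, rfl⟩ := List.getLast?_eq_some_iff.1 h.2.2.2.2.1
    have g1 : ∀ v ∈ l₀, v ∉ u' :: b :: l := by
      intro v hv e
      rcases List.mem_cons.1 e with e | e
      · exact (List.nodup_append.1 h.1).2.2 v hv u' (by simp) e
      · exact hav v e (K0_subset_Kp (h.mem_K0 (by simp [hv])))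
    have g2 : u' :: d <:+: u' :: b :: l := ⟨[], [f], by simp [hd]⟩
    have g3 : FPath G R ω m x ((u' :: d).getLast (by simp)) (l₀ ++ u' :: d) := by
      refine ⟨List.nodup_append.2 ⟨(List.nodup_append.1 h.1).1, hn.sublist g2.sublist,
        fun v hv w hw e => g1 v hv (e ▸ g2.subset hw)⟩, List.isChain_split.2
        ⟨h.2.1.imp fun _ _ e => e.mono Finset.sdiff_subset,
          chain_pairsA.2 fun v w e => chain_pairsA.1 hT.1 v w (e.trans g2)⟩, fun v hv => ?_,
        by have := h.2.2.2.1; cases l₀ <;> simpa using this,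
        by rw [List.getLast?_append_of_ne_nil _ (by simp), List.getLast?_eq_some_getLast],
        fun σ e1 e2 e3 => ?_⟩
      · rcases List.mem_append.1 hv with hv | hv
        · exact h.2.2.1 v (by simp [hv])
        · rcases List.mem_cons.1 hv with rfl | hv
          · exact K0_subset huS
          · exact hR v (hsub v hv)
      · have g4 : ∀ v ∈ u' :: b :: l, v ∉ σ := by
          intro v hv hv'
          have g5 : f ∈ σ := by
            rcases e3 with e | e
            · rw [hlone σ e ⟨v, hv, hv'⟩]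
              exact List.mem_cons_of_mem _ hf
            · rw [← List.mem_reverse, hlone _ e ⟨v, hv, List.mem_reverse.2 hv'⟩]
              exact List.mem_cons_of_mem _ hf
          rcases List.mem_append.1 (e1.subset g5) with g6 | g6
          · exact g1 f g6 (List.mem_cons_of_mem _ hf)
          · exact hfd g6
        have g5 : σ <:+: l₀ := by
          rcases List.infix_append_iff_ne_nil.1 e1 with g6 | g6 | ⟨s, t, -, g6, rfl, -, g7⟩
          · exact g6
          · obtain ⟨a, σ', rfl⟩ := List.exists_cons_of_length_pos (l := σ) (by omega)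
            exact absurd (List.mem_cons_self) (g4 a (g2.subset (g6.subset (by simp))))
          · obtain ⟨a, t', rfl⟩ := List.exists_cons_of_ne_nil g6
            exact absurd (by simp) (g4 a (g2.subset (g7.subset (by simp))))
        refine (h.2.2.2.2.2 σ (g5.trans ⟨[], [u'], by simp⟩) e2 (e3.imp
          (fun e => mem_mOff.2 ⟨e, g4⟩) fun e => mem_mOff.2 ⟨e, fun v hv hv' =>
            g4 v hv (List.mem_reverse.1 hv')⟩)).mono Finset.sdiff_subset
    intro v hv
    exact g3.mem_K0 (List.mem_append_right _ (hdl ▸ hv))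
  · obtain rfl : f = y := by
      rw [hd, ← List.cons_append, List.getLast?_concat] at hy
      exact Option.some.inj hy
    rcases Finset.mem_union.1 (hB e) with g1 | g1
    · exact hav f hf (K0_subset_Kp g1)
    · exact hfd (hdl ▸ List.mem_toFinset.1 g1)

/-- Removing the edges of `Eta η` and the marks meeting `η` changes nothing when the tail of `η`
avoids `Kp` and no mark meets the head (`K0_local`, `exists_tail_of_mem_Eta`). -/
theorem off_local {u : V} {η : List V} (hu : η.head? = some u) (hR : ∀ v ∈ η.tail, v ∈ R)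
    (hav : ∀ v ∈ η.tail, v ∉ Kp G R x ω m) (hno : ∀ σ ∈ m, u ∉ σ) :
    K0 G R x (ω \ Eta G η) (mOff η m) = K0 G R x ω m ∧
      Kp G R x (ω \ Eta G η) (mOff η m) = Kp G R x ω m := by
  have h1 : ∀ a ∈ K0 G R x ω m, ∀ b, (Op G ω a b ↔ Op G (ω \ Eta G η) a b) := by
    intro a ha b
    refine ⟨fun e => ⟨e.1, Finset.mem_sdiff.2 ⟨e.2, fun e' => ?_⟩⟩,
      fun e => e.mono Finset.sdiff_subset⟩
    obtain ⟨v, h2, h3⟩ := exists_tail_of_mem_Eta e'
    rcases Sym2.mem_iff.1 h3 with rfl | rfl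
    · exact hav v h2 (K0_subset_Kp ha)
    · exact hav v h2 (mem_Kp.2 ⟨hR v h2, Or.inr ⟨a, ha, e⟩⟩)
  have h2 : ∀ σ : List V, σ.Nodup → (∀ v ∈ σ, v ∈ Kp G R x ω m) → (σ ∈ m ↔ σ ∈ mOff η m) := by
    intro σ _ h3
    refine ⟨fun e => mem_mOff.2 ⟨e, fun v hv hv' => ?_⟩, fun e => (mem_mOff.1 e).1⟩
    cases η with
    | nil => simp at hv
    | cons a l =>
      obtain rfl : a = u := by simpa using hu
      rcases List.mem_cons.1 hv with rfl | hv
      · exact hno σ e hv'
      · exact hav v hv (h3 v hv')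
  exact ⟨K0_local h1 h2, Kp_local h1 h2⟩

end Vale.Agent.P165
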