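import Mathlib
import Vale.Agent.P165.CombA

/-!
The explored set `K0`: frontier, entry, splitting, equivariance.
-/

namespace Vale.Agent.P165

variable {V : Type*} [DecidableEq V] {G : SimpleGraph V} [G.LocallyFinite]
variable {R : Finset V} {x u : V} {ω : Finset (Sym2 V)} {m : Finset (List V)}

/-- Frontier vertices are blocked. Extend a free path to `a` by the step `a z`; the longer path
is not free, so some marked final piece `σ` is a tube. The initial piece of the path up to the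
head `u` of `σ` uses no edge of `Eta σ`, and neither do the side edges of its subpaths
(`Tube.inE`: both ends would lie on `σ`). -/
theorem frontier {z : V} (hz : z ∈ Kp G R x ω m) (hz' : z ∉ K0 G R x ω m) :
    ∃ σ u, σ.Nodup ∧ (∀ v ∈ σ, v ∈ R) ∧ 2 ≤ σ.length ∧ σ.head? = some u ∧
      σ.getLast? = some z ∧ (σ ∈ m ∨ σ.reverse ∈ m) ∧ Tube G ω σ ∧
      u ∈ K0 G R x (ω \ Eta G σ) m := by
  obtain ⟨h1, h2 | ⟨a, ha, h2⟩⟩ := mem_Kp.1 hz
  · exact absurd h2 hz'
  obtain ⟨γ, h⟩ := mem_K0.1 ha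
  have h3 : (γ ++ [z]).Nodup := List.nodup_append.2 ⟨h.1, by simp, fun v hv w hw e =>
    hz' (List.mem_singleton.1 hw ▸ e ▸ h.mem_K0 hv)⟩
  have h4 : (γ ++ [z]).IsChain (Op G ω) := h.2.1.append (by simp) fun v hv w hw => by
    have e1 : a = v := by simpa [h.2.2.2.2.1] using hv
    have e2 : z = w := by simpa using hw
    exact e1 ▸ e2 ▸ h2
  have h5 : ∀ v ∈ γ ++ [z], v ∈ R := by
    simpa [or_imp, forall_and] using ⟨h.2.2.1, h1⟩
  have h6 : ¬ Free G ω m (γ ++ [z]) := fun e => hz' (mem_K0.2 ⟨_, h3, h4, h5, by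
    rw [List.head?_append, h.2.2.2.1]; rfl, by simp, e⟩)
  simp only [Free, not_forall] at h6
  obtain ⟨σ, e1, e2, e3, e4⟩ := h6
  obtain ⟨s, e5⟩ := (List.infix_concat_iff.1 e1).resolve_right
    fun e => e4 (h.2.2.2.2.2 σ e e2 e3)
  obtain ⟨u, σ', rfl⟩ := List.exists_cons_of_length_pos (l := σ) (by omega)
  obtain ⟨σ', z', rfl⟩ := (List.eq_nil_or_concat' σ').resolve_left (by rintro rfl; simp at e2)
  obtain ⟨rfl, e6⟩ := List.append_inj' (show (s ++ u :: σ') ++ [z'] = γ ++ [z] by simpa using e5) rfl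
  obtain rfl : z' = z := by simpa using e6
  have hT : Tube G ω (u :: (σ' ++ [z'])) :=
    ⟨chain_pairsA.2 fun a b e => chain_pairsA.1 h4 a b (e.trans e1), e4⟩
  refine ⟨_, u, h3.sublist e1.sublist, fun v hv => h5 v (e1.subset hv), e2, rfl,
    by rw [← List.cons_append, List.getLast?_concat], e3, hT,
    mem_K0.2 ⟨_, h.pre.move' h.pre.2.2.1 (fun a ha b e => ⟨e.1, Finset.mem_sdiff.2 ⟨e.2,
      fun e' => ?_⟩⟩) fun _ _ _ e => e⟩⟩
  rw [← e5, List.nodup_append] at h3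
  exact h3.2.2 a (by simpa using ha) a ((hT.inE e e').mem (by simp)) rfl

/-- Entry step: if `y` lies on the path take the final piece from `y`, else put `y` in front. -/
theorem entry {y : V} (hy : y ∈ R) (hadj : G.Adj y x) (hu : u ∈ K0 G R x ω m) :
    u ∈ K0 G R y (insert s(y, x) ω) (mOff [y] m) := by
  obtain ⟨γ, h⟩ := mem_K0.1 hu
  by_cases h1 : y ∈ γ
  · obtain ⟨l₁, l₂, rfl⟩ := List.append_of_mem h1
    exact K0_mono subset_rfl (Finset.subset_insert _ _) (fun σ e => (mem_mOff.1 e).1)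
      (mem_K0.2 ⟨_, h.suf⟩)
  obtain ⟨g1, g2, g3, g4, g5, g6⟩ := h
  refine mem_K0.2 ⟨y :: γ, List.nodup_cons.2 ⟨h1, g1⟩,
    (g2.imp fun _ _ e => e.mono (Finset.subset_insert _ _)).cons fun b hb => ?_,
    List.forall_mem_cons.2 ⟨hy, g3⟩, rfl, by rw [List.getLast?_cons, g5]; rfl,
    fun σ e1 e2 e3 => ?_⟩
  · obtain rfl : x = b := by simpa [g4] using hb
    exact ⟨hadj, Finset.mem_insert_self _ _⟩
  · have e4 : y ∉ σ := by
      rcases e3 with e | e
      · exact (mem_mOff.1 e).2 y (by simp)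
      · simpa using (mem_mOff.1 e).2 y (by simp)
    refine (g6 σ ((List.infix_cons_iff.1 e1).resolve_left fun ⟨t, e⟩ => e4 ?_) e2
      (e3.imp (fun e => (mem_mOff.1 e).1) fun e => (mem_mOff.1 e).1)).mono
      (Finset.subset_insert _ _)
    obtain ⟨a, σ', rfl⟩ := List.exists_cons_of_length_pos (l := σ) (by omega)
    simp [(List.cons.inj e).1]

/-- Splitting at a vertex `z ∈ A` of the path: `I` is the set of edges of the initial piece up to
`z`, and `I' = ω \ I`. -/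
theorem bk_split {W A : Finset V} (h : u ∈ K0 G W x ω m) (h' : u ∉ K0 G (W \ A) x ω m) :
    ∃ z ∈ A, ∃ I I', I ⊆ ω ∧ I' ⊆ ω ∧ Disjoint I I' ∧ Conn G W I x z ∧ u ∈ K0 G W z I' m := by
  classical
  obtain ⟨γ, h⟩ := mem_K0.1 h
  obtain ⟨z, h1, h2⟩ : ∃ z ∈ γ, z ∈ A := by
    by_contra hc
    exact h' (mem_K0.2 ⟨γ, h.move' (fun v hv => Finset.mem_sdiff.2
      ⟨h.2.2.1 v hv, fun e => hc ⟨v, hv, e⟩⟩) (fun _ _ _ e => e) fun _ _ _ e => e⟩)
  obtain ⟨l₁, l₂, rfl⟩ := List.append_of_mem h1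
  have h3 : ∀ a b, Op G ω a b → a ∈ l₂ ∨ b ∈ l₂ →
      Op G (ω \ ω.filter (InE (l₁ ++ [z]))) a b := by
    intro a b e1 e2
    refine ⟨e1.1, Finset.mem_sdiff.2 ⟨e1.2, fun e => ?_⟩⟩
    have h4 := h.1
    rw [show l₁ ++ z :: l₂ = (l₁ ++ [z]) ++ l₂ by simp, List.nodup_append] at h4
    rcases e2 with e2 | e2
    · exact h4.2.2 a ((Finset.mem_filter.1 e).2.mem (by simp)) a e2 rfl
    · exact h4.2.2 b ((Finset.mem_filter.1 e).2.mem (by simp)) b e2 rfl
  refine ⟨z, h2, ω.filter (InE (l₁ ++ [z])), ω \ ω.filter (InE (l₁ ++ [z])),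
    Finset.filter_subset _ _, Finset.sdiff_subset, Finset.disjoint_sdiff, ?_,
    mem_K0.2 ⟨_, h.suf.move h.suf.2.2.1 (fun a b e1 e2 => h3 a b e2 (Or.inr (pair_tailA e1)))
      (fun σ e1 v w e2 e3 _ => h3 v w e3 (Or.inl (e2.supA e1).mem_tail)) fun _ _ _ e => e⟩⟩
  refine conn_of_chain (chain_pairsA.2 fun a b e => ?_) h.pre.2.2.1
    (List.mem_of_head? h.pre.2.2.2.1) (by simp)
  have h4 := chain_pairsA.1 h.pre.2.1 a b e
  exact ⟨h4.1, Finset.mem_filter.2 ⟨h4.2, a, b, e, rfl⟩⟩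

theorem fpath_image (φ : G ≃g G) {γ : List V} :
    FPath G (R.image φ) (ω.image (Sym2.map φ)) (m.image (List.map φ)) (φ x) (φ u) (γ.map φ) ↔
      FPath G R ω m x u γ := by
  have hi : Function.Injective φ := φ.injective
  have hl : Function.Injective (List.map φ) := List.map_injective_iff.2 hi
  have ho : ∀ o : Option V, ∀ a, o.map φ = some (φ a) ↔ o = some a := fun o a => by
    cases o <;> simp
  have hm : ∀ σ : List V, σ.map φ ∈ m.image (List.map φ) ↔ σ ∈ m :=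
    fun σ => hl.mem_finset_image
  refine and_congr (List.nodup_map_iff hi) (and_congr ?_ (and_congr ?_ (and_congr ?_
    (and_congr ?_ ?_))))
  · rw [List.isChain_map]
    simp only [Op_image]
  · simp only [List.forall_mem_map, hi.mem_finset_image]
  · rw [List.head?_map, ho]
  · rw [List.getLast?_map, ho]
  · refine ⟨fun h σ e1 e2 e3 => (side_image φ).1 (h _ (e1.map φ) (by simpa using e2) ?_),
      fun h σ e1 e2 e3 => ?_⟩
    · rwa [← List.map_reverse, hm, hm]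
    · obtain ⟨τ, e4, rfl⟩ := List.infix_map_iff.1 e1
      rw [← List.map_reverse, hm, hm] at e3
      exact (side_image φ).2 (h τ e4 (by simpa using e2) e3)

theorem K0_image (φ : G ≃g G) :
    φ u ∈ K0 G (R.image φ) (φ x) (ω.image (Sym2.map φ)) (m.image (List.map φ)) ↔
      u ∈ K0 G R x ω m := by
  rw [mem_K0, mem_K0]
  refine ⟨fun ⟨γ, h⟩ => ⟨γ.map φ.symm, (fpath_image φ).1 ?_⟩,
    fun ⟨γ, h⟩ => ⟨_, (fpath_image φ).2 h⟩⟩
  simpa [List.map_map, Function.comp_def] using h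

end Vale.Agent.P165
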