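import Mathlib
import Vale.Agent.P165.PercA

/-!
The potential `Psi` and the renewal inequality.
-/

open scoped ENNReal

namespace Vale.Agent.P165

variable {V : Type*} [DecidableEq V] {G : SimpleGraph V} [G.LocallyFinite] {p : ℝ≥0∞}

open Classical in
theorem psi_eq (hp : p ≤ 1) {R W : Finset V} (h : R ⊆ W) (L : Finset V) :
    Ex (fun _ => p) (EP G W)
      (fun ω => ((R.filter fun v => ∃ y ∈ L, Conn G R ω y v).card : ℝ≥0∞)) = psi G p R L := by
  refine Ex_ext (fun _ => hp) (D := (EP G R : Set (Sym2 V))) (fun ω ω' hω => ?_) fun e he =>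
    ⟨fun _ => he, fun _ => EP_mono h he⟩
  have hc : ∀ y v, Conn G R ω y v ↔ Conn G R ω' y v := fun y v =>
    ⟨Conn.congr fun a ha b _ hab => (hω _ (mk_mem_EP hab ha)).1,
      Conn.congr fun a ha b _ hab => (hω _ (mk_mem_EP hab ha)).2⟩
  simp only [hc]

theorem psi_mono (hp : p ≤ 1) {R R' L L' : Finset V} (hR : R ⊆ R') (hL : L ⊆ L') :
    psi G p R L ≤ psi G p R' L' := by
  classical
  rw [← psi_eq hp hR]
  refine Ex_mono fun ω _ => ?_
  refine Nat.cast_le.2 (Finset.card_le_card fun v hv => ?_)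
  obtain ⟨hv, y, hy, hc⟩ := Finset.mem_filter.1 hv
  exact Finset.mem_filter.2 ⟨hR hv, y, hL hy, hc.mono hR subset_rfl⟩

theorem Psi_mono (hp : p ≤ 1) (A : Finset V) {L L' : Finset V} (hL : L ⊆ L') :
    Psi G p A L ≤ Psi G p A L' :=
  iSup_mono fun _ => psi_mono hp subset_rfl hL

theorem card_le_Psi (hp : p ≤ 1) (A L : Finset V) : ((L \ A).card : ℝ≥0∞) ≤ Psi G p A L := by
  classical
  refine le_trans ?_ (le_iSup (fun W : Finset V => psi G p (W \ A) L) L)
  refine const_le_Ex (fun _ => hp) fun ω _ => ?_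
  refine Nat.cast_le.2 (Finset.card_le_card fun v hv => ?_)
  exact Finset.mem_filter.2 ⟨hv, v, (Finset.mem_sdiff.1 hv).1, Conn.refl ω hv⟩

theorem Psi_single_le (hp : p ≤ 1) (x : V) : Psi G p ∅ {x} ≤ ∑' v, TT G p x v := by
  classical
  refine iSup_le fun W => ?_
  calc psi G p (W \ ∅) {x}
      = Ex (fun _ => p) (EP G (W \ ∅)) (fun ω => ∑ v ∈ W \ ∅, ind (Conn G (W \ ∅) ω x v)) := by
        refine Ex_congr fun ω _ => ?_
        rw [Finset.card_filter]
        push_cast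
        refine Finset.sum_congr rfl fun v _ => ?_
        simp only [Finset.mem_singleton, exists_eq_left]
        by_cases hc : Conn G (W \ ∅) ω x v
        · rw [if_pos hc, ind_pos hc]
        · rw [if_neg hc, ind_neg hc]
    _ ≤ _ := by
        rw [Ex_sum]
        exact (Finset.sum_le_sum fun v _ => tc_le_TT p _ x v).trans (ENNReal.sum_le_tsum _)

/-- Renewal inequality. `Ex_union_law`; pointwise `Conn.last_exit`; for each `z` apply
`Ex_markov₂` with `D S = {e | ∃ v ∈ S, v ∈ e}`, `g S ω = ind (Conn (R \ S) ω z v)`; finally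
`tc_eq`, `tc_mono`. -/
theorem renewal {q δ : ℝ≥0∞} (hq : q ≤ 1) (hδ : δ ≤ 1) (hp : p = q + (1 - q) * δ)
    (R : Finset V) (x v : V) (S : Finset (Sym2 V) → Finset V)
    (hx : ∀ ω, x ∈ R → x ∈ S ω)
    (hloc : ∀ ω ω', (∀ e : Sym2 V, (∃ u ∈ S ω, u ∈ e) → (e ∈ ω ↔ e ∈ ω')) → S ω' = S ω) :
    tc G p R x v ≤ Ex (fun _ => q) (EP G R) (fun ω => ind (v ∈ S ω)) +
      ∑ z ∈ R, Ex (fun _ => q) (EP G R) (fun ω => Ex (fun _ => δ) (EP G R) fun σ =>
        ind (z ∉ S ω ∧ ∃ u ∈ S ω, Op G (ω ∪ σ) u z)) * tc G p R z v := by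
  have hp1 : p ≤ 1 := by
    rw [hp]
    calc q + (1 - q) * δ ≤ q + (1 - q) := add_le_add le_rfl (mul_le_of_le_one_right' hδ)
      _ = 1 := add_tsub_cancel_of_le hq
  have hq' : ∀ e : Sym2 V, (fun _ => q) e ≤ 1 := fun _ => hq
  have hδ' : ∀ e : Sym2 V, (fun _ => δ) e ≤ 1 := fun _ => hδ
  have hz : ∀ z, Ex (fun _ => q) (EP G R) (fun ω => Ex (fun _ => δ) (EP G R) fun σ =>
      ind (z ∉ S ω ∧ ∃ u ∈ S ω, Op G (ω ∪ σ) u z) * ind (Conn G (R \ S ω) (ω ∪ σ) z v)) ≤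
      Ex (fun _ => q) (EP G R) (fun ω => Ex (fun _ => δ) (EP G R) fun σ =>
        ind (z ∉ S ω ∧ ∃ u ∈ S ω, Op G (ω ∪ σ) u z)) * tc G p R z v := by
    intro z
    have hm := Ex_markov₂ (p := fun _ => p) hq' hδ' (fun _ => hp) (EP G R) S
      (fun T => {e | ∃ u ∈ T, u ∈ e}) (fun ω ω' h => hloc ω ω' h)
      (fun ω σ => ind (z ∉ S ω ∧ ∃ u ∈ S ω, Op G (ω ∪ σ) u z)) (by
        intro ω ω' σ σ' h1 h2
        rw [hloc ω ω' h1]
        refine ind_congr (and_congr_right fun _ => exists_congr fun u =>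
          and_congr_right fun hu => ?_)
        have e1 := h1 s(u, z) ⟨u, hu, Sym2.mem_mk_left u z⟩
        have e2 := h2 s(u, z) ⟨u, hu, Sym2.mem_mk_left u z⟩
        unfold Op
        rw [Finset.mem_union, Finset.mem_union, e1, e2])
      (fun T ω => ind (Conn G (R \ T) ω z v)) (by
        intro T ω ω' h
        have h3 : ∀ a ∈ R \ T, ∀ c ∈ R \ T, (s(a, c) ∈ ω ↔ s(a, c) ∈ ω') := by
          intro a ha c hc
          refine h _ ?_
          rintro ⟨u, hu, hm⟩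
          rcases Sym2.mem_iff.1 hm with rfl | rfl
          · exact (Finset.mem_sdiff.1 ha).2 hu
          · exact (Finset.mem_sdiff.1 hc).2 hu
        exact ind_congr ⟨Conn.congr fun a ha c hc _ => (h3 a ha c hc).1,
          Conn.congr fun a ha c hc _ => (h3 a ha c hc).2⟩)
    refine hm.le.trans ?_
    rw [← Ex_mul_right]
    refine Ex_mono fun ω _ => mul_le_mul' le_rfl ?_
    exact (tc_eq hp1 Finset.sdiff_subset z v).le.trans (tc_mono hp1 Finset.sdiff_subset z v)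
  refine le_trans ?_ (add_le_add le_rfl (Finset.sum_le_sum fun z _ => hz z))
  unfold tc
  rw [Ex_union_law hq' hδ' (fun _ => hp), ← Ex_sum, ← Ex_add]
  refine Ex_mono fun ω _ => ?_
  rw [← Ex_sum, ← Ex_const hδ' (EP G R) (ind (v ∈ S ω)), ← Ex_add]
  refine Ex_mono fun σ _ => ?_
  by_cases hc : Conn G R (ω ∪ σ) x v
  · by_cases hv : v ∈ S ω
    · rw [ind_pos hc, ind_pos hv]; exact le_self_add
    · obtain ⟨u, hu, z, hop, hz⟩ := hc.last_exit (hx ω hc.left) hv
      obtain ⟨hzR, hzS⟩ := Finset.mem_sdiff.1 hz.left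
      refine le_trans ?_ le_add_self
      refine le_trans ?_ (Finset.single_le_sum (f := fun z =>
        ind (z ∉ S ω ∧ ∃ u ∈ S ω, Op G (ω ∪ σ) u z) * ind (Conn G (R \ S ω) (ω ∪ σ) z v))
        (fun _ _ => zero_le) hzR)
      rw [ind_pos hc, ind_pos hz, ind_pos ⟨hzS, u, hu, hop⟩, mul_one]
  · rw [ind_neg hc]; exact zero_le

end Vale.Agent.P165
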