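import Mathlib
import Vale.Agent.P165.Renew
import Vale.Agent.P165.CombC
import Vale.Agent.P165.Pat

/-!
The marked two-point function `T0`: basic facts.
-/

open scoped ENNReal

namespace Vale.Agent.P165

variable {V : Type*} [DecidableEq V] {G : SimpleGraph V} [G.LocallyFinite] {q : ℝ≥0∞}
  {a : List V → ℝ≥0∞}

section E2

variable {W : Finset V} {f g : Finset (Sym2 V) → Finset (List V) → ℝ≥0∞}

theorem E2_mono (h : ∀ ω m, ω ⊆ EP G W → m ⊆ LL W → f ω m ≤ g ω m) :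
    E2 G q a W f ≤ E2 G q a W g := by
  exact Ex_mono fun ω hω => Ex_mono fun m hm => h ω m hω hm

theorem E2_congr (h : ∀ ω m, ω ⊆ EP G W → m ⊆ LL W → f ω m = g ω m) :
    E2 G q a W f = E2 G q a W g := by
  exact Ex_congr fun ω hω => Ex_congr fun m hm => h ω m hω hm

theorem E2_add (f g : Finset (Sym2 V) → Finset (List V) → ℝ≥0∞) :
    E2 G q a W (fun ω m => f ω m + g ω m) = E2 G q a W f + E2 G q a W g := by
  simp only [E2, Ex_add]

theorem E2_mul_left (c : ℝ≥0∞) (f : Finset (Sym2 V) → Finset (List V) → ℝ≥0∞) :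
    E2 G q a W (fun ω m => c * f ω m) = c * E2 G q a W f := by
  simp only [E2, Ex_mul_left]

theorem E2_mul_right (c : ℝ≥0∞) (f : Finset (Sym2 V) → Finset (List V) → ℝ≥0∞) :
    E2 G q a W (fun ω m => f ω m * c) = E2 G q a W f * c := by
  simp only [E2, Ex_mul_right]

theorem E2_sum {κ : Type*} (s : Finset κ) (f : κ → Finset (Sym2 V) → Finset (List V) → ℝ≥0∞) :
    E2 G q a W (fun ω m => ∑ i ∈ s, f i ω m) = ∑ i ∈ s, E2 G q a W (f i) := by
  simp only [E2, Ex_sum]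

theorem E2_tsum {κ : Type*} (f : κ → Finset (Sym2 V) → Finset (List V) → ℝ≥0∞) :
    E2 G q a W (fun ω m => ∑' i, f i ω m) = ∑' i, E2 G q a W (f i) := by
  simp only [E2, Ex_tsum]

theorem E2_const (hq : q ≤ 1) (ha : ∀ η, a η ≤ 1) (c : ℝ≥0∞) :
    E2 G q a W (fun _ _ => c) = c := by
  simp only [E2, Ex_const ha, Ex_const fun _ => hq]

theorem E2_comm (f : Finset (Sym2 V) → Finset (List V) → ℝ≥0∞) :
    E2 G q a W f = Ex a (LL W) fun m => Ex (fun _ => q) (EP G W) fun ω => f ω m := by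
  exact Ex_comm _ _ _ _ _


/-- `Ex_ext` twice -/
theorem E2_ext (hq : q ≤ 1) (ha : ∀ η, a η ≤ 1) {R : Finset V} (h : R ⊆ W)
    (hf : ∀ ω ω' m m', (∀ e ∈ EP G R, (e ∈ ω ↔ e ∈ ω')) → (∀ σ ∈ LL R, (σ ∈ m ↔ σ ∈ m')) →
      f ω m = f ω' m') : E2 G q a W f = E2 G q a R f := by
  have h1 : ∀ ω, Ex a (LL W) (fun m => f ω m) = Ex a (LL R) fun m => f ω m := fun ω =>
    Ex_ext ha (D := (LL R : Set (List V)))
      (fun m m' hm => hf ω ω m m' (fun _ _ => Iff.rfl) hm)
      fun e he => ⟨fun _ => he, fun _ => LL_mono h he⟩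
  simp only [E2, h1]
  exact Ex_ext (fun _ => hq) (D := (EP G R : Set (Sym2 V)))
    (fun ω ω' hω => Ex_congr fun m _ => hf ω ω' m m hω fun _ _ => Iff.rfl)
    fun e he => ⟨fun _ => he, fun _ => EP_mono h he⟩


end E2

theorem t0_eq (hq : q ≤ 1) (ha : ∀ η, a η ≤ 1) {R W : Finset V} (h : R ⊆ W) (x u : V) :
    E2 G q a W (fun ω m => ind (u ∈ K0 G R x ω m)) = t0 G q a R x u := by
  exact E2_ext hq ha h fun ω ω' m m' h1 h2 => by rw [K0_dep h1 h2]

theorem t0_mono (hq : q ≤ 1) (ha : ∀ η, a η ≤ 1) {R R' : Finset V} (h : R ⊆ R') :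
    t0 G q a R ≤ t0 G q a R' := by
  intro x u
  rw [← t0_eq hq ha h]
  exact E2_mono fun ω m _ _ => ind_mono fun hu => K0_mono h subset_rfl subset_rfl hu

theorem t0_le_T0 (q : ℝ≥0∞) (a : List V → ℝ≥0∞) (R : Finset V) : t0 G q a R ≤ T0 G q a := by
  exact fun x u => le_iSup (fun R => t0 G q a R x u) R

theorem t0_le_tc (ha : ∀ η, a η ≤ 1) (R : Finset V) : t0 G q a R ≤ tc G q R := by
  exact fun x u => Ex_mono fun ω _ => Ex_le_const ha fun m _ => ind_mono K0_conn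

theorem T0_le_TT (ha : ∀ η, a η ≤ 1) : T0 G q a ≤ TT G q := by
  exact fun x u => iSup_mono fun R => t0_le_tc ha R x u

theorem t0_eq_zero {R : Finset V} {x u : V} (h : u ∉ R) : t0 G q a R x u = 0 := by
  have : ∀ ω m, ind (u ∈ K0 G R x ω m) = 0 := fun ω m => ind_neg fun hu => h (K0_subset hu)
  simp only [t0, E2, this, Ex_zero]

theorem t0_symm (R : Finset V) (x u : V) : t0 G q a R x u = t0 G q a R u x := by
  exact E2_congr fun ω m _ _ => ind_congr ⟨K0_symm, K0_symm⟩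

theorem T0_symm (x u : V) : T0 G q a x u = T0 G q a u x := by
  exact iSup_congr fun R => t0_symm R x u

theorem t0_self (hq : q ≤ 1) (ha : ∀ η, a η ≤ 1) {R : Finset V} {x : V} (h : x ∈ R) :
    t0 G q a R x x = 1 := by
  rw [← E2_const (G := G) (W := R) hq ha 1]
  exact E2_congr fun ω m _ _ => ind_pos (self_mem_K0 h)

theorem t0_image (hinv : ∀ (φ : G ≃g G) (η : List V), a (η.map φ) = a η) (φ : G ≃g G)
    (R : Finset V) (x u : V) : t0 G q a (R.image φ) (φ x) (φ u) = t0 G q a R x u := by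
  simp only [t0, E2]
  rw [EP_image, LL_image, Ex_image (Sym2.map.injective φ.injective)]
  refine Ex_congr fun ω _ => ?_
  rw [Ex_image (List.map_injective_iff.2 φ.injective)]
  simp only [hinv]
  exact Ex_congr fun m _ => ind_congr (K0_image φ)

theorem T0_inv (hinv : ∀ (φ : G ≃g G) (η : List V), a (η.map φ) = a η) : KInv G (T0 G q a) := by
  have h : ∀ (φ : G ≃g G) x u, T0 G q a x u ≤ T0 G q a (φ x) (φ u) := fun φ x u =>
    iSup_le fun R => (t0_image hinv φ R x u).ge.trans (t0_le_T0 q a _ _ _)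
  intro φ x u
  refine le_antisymm ?_ (h φ x u)
  simpa using h φ.symm (φ x) (φ u)

theorem tsum_T0 (hq : q ≤ 1) (ha : ∀ η, a η ≤ 1) (x : V) (g : V → ℝ≥0∞) :
    ∑' u, g u * T0 G q a x u = ⨆ R : Finset V, ∑' u, g u * t0 G q a R x u := by
  simp only [T0, ENNReal.mul_iSup]
  exact tsum_iSup_dir _ fun R R' => ⟨R ∪ R', fun u =>
    ⟨mul_le_mul_right (t0_mono hq ha Finset.subset_union_left x u) _,
      mul_le_mul_right (t0_mono hq ha Finset.subset_union_right x u) _⟩⟩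


theorem E2_sum_K0 (R : Finset V) (y : V) (g : V → ℝ≥0∞) :
    E2 G q a R (fun ω m => ∑ u ∈ K0 G R y ω m, g u) = ∑' u, g u * t0 G q a R y u := by
  simp only [sum_eq_tsum_ind, E2_tsum, E2_mul_right]
  exact tsum_congr fun u => mul_comm _ _


theorem nn_eq (φ : Ker V) (R : Finset V) (y : V) :
    nn G q a φ R y = ∑' u, φ y u ^ 2 * t0 G q a R y u := E2_sum_K0 R y _

theorem nn_ne_top (hq : q ≤ 1) (ha : ∀ η, a η ≤ 1) {φ : Ker V} (hφ : ∀ y u, φ y u ≤ 1)
    (R : Finset V) (y : V) : nn G q a φ R y ≠ ⊤ := by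
  refine Ex_ne_top (fun _ => hq) fun ω _ => Ex_ne_top ha fun m _ => ?_
  exact ENNReal.sum_ne_top.2 fun u _ =>
    ENNReal.pow_ne_top (ne_top_of_le_ne_top ENNReal.one_ne_top (hφ y u))


theorem le_nn (hq : q ≤ 1) (ha : ∀ η, a η ≤ 1) (φ : Ker V) {R : Finset V} {y : V} (hy : y ∈ R) :
    φ y y ^ 2 ≤ nn G q a φ R y := by
  refine const_le_Ex (fun _ => hq) fun ω _ => const_le_Ex ha fun m _ => ?_
  exact Finset.single_le_sum (f := fun u => φ y u ^ 2) (fun _ _ => zero_le) (self_mem_K0 hy)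


theorem wR_eq (hq : q ≤ 1) {η : List V} {W : Finset V} (h : ∀ v ∈ η, v ∈ W) :
    Ex (fun _ => q) (EP G W) (fun ω => ind (Tube G ω η)) = wR G q η := by
  exact Ex_ext (fun _ => hq) (D := (Eta G η : Set (Sym2 V)))
    (fun ω ω' hω => ind_congr (tube_congr hω))
    fun e he => ⟨fun _ => he, fun _ => Eta_subset_EP h he⟩

theorem wR_reverse (q : ℝ≥0∞) (η : List V) : wR G q η.reverse = wR G q η := by
  simp only [wR, Eta_reverse, tube_reverse]

theorem wR_map (q : ℝ≥0∞) (φ : G ≃g G) (η : List V) : wR G q (η.map φ) = wR G q η := by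
  rw [wR, Eta_image, Ex_image (Sym2.map.injective φ.injective)]
  exact Ex_congr fun ω _ => ind_congr (tube_image φ)

theorem wR_le_one (hq : q ≤ 1) (η : List V) : wR G q η ≤ 1 := by
  exact Ex_le_const (fun _ => hq) fun ω _ => ind_le_one _

/-- `exists_tube`, `wt_mul_le_Ex`, `card_Eta_le` -/
theorem le_wR (hq : q ≤ 1) {D : ℕ} (hD : ∀ x, G.degree x ≤ D) {η : List V}
    (hc : η.IsChain G.Adj) : min q (1 - q) ^ (D * η.length) ≤ wR G q η := by
  obtain ⟨ω, hω, hT⟩ := exists_tube hc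
  refine le_trans ?_ (wt_mul_le_Ex hω _ _)
  rw [ind_pos hT, mul_one]
  refine (pow_le_pow_of_le_one zero_le ((min_le_left _ _).trans hq) (card_Eta_le hD η)).trans ?_
  rw [← Finset.prod_const]
  refine Finset.prod_le_prod' fun e _ => ?_
  split_ifs
  · exact min_le_left _ _
  · exact min_le_right _ _


/-- `Ex_indep` with `D = Eta η` -/
theorem Ex_tube (hq : q ≤ 1) {η : List V} {W : Finset V} (h : ∀ v ∈ η, v ∈ W)
    (g : Finset (Sym2 V) → ℝ≥0∞) :
    Ex (fun _ => q) (EP G W) (fun ω => ind (Tube G ω η) * g (ω \ Eta G η)) =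
      wR G q η * Ex (fun _ => q) (EP G W) (fun ω => g (ω \ Eta G η)) := by
  rw [← wR_eq hq h]
  refine Ex_indep (fun _ => hq) (D := (Eta G η : Set (Sym2 V)))
    (fun ω ω' hω => ind_congr (tube_congr hω)) fun ω ω' hω => congrArg g ?_
  ext e
  rw [Finset.mem_sdiff, Finset.mem_sdiff]
  exact and_congr_left fun he => hω e he


end Vale.Agent.P165
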