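import Mathlib
import Vale.Agent.P165.PercB

/-!
The marked two-point function `T0`: entry, robustness, and the comparison with `TT`.
-/

open scoped ENNReal

namespace Vale.Agent.P165

variable {V : Type*} [DecidableEq V] {G : SimpleGraph V} [G.LocallyFinite] {q : ℝ≥0∞}
  {a : List V → ℝ≥0∞}

/-- `entry`, `Ex_insert_le`, `Ex_sdiff_le` with `t` the lists of `LL R` through `y` -/
theorem entry_step (hq : q ≤ 1) (ha : ∀ η, a η ≤ 1) {y x : V}
    (hs : 2 * ∑' η : List V, ind (y ∈ η) * a η ≤ 1) {R : Finset V} (hy : y ∈ R)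
    (hadj : G.Adj y x) (u : V) : q * t0 G q a R x u ≤ 2 * t0 G q a R y u := by
  classical
  have ht : (LL R).filter (fun η => y ∈ η) ⊆ LL R := Finset.filter_subset _ _
  have h2 : 2 * ∑ η ∈ (LL R).filter (fun η => y ∈ η), a η ≤ 1 := by
    refine le_trans (mul_le_mul_right ?_ 2) hs
    rw [sum_eq_tsum_ind]
    exact ENNReal.tsum_le_tsum fun η =>
      mul_le_mul_left (ind_mono fun h => (Finset.mem_filter.1 h).2) _
  have h1 : t0 G q a R x u ≤ Ex (fun _ => q) (EP G R) fun ω =>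
      2 * Ex a (LL R) fun m => ind (u ∈ K0 G R y (insert s(y, x) ω) m) := by
    refine Ex_mono fun ω _ => le_trans (Ex_mono fun m hm => ind_mono fun h => ?_)
      (Ex_sdiff_le ha ht h2 fun m => ind (u ∈ K0 G R y (insert s(y, x) ω) m))
    refine K0_mono subset_rfl subset_rfl (fun σ hσ => ?_) (entry hy hadj h)
    obtain ⟨h3, h4⟩ := Finset.mem_sdiff.1 hσ
    refine mem_mOff.2 ⟨h3, fun v hv hv' => h4 (Finset.mem_filter.2 ⟨hm h3, ?_⟩)⟩
    rwa [List.mem_singleton.1 hv] at hv'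
  rw [Ex_mul_left] at h1
  calc q * t0 G q a R x u ≤ q * (2 * Ex (fun _ => q) (EP G R) fun ω =>
        Ex a (LL R) fun m => ind (u ∈ K0 G R y (insert s(y, x) ω) m)) := mul_le_mul_right h1 _
    _ = 2 * (q * Ex (fun _ => q) (EP G R) fun ω =>
        Ex a (LL R) fun m => ind (u ∈ K0 G R y (insert s(y, x) ω) m)) := mul_left_comm _ _ _
    _ ≤ 2 * t0 G q a R y u :=
      mul_le_mul_right (Ex_insert_le (p := fun _ => q) (fun _ => hq) (mk_mem_EP hadj hy)
        fun ω => Ex a (LL R) fun m => ind (u ∈ K0 G R y ω m)) _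

/-- `bk_split` and `bk` for each fixed set of marks -/
theorem robust (hq : q ≤ 1) (ha : ∀ η, a η ≤ 1) (W A : Finset V) (x u : V) :
    t0 G q a W x u ≤ t0 G q a (W \ A) x u + ∑ z ∈ A, TT G q x z * T0 G q a z u := by
  have h1 : t0 G q a W x u ≤ E2 G q a W fun ω m => ind (u ∈ K0 G (W \ A) x ω m) +
      ∑ z ∈ A, ind (∃ I I', I ⊆ ω ∧ I' ⊆ ω ∧ Disjoint I I' ∧ Conn G W I x z ∧
        u ∈ K0 G W z I' m) := by
    refine E2_mono fun ω m _ _ => ?_
    refine le_trans (ind_mono fun h => ?_)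
      ((ind_or_le _ _).trans (add_le_add_right (ind_exists_le A _) _))
    by_cases h' : u ∈ K0 G (W \ A) x ω m
    · exact Or.inl h'
    · exact Or.inr (bk_split h h')
  rw [E2_add, t0_eq hq ha Finset.sdiff_subset, E2_sum] at h1
  refine h1.trans (add_le_add_right (Finset.sum_le_sum fun z _ => ?_) _)
  rw [E2_comm]
  have h2 : ∀ m : Finset (List V), Ex (fun _ => q) (EP G W) (fun ω =>
      ind (∃ I I', I ⊆ ω ∧ I' ⊆ ω ∧ Disjoint I I' ∧ Conn G W I x z ∧ u ∈ K0 G W z I' m)) ≤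
      tc G q W x z * Ex (fun _ => q) (EP G W) fun ω => ind (u ∈ K0 G W z ω m) := fun m =>
    bk (p := fun _ => q) (fun _ => hq) (EP G W) (X := fun I => Conn G W I x z)
      (Y := fun I => u ∈ K0 G W z I m) (fun _ _ h hc => hc.mono subset_rfl h)
      fun _ _ h hc => K0_mono subset_rfl h subset_rfl hc
  refine (Ex_mono fun m _ => h2 m).trans ?_
  rw [Ex_mul_left, ← E2_comm]
  exact mul_le_mul' (tc_le_TT q W x z) (t0_le_T0 q a W z u)

private theorem tube_mark (hq : q ≤ 1) (ha : ∀ η, a η ≤ 1) {R : Finset V} {σ : List V}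
    (hσ : ∀ v ∈ σ, v ∈ R) (τ : List V) (x u : V) :
    E2 G q a R (fun ω m => ind (τ ∈ m) * (ind (Tube G ω σ) *
      ind (u ∈ K0 G R x (ω \ Eta G σ) m))) ≤ a τ * wR G q σ * t0 G q a R x u := by
  have h1 : ∀ ω : Finset (Sym2 V), Ex a (LL R) (fun m => ind (τ ∈ m) * (ind (Tube G ω σ) *
      ind (u ∈ K0 G R x (ω \ Eta G σ) m))) ≤ a τ * (ind (Tube G ω σ) *
        Ex a (LL R) fun m => ind (u ∈ K0 G R x (ω \ Eta G σ) m)) := fun ω => by
    rw [← Ex_mul_left a (LL R) (ind (Tube G ω σ))]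
    exact Ex_mem_anti ha (LL R) τ fun m m' h =>
      mul_le_mul_right (ind_mono fun h' => K0_mono subset_rfl subset_rfl h h') _
  refine (Ex_mono fun ω _ => h1 ω).trans ?_
  rw [Ex_mul_left, Ex_tube hq hσ fun ω => Ex a (LL R) fun m => ind (u ∈ K0 G R x ω m), mul_assoc]
  refine mul_le_mul_right (mul_le_mul_right (Ex_mono fun ω _ => Ex_mono fun m _ => ?_) _) _
  exact ind_mono fun h => K0_mono subset_rfl Finset.sdiff_subset subset_rfl h

omit [DecidableEq V] in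
private theorem PiK_rev (π : List V → ℝ≥0∞) (u z : V) :
    ∑' σ : List V, ind (σ.head? = some u ∧ σ.getLast? = some z) * π σ.reverse = PiK π z u := by
  unfold PiK
  rw [← (List.reverse_involutive.toPerm _).tsum_eq]
  refine tsum_congr fun σ => ?_
  simp only [Function.Involutive.coe_toPerm, List.head?_reverse, List.getLast?_reverse,
    List.reverse_reverse]
  rw [ind_congr and_comm]

/-- probability that `z` is a frontier vertex: `frontier`, a union bound over `σ`,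
`Ex_mem_anti` for the mark, `Ex_tube`, `wR_reverse`, `mul_w` -/
theorem frontier_prob {k : ℕ} {π : List V → ℝ≥0∞} {s cst ε₁ : ℝ≥0∞}
    (hM : IsMark G q k π a s cst ε₁) (hq : q ≤ 1) (R : Finset V) (x z : V) :
    E2 G q a R (fun ω m => ind (z ∈ Kp G R x ω m ∧ z ∉ K0 G R x ω m)) ≤
      cst * ∑' u, t0 G q a R x u * (PiK π u z + PiK π z u) := by
  have h1 : E2 G q a R (fun ω m => ind (z ∈ Kp G R x ω m ∧ z ∉ K0 G R x ω m)) ≤
      E2 G q a R fun ω m => ∑' u, ∑' σ : List V,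
        ind ((σ.head? = some u ∧ σ.getLast? = some z) ∧ ∀ v ∈ σ, v ∈ R) *
          (ind (σ ∈ m) * (ind (Tube G ω σ) * ind (u ∈ K0 G R x (ω \ Eta G σ) m)) +
            ind (σ.reverse ∈ m) * (ind (Tube G ω σ) * ind (u ∈ K0 G R x (ω \ Eta G σ) m))) := by
    refine E2_mono fun ω m _ _ => ?_
    by_cases h : z ∈ Kp G R x ω m ∧ z ∉ K0 G R x ω m
    · obtain ⟨σ, u, -, h2, -, h3, h4, h5, h6, h7⟩ := frontier h.1 h.2
      refine le_trans ?_ (ENNReal.le_tsum u)
      refine le_trans ?_ (ENNReal.le_tsum σ)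
      rw [ind_pos h, ind_pos ⟨⟨h3, h4⟩, h2⟩, ind_pos h6, ind_pos h7, one_mul, mul_one, mul_one,
        mul_one]
      exact (ind_pos h5).ge.trans (ind_or_le _ _)
    · rw [ind_neg h]; exact zero_le
  refine h1.trans ?_
  rw [E2_tsum, ← ENNReal.tsum_mul_left]
  refine ENNReal.tsum_le_tsum fun u => ?_
  rw [E2_tsum, ← PiK_rev π u z]
  unfold PiK
  rw [← ENNReal.tsum_add, ← ENNReal.tsum_mul_left, ← ENNReal.tsum_mul_left]
  refine ENNReal.tsum_le_tsum fun σ => ?_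
  rw [E2_mul_left]
  by_cases h : (σ.head? = some u ∧ σ.getLast? = some z) ∧ ∀ v ∈ σ, v ∈ R
  · rw [ind_pos h, ind_pos h.1, one_mul, one_mul, one_mul, E2_add]
    refine (add_le_add (tube_mark hq hM.le_one h.2 σ x u)
      (tube_mark hq hM.le_one h.2 σ.reverse x u)).trans (le_of_eq ?_)
    rw [hM.mul_w σ, ← wR_reverse q σ, hM.mul_w σ.reverse]
    ring
  · rw [ind_neg h, zero_mul]; exact zero_le

private theorem Ex_p_zero_c {ι : Type*} [DecidableEq ι] (J : Finset ι) (f : Finset ι → ℝ≥0∞) :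
    Ex (fun _ => 0) J f = f ∅ := by
  induction J using Finset.induction_on with
  | empty => exact Ex_empty _ _
  | insert e J he ih => rw [Ex_insert he, ih, tsub_zero, one_mul, zero_mul, add_zero]

/-- for each fixed `m` apply `renewal` with `δ = 0` and `S ω = K0 R x ω m` (`K0_local`); average
over `m`; use `frontier_prob` -/
theorem U_ineq {k : ℕ} {π : List V → ℝ≥0∞} {s cst ε₁ : ℝ≥0∞}
    (hM : IsMark G q k π a s cst ε₁) (hq : q ≤ 1) :
    TT G q ≤ T0 G q a + cst • kmul (kmul (T0 G q a) (PiK π + ktr (PiK π))) (TT G q) := by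
  intro x v
  refine iSup_le fun R => ?_
  have h1 : ∀ m : Finset (List V), tc G q R x v ≤
      Ex (fun _ => q) (EP G R) (fun ω => ind (v ∈ K0 G R x ω m)) +
        ∑ z ∈ R, Ex (fun _ => q) (EP G R)
          (fun ω => ind (z ∈ Kp G R x ω m ∧ z ∉ K0 G R x ω m)) * tc G q R z v := fun m => by
    refine (renewal (p := q) (δ := 0) hq zero_le (by rw [mul_zero, add_zero]) R x v
      (fun ω => K0 G R x ω m) (fun ω hx => self_mem_K0 hx) fun ω ω' h => ?_).trans ?_
    · exact K0_local (fun b hb c => and_congr_right fun _ => h _ ⟨b, hb, Sym2.mem_mk_left b c⟩)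
        fun _ _ _ => Iff.rfl
    · refine add_le_add_right (Finset.sum_le_sum fun z hz => mul_le_mul_left ?_ _) _
      refine Ex_mono fun ω _ => ?_
      rw [Ex_p_zero_c, Finset.union_empty]
      exact ind_mono fun h => ⟨mem_Kp.2 ⟨hz, Or.inr h.2⟩, h.1⟩
  have h2 := const_le_Ex (J := LL R) hM.le_one fun m _ => h1 m
  rw [Ex_add, Ex_sum, ← E2_comm] at h2
  refine h2.trans (add_le_add (t0_le_T0 q a R x v) ?_)
  simp only [Pi.smul_apply, smul_eq_mul, kmul]
  rw [← ENNReal.tsum_mul_left]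
  refine le_trans (Finset.sum_le_sum fun z _ => ?_) (ENNReal.sum_le_tsum R)
  rw [Ex_mul_right, ← E2_comm, ← mul_assoc]
  refine mul_le_mul' ((frontier_prob hM hq R x z).trans (mul_le_mul_right ?_ _)) (tc_le_TT q R z v)
  exact ENNReal.tsum_le_tsum fun u => mul_le_mul_left (t0_le_T0 q a R x u) _

theorem Env.nw_TT_le (E : Env G) {k : ℕ} {π : List V → ℝ≥0∞} {s cst ε₁ : ℝ≥0∞}
    (hπ : E.IsPat k π) (hM : IsMark G q k π a s cst ε₁) (hq : q ≤ 1)
    (h : 2 * cst * (E.ρ ^ k * E.CH) * E.nw 6 (TT G q) ≤ 1) :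
    E.nw 6 (TT G q) ≤ 2 * E.nw 6 (T0 G q a) := by
  have h1 : E.nw 6 (PiK π + ktr (PiK π)) ≤ 2 * (E.ρ ^ k * E.CH) := by
    refine (E.nw_add_le 6 _ _).trans ?_
    rw [E.nw_ktr, two_mul]
    exact add_le_add hπ.nw_le hπ.nw_le
  refine ((E.nw_mono 6 (U_ineq hM hq)).trans (E.nw_add_le 6 _ _)).trans ?_
  rw [two_mul, E.nw_smul]
  refine add_le_add_right ?_ _
  calc cst * E.nw 6 (kmul (kmul (T0 G q a) (PiK π + ktr (PiK π))) (TT G q))
      ≤ cst * (E.nw 6 (T0 G q a) * (2 * (E.ρ ^ k * E.CH)) * E.nw 6 (TT G q)) :=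
        mul_le_mul_right ((E.nw_kmul_le 6 _ _).trans (mul_le_mul_left
          ((E.nw_kmul_le 6 _ _).trans (mul_le_mul_right h1 _)) _)) _
    _ = E.nw 6 (T0 G q a) * (2 * cst * (E.ρ ^ k * E.CH) * E.nw 6 (TT G q)) := by ring
    _ ≤ E.nw 6 (T0 G q a) := mul_le_of_le_one_right' h

/-- take `a η = s * c₁ ^ (k+2) * π η / wR q η`, using `le_wR`, `IsPat.le`, `IsPat.through_le` -/
theorem Env.exists_mark (E : Env G) {k : ℕ} {π : List V → ℝ≥0∞} (hπ : E.IsPat k π) (hq : q ≤ 1)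
    {c₁ s ε₁ : ℝ≥0∞} (hc₁ : c₁ ≠ 0) (hc : c₁ ≤ min q (1 - q) ^ E.D) (hs : s * E.CH ^ 2 ≤ 1)
    (hs' : ((k : ℝ≥0∞) + 2) * (s * (((E.D : ℝ≥0∞) + 1) ^ (k + 1) * E.CH ^ 2)) ≤ ε₁) :
    ∃ a : List V → ℝ≥0∞, IsMark G q k π a s (s * c₁ ^ (k + 2)) ε₁ := by
  have hw : ∀ η, π η ≠ 0 → c₁ ^ (k + 2) ≤ wR G q η := fun η h => by
    obtain ⟨-, h1, -, h2⟩ := hπ.supp η h
    refine le_trans ?_ (le_wR hq E.deg_le h1)
    refine (pow_le_pow_left' hc _).trans ?_
    rw [← pow_mul]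
    exact pow_le_pow_right_of_le_one' ((min_le_left _ _).trans hq) (Nat.mul_le_mul_left _ h2)
  have hle : ∀ η, s * c₁ ^ (k + 2) * π η / wR G q η ≤ s * π η := fun η => by
    by_cases h : π η = 0
    · rw [h, mul_zero, ENNReal.zero_div]; exact zero_le
    · refine ENNReal.div_le_of_le_mul ?_
      rw [mul_right_comm]
      exact mul_le_mul_right (hw η h) _
  refine ⟨fun η => s * c₁ ^ (k + 2) * π η / wR G q η, fun η => ?_, fun φ η => ?_, fun η => ?_,
    hle, fun v => ?_⟩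
  · exact (hle η).trans ((mul_le_mul_right (hπ.le η) s).trans hs)
  · rw [hπ.inv, wR_map]
  · by_cases h : π η = 0
    · rw [h, mul_zero, ENNReal.zero_div, zero_mul]
    · refine ENNReal.div_mul_cancel (fun h0 => ?_)
        (ne_top_of_le_ne_top ENNReal.one_ne_top (wR_le_one hq η))
      exact pow_ne_zero _ hc₁ (le_antisymm (h0 ▸ hw η h) zero_le)
  · refine le_trans (mul_le_mul_right ?_ _) hs'
    refine le_trans ?_ (mul_le_mul_right (hπ.through_le v) s)
    rw [← ENNReal.tsum_mul_left]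
    refine ENNReal.tsum_le_tsum fun η => ?_
    rw [mul_left_comm]
    exact mul_le_mul_right (hle η) _

end Vale.Agent.P165
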