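import Mathlib
import Vale.Agent.P165.PercC

/-!
The weighted size of the explored set is large unless the root is close to the deleted set.
-/

open scoped ENNReal

namespace Vale.Agent.P165

variable {V : Type*} [DecidableEq V] {G : SimpleGraph V} [G.LocallyFinite]

theorem entry_nn_mono {q : ℝ≥0∞} {a : List V → ℝ≥0∞} (hq : q ≤ 1) (ha : ∀ η, a η ≤ 1) (φ : Ker V)
    {R R' : Finset V} (h : R ⊆ R') (x : V) : nn G q a φ R x ≤ nn G q a φ R' x := by
  rw [nn_eq, nn_eq]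
  exact ENNReal.tsum_le_tsum fun u => mul_le_mul_right (t0_mono hq ha h x u) _

theorem entry_nn_image {q : ℝ≥0∞} {a : List V → ℝ≥0∞} {φ : Ker V} (hφ : KInv G φ)
    (hinv : ∀ (ψ : G ≃g G) (η : List V), a (η.map ψ) = a η) (ψ : G ≃g G) (R : Finset V) (x : V) :
    nn G q a φ (R.image ψ) (ψ x) = nn G q a φ R x := by
  rw [nn_eq, nn_eq, ← ψ.toEquiv.tsum_eq]
  exact tsum_congr fun u => congrArg₂ (· * ·) (congrArg (· ^ 2) (hφ ψ x u)) (t0_image hinv ψ R x u)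

namespace Env

variable (E : Env G) {q ce φ₀ : ℝ≥0∞} {a : List V → ℝ≥0∞} {φ : Ker V}

theorem entry_ce_le (hq : q ≤ 1) (hce : ce * (2 * E.r ^ 4) ≤ q) : ce ≤ 1 :=
  (le_mul_of_one_le_right' (one_le_mul one_le_two (one_le_pow_of_one_le' E.one_le_r 4))).trans
    (hce.trans hq)

theorem entry_left (hφ : E.IsWin φ φ₀) (x z u : V) : φ x u ^ 2 ≤ E.w1 x z ^ 4 * φ z u ^ 2 := by
  refine (pow_le_pow_left' (hφ.left x z u) 2).trans (le_of_eq ?_)
  ring

/-- `nn_eq`, `entry_step`, and `φ x u ^ 2 ≤ r ^ 4 * φ y u ^ 2` -/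
theorem nn_step (hφ : E.IsWin φ φ₀) (hq : q ≤ 1) (ha : ∀ η, a η ≤ 1)
    (hs : ∀ v, 2 * ∑' η : List V, ind (v ∈ η) * a η ≤ 1) (hce : ce * (2 * E.r ^ 4) ≤ q)
    {R : Finset V} {y x : V} (hy : y ∈ R) (hx : x = y ∨ G.Adj y x) :
    ce * nn G q a φ R x ≤ nn G q a φ R y := by
  rcases hx with rfl | hadj
  · exact mul_le_of_le_one_left' (E.entry_ce_le hq hce)
  rw [nn_eq, nn_eq, ← ENNReal.tsum_mul_left]
  refine ENNReal.tsum_le_tsum fun u => ?_
  have h1 : φ x u ^ 2 ≤ E.r ^ 4 * φ y u ^ 2 :=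
    (E.entry_left hφ x y u).trans
      (mul_le_mul_left (pow_le_pow_left' (E.w1_adj hadj.symm) 4) _)
  have h2 := entry_step hq ha (hs y) hy hadj u
  refine (ENNReal.mul_le_mul_iff_right (a := 2) two_ne_zero ENNReal.ofNat_ne_top).1 ?_
  calc 2 * (ce * (φ x u ^ 2 * t0 G q a R x u))
      ≤ 2 * (ce * (E.r ^ 4 * φ y u ^ 2 * t0 G q a R x u)) := by gcongr
    _ = φ y u ^ 2 * (ce * (2 * E.r ^ 4) * t0 G q a R x u) := by ring
    _ ≤ φ y u ^ 2 * (q * t0 G q a R x u) := by gcongr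
    _ ≤ φ y u ^ 2 * (2 * t0 G q a R y u) := by gcongr
    _ = 2 * (φ y u ^ 2 * t0 G q a R y u) := by ring

theorem nn_kill (hφ : E.IsWin φ φ₀) (hq : q ≤ 1) (ha : ∀ η, a η ≤ 1)
    (hs : ∀ v, 2 * ∑' η : List V, ind (v ∈ η) * a η ≤ 1) (hce : ce * (2 * E.r ^ 4) ≤ q)
    (R : Finset V) (j : ℕ) (y : V) :
    ce ^ j * ∑' x, kpow (fun a b => ind (a ∈ R) * E.P a b) j y x * nn G q a φ R x ≤
      nn G q a φ R y := by
  induction j generalizing y with
  | zero =>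
    rw [pow_zero, one_mul]
    exact (tsum_ind_eq y fun x => nn G q a φ R x).le
  | succ j ih =>
    have e : ∑' x, kpow (fun a b => ind (a ∈ R) * E.P a b) (j + 1) y x * nn G q a φ R x =
        ∑' z, ind (y ∈ R) * E.P y z *
          ∑' x, kpow (fun a b => ind (a ∈ R) * E.P a b) j z x * nn G q a φ R x := by
      simp only [kpow, kmul, ← ENNReal.tsum_mul_right, ← ENNReal.tsum_mul_left, mul_assoc]
      exact ENNReal.tsum_comm
    rw [e, ← ENNReal.tsum_mul_left, ← one_mul (nn G q a φ R y), ← E.P_row y,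
      ← ENNReal.tsum_mul_right]
    refine ENNReal.tsum_le_tsum fun z => ?_
    by_cases hy : y ∈ R
    swap
    · rw [ind_neg hy, zero_mul, zero_mul, mul_zero]
      exact zero_le
    by_cases hz : E.P y z = 0
    · rw [hz, mul_zero, zero_mul, mul_zero]
      exact zero_le
    have h1 := E.nn_step hφ hq ha hs hce hy (x := z) ((E.P_supp hz).imp Eq.symm id)
    rw [ind_pos hy, one_mul, mul_left_comm, pow_succ', mul_assoc]
    exact mul_le_mul_right ((mul_le_mul_right (ih z) ce).trans h1) _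

theorem entry_chain (hφ : E.IsWin φ φ₀) (hq : q ≤ 1) (ha : ∀ η, a η ≤ 1)
    (hs : ∀ v, 2 * ∑' η : List V, ind (v ∈ η) * a η ≤ 1) (hce : ce * (2 * E.r ^ 4) ≤ q)
    {R : Finset V} (x : V) (d : ℕ) (hR : ball G x d ⊆ R) {z : V} (hz : z ∈ ball G x d) :
    ce ^ d * nn G q a φ R z ≤ nn G q a φ R x := by
  induction d generalizing z with
  | zero => rw [Finset.mem_singleton.1 hz, pow_zero, one_mul]
  | succ d ih =>
    have hR' : ball G x d ⊆ R := (ball_mono x (Nat.le_succ d)).trans hR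
    rw [pow_succ, mul_assoc]
    rcases mem_ball_succ_iff.1 hz with h | ⟨y, hy, hadj⟩
    · exact (mul_le_mul_right (E.nn_step hφ hq ha hs hce (hR' h) (Or.inl rfl)) _).trans (ih hR' h)
    · exact (mul_le_mul_right (E.nn_step hφ hq ha hs hce (hR' hy) (Or.inr hadj)) _).trans
        (ih hR' hy)

/-- `tsum_T0` gives `x₀`, `R₀` with `g ≤ 2 * nn R₀ x₀`; `R₀ ⊆ ball x₀ L₀`; transport by an
automorphism `φ x₀ ∈ ball x D0` (`t0_image`, `t0_mono`), then `D0` steps of `nn_step` inside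
`ball x (D0 + L₀)` -/
theorem nn_ball (hφ : E.IsWin φ φ₀) (hq : q ≤ 1) (ha : ∀ η, a η ≤ 1)
    (hinv : ∀ (ψ : G ≃g G) (η : List V), a (η.map ψ) = a η)
    (hs : ∀ v, 2 * ∑' η : List V, ind (v ∈ η) * a η ≤ 1) (hce : ce * (2 * E.r ^ 4) ≤ q)
    (hg : (⨆ y, ∑' u, φ y u ^ 2 * T0 G q a y u) ≠ ⊤) :
    ∃ L₁, ∀ x, ce ^ E.D0 * (⨆ y, ∑' u, φ y u ^ 2 * T0 G q a y u) ≤
      2 * nn G q a φ (ball G x L₁) x := by
  set g := ⨆ y, ∑' u, φ y u ^ 2 * T0 G q a y u with hgdef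
  by_cases h0 : g = 0
  · exact ⟨0, fun x => by rw [h0, mul_zero]; exact zero_le⟩
  have hlt : g / 2 < g := ENNReal.half_lt_self h0 hg
  obtain ⟨x₀, hx₀⟩ := lt_iSup_iff.1 (hlt.trans_eq hgdef)
  rw [tsum_T0 hq ha] at hx₀
  obtain ⟨R₀, hR₀⟩ := lt_iSup_iff.1 hx₀
  rw [← nn_eq] at hR₀
  have hg2 : g ≤ 2 * nn G q a φ R₀ x₀ := by
    rw [← ENNReal.add_halves g, two_mul]
    exact add_le_add hR₀.le hR₀.le
  obtain ⟨L₀, hL₀⟩ := E.exists_subset_ball x₀ R₀
  refine ⟨E.D0 + L₀, fun x => ?_⟩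
  obtain ⟨ψ, hψ⟩ := E.near x x₀
  have hsub : R₀.image ψ ⊆ ball G x (E.D0 + L₀) := fun v hv => by
    obtain ⟨w, hw, rfl⟩ := Finset.mem_image.1 hv
    exact mem_ball_trans hψ ((mem_ball_map ψ).2 (hL₀ hw))
  have h1 : nn G q a φ R₀ x₀ ≤ nn G q a φ (ball G x (E.D0 + L₀)) (ψ x₀) :=
    (entry_nn_image hφ.inv hinv ψ R₀ x₀).ge.trans (entry_nn_mono hq ha φ hsub _)
  have h2 := E.entry_chain hφ hq ha hs hce x E.D0 (ball_mono x (Nat.le_add_right _ L₀)) hψ
  calc ce ^ E.D0 * g ≤ ce ^ E.D0 * (2 * nn G q a φ (ball G x (E.D0 + L₀)) (ψ x₀)) :=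
        mul_le_mul_right (hg2.trans (mul_le_mul_right h1 _)) _
    _ = 2 * (ce ^ E.D0 * nn G q a φ (ball G x (E.D0 + L₀)) (ψ x₀)) := mul_left_comm _ _ _
    _ ≤ _ := mul_le_mul_right h2 _

/-- `robust` and `IsWin.left` -/
theorem nn_robust (hφ : E.IsWin φ φ₀) (hq : q ≤ 1) (ha : ∀ η, a η ≤ 1) (W A : Finset V) (x : V) :
    nn G q a φ W x ≤ nn G q a φ (W \ A) x +
      (⨆ y, ∑' u, φ y u ^ 2 * T0 G q a y u) * ∑ z ∈ A, TT G q x z * E.w1 x z ^ 4 := by
  rw [nn_eq, nn_eq]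
  calc ∑' u, φ x u ^ 2 * t0 G q a W x u
      ≤ ∑' u, (φ x u ^ 2 * t0 G q a (W \ A) x u +
          ∑ z ∈ A, TT G q x z * E.w1 x z ^ 4 * (φ z u ^ 2 * T0 G q a z u)) := by
        refine ENNReal.tsum_le_tsum fun u => (mul_le_mul_right (robust hq ha W A x u) _).trans ?_
        rw [mul_add, Finset.mul_sum]
        refine add_le_add le_rfl (Finset.sum_le_sum fun z _ => ?_)
        calc φ x u ^ 2 * (TT G q x z * T0 G q a z u)
            ≤ E.w1 x z ^ 4 * φ z u ^ 2 * (TT G q x z * T0 G q a z u) :=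
              mul_le_mul_left (E.entry_left hφ x z u) _
          _ = _ := by ring
    _ ≤ _ := by
        rw [ENNReal.tsum_add, Summable.tsum_finsetSum fun _ _ => ENNReal.summable, Finset.mul_sum]
        refine add_le_add le_rfl (Finset.sum_le_sum fun z _ => ?_)
        rw [ENNReal.tsum_mul_left, mul_comm]
        exact mul_le_mul_left (le_iSup (fun y => ∑' u, φ y u ^ 2 * T0 G q a y u) z) _

/-- With `R = ball y L \ A` and `c₂ = ce ^ D0 / 2`: for `x ∈ ball y j`,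
`c₂ g ≤ nn R x + g * ∑_{z ∈ A} T x z * w1 x z ^ 4`; average against the killed walk
(`one_le_kill_add_hit`, `nn_kill`; the killed walk is dominated by `kpow P j`). -/
theorem entry_ineq (hφ : E.IsWin φ φ₀) (hq : q ≤ 1) (ha : ∀ η, a η ≤ 1)
    (hinv : ∀ (ψ : G ≃g G) (η : List V), a (η.map ψ) = a η)
    (hs : ∀ v, 2 * ∑' η : List V, ind (v ∈ η) * a η ≤ 1) (hce : ce * (2 * E.r ^ 4) ≤ q)
    {g : ℝ≥0∞} (hg : g = ⨆ y, ∑' u, φ y u ^ 2 * T0 G q a y u) (hg' : g ≠ ⊤) :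
    ∃ L₁, ∀ (j L : ℕ) (A : Finset V) (y : V), j + L₁ ≤ L →
      ce ^ j * (ce ^ E.D0 / 2 * g) ≤ nn G q a φ (ball G y L \ A) y +
        ce ^ j * (g * ∑ z ∈ A, kmul (kpow E.P j) (fun a b => TT G q a b * E.w1 a b ^ 4) y z +
          ce ^ E.D0 / 2 * g * E.hit A y) := by
  obtain ⟨L₁, hL₁⟩ := E.nn_ball hφ hq ha hinv hs hce (hg ▸ hg')
  refine ⟨L₁, fun j L A y hL => ?_⟩
  rw [← hg] at hL₁
  set R := ball G y L \ A with hR
  set c := ce ^ E.D0 / 2 * g with hc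
  set K := kpow (fun a b => ind (a ∈ R) * E.P a b) j with hK
  have hKP : K ≤ kpow E.P j := kpow_mono (fun a b => ind_mul_le _ _) j
  have h1 : ∀ x ∈ ball G y j,
      c ≤ nn G q a φ R x + g * ∑ z ∈ A, TT G q x z * E.w1 x z ^ 4 := fun x hx => by
    have h2 : c ≤ nn G q a φ (ball G x L₁) x := by
      refine (ENNReal.mul_le_mul_iff_right (a := 2) two_ne_zero ENNReal.ofNat_ne_top).1 ?_
      refine le_trans (le_of_eq ?_) (hL₁ x)
      rw [hc, ← mul_assoc, ENNReal.mul_div_cancel two_ne_zero ENNReal.ofNat_ne_top]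
    have h3 : ball G x L₁ ⊆ ball G y L := fun v hv => ball_mono y hL (mem_ball_trans hx hv)
    refine h2.trans ((entry_nn_mono hq ha φ h3 x).trans ?_)
    rw [hg]
    exact E.nn_robust hφ hq ha _ A x
  have h4 : 1 ≤ ∑' x, K y x + E.hit A y :=
    E.one_le_kill_add_hit A R j y fun v hv hA =>
      Finset.mem_sdiff.2 ⟨ball_mono y ((Nat.le_add_right _ _).trans hL) hv, hA⟩
  have h5 : c * ∑' x, K y x ≤ ∑' x, K y x * nn G q a φ R x +
      g * ∑ z ∈ A, kmul (kpow E.P j) (fun a b => TT G q a b * E.w1 a b ^ 4) y z := by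
    have e : g * ∑ z ∈ A, kmul (kpow E.P j) (fun a b => TT G q a b * E.w1 a b ^ 4) y z =
        ∑' x, kpow E.P j y x * (g * ∑ z ∈ A, TT G q x z * E.w1 x z ^ 4) := by
      simp only [kmul]
      rw [← Summable.tsum_finsetSum fun _ _ => ENNReal.summable, ← ENNReal.tsum_mul_left]
      refine tsum_congr fun x => ?_
      rw [← Finset.mul_sum, mul_left_comm]
    rw [e, ← ENNReal.tsum_add, ← ENNReal.tsum_mul_left]
    refine ENNReal.tsum_le_tsum fun x => ?_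
    by_cases hx : kpow E.P j y x = 0
    · rw [le_antisymm ((hKP y x).trans hx.le) zero_le, mul_zero]
      exact zero_le
    rw [mul_comm]
    refine (mul_le_mul_right (h1 x (E.kpow_P_supp hx)) _).trans ?_
    rw [mul_add]
    exact add_le_add le_rfl (mul_le_mul_left (hKP y x) _)
  calc ce ^ j * c ≤ ce ^ j * (c * (∑' x, K y x + E.hit A y)) :=
        mul_le_mul_right (le_mul_of_one_le_right' h4) _
    _ ≤ ce ^ j * (∑' x, K y x * nn G q a φ R x +
          g * ∑ z ∈ A, kmul (kpow E.P j) (fun a b => TT G q a b * E.w1 a b ^ 4) y z +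
          c * E.hit A y) := by
        rw [mul_add c]
        exact mul_le_mul_right (add_le_add h5 le_rfl) _
    _ ≤ _ := by
        rw [add_assoc, mul_add]
        exact add_le_add (E.nn_kill hφ hq ha hs hce R j y) le_rfl

end Env

end Vale.Agent.P165
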