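import Mathlib
import Vale.Agent.P165.GeoA

/-!
The modular function and the mass-transport principle.
-/

open scoped ENNReal

namespace Vale.Agent.P165

variable {V : Type*} [DecidableEq V] {G : SimpleGraph V} [G.LocallyFinite]

/-- one representative for each orbit -/
theorem exists_transversal (hq : QuasiTransitive G) :
    ∃ reps : Finset V, (∀ x, ∃ a ∈ reps, ∃ φ : G ≃g G, φ a = x) ∧
      ∀ a ∈ reps, ∀ b ∈ reps, ∀ φ : G ≃g G, φ a = b → a = b := by
  obtain ⟨S, hS, h⟩ := hq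
  let st := MulAction.orbitRel (G ≃g G) V
  have hout : ∀ x, ∃ φ : G ≃g G, φ x = (Quotient.mk st x).out := fun x =>
    (Quotient.exact (Quotient.out_eq (Quotient.mk st x)) : _ ∈ MulAction.orbit (G ≃g G) x)
  refine ⟨hS.toFinset.image fun a => (Quotient.mk st a).out, fun x => ?_, ?_⟩
  · obtain ⟨a, ha, φ, hφ⟩ := h x
    obtain ⟨ψ, hψ⟩ := hout a
    refine ⟨_, Finset.mem_image_of_mem _ (hS.mem_toFinset.2 ha), ψ.symm.trans φ, ?_⟩
    rw [← hψ, RelIso.trans_apply, RelIso.symm_apply_apply, hφ]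
  · intro a ha b hb φ hφ
    obtain ⟨a, -, rfl⟩ := Finset.mem_image.1 ha
    obtain ⟨b, -, rfl⟩ := Finset.mem_image.1 hb
    have h1 : Quotient.mk st (Quotient.mk st b).out = Quotient.mk st (Quotient.mk st a).out :=
      Quotient.sound (⟨φ, hφ⟩ : _ ∈ MulAction.orbit (G ≃g G) _)
    rw [Quotient.out_eq, Quotient.out_eq] at h1
    rw [h1]

/-- every vertex is within a bounded distance of every orbit -/
theorem exists_near (hc : G.Preconnected) (reps : Finset V)
    (cover : ∀ x, ∃ a ∈ reps, ∃ φ : G ≃g G, φ a = x) :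
    ∃ D0, ∀ x y, ∃ φ : G ≃g G, φ y ∈ ball G x D0 := by
  choose L hL using exists_mem_ball hc
  refine ⟨(reps ×ˢ reps).sup fun q => L q.1 q.2, fun x y => ?_⟩
  obtain ⟨a, ha, φ, rfl⟩ := cover x
  obtain ⟨b, hb, ψ, rfl⟩ := cover y
  refine ⟨ψ.symm.trans φ, ?_⟩
  rw [RelIso.trans_apply, RelIso.symm_apply_apply]
  exact (mem_ball_map φ).2 (ball_mono a (Finset.le_sup (f := fun q : V × V => L q.1 q.2)
    (Finset.mk_mem_product ha hb)) (hL a b))

/-- bounded degree -/
theorem exists_deg (reps : Finset V) (cover : ∀ x, ∃ a ∈ reps, ∃ φ : G ≃g G, φ a = x) :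
    ∃ D : ℕ, 0 < D ∧ ∀ x, G.degree x ≤ D := by
  refine ⟨reps.sup (fun a => G.degree a) + 1, Nat.succ_pos _, fun x => ?_⟩
  obtain ⟨a, ha, φ, rfl⟩ := cover x
  rw [φ.degree_eq]
  exact (Finset.le_sup (f := fun a => G.degree a) ha).trans (Nat.le_succ _)

namespace ModAux

variable (G) in
/-- the orbit of `y` under the stabiliser of `x` -/
def orb (x y : V) : Set V := {z | ∃ φ : G ≃g G, φ x = x ∧ φ y = z}

omit [DecidableEq V] [G.LocallyFinite] in
theorem self_mem_orb (x y : V) : y ∈ orb G x y := ⟨RelIso.refl _, rfl, rfl⟩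

theorem orb_finite (hc : G.Preconnected) (x y : V) : (orb G x y).Finite := by
  obtain ⟨L, hL⟩ := exists_mem_ball hc x y
  refine (ball G x L).finite_toSet.subset ?_
  rintro _ ⟨φ, h, rfl⟩
  have h1 := (mem_ball_map φ).2 hL
  rwa [h] at h1

omit [DecidableEq V] [G.LocallyFinite] in
theorem orb_map (ψ : G ≃g G) (x y : V) : orb G (ψ x) (ψ y) = ψ '' orb G x y := by
  ext z
  constructor
  · rintro ⟨φ, h1, rfl⟩
    refine ⟨ψ.symm (φ (ψ y)), ⟨(ψ.trans φ).trans ψ.symm, ?_, rfl⟩, ψ.apply_symm_apply _⟩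
    rw [RelIso.trans_apply, RelIso.trans_apply, h1, RelIso.symm_apply_apply]
  · rintro ⟨_, ⟨φ, h1, rfl⟩, rfl⟩
    refine ⟨(ψ.symm.trans φ).trans ψ, ?_, ?_⟩
    · rw [RelIso.trans_apply, RelIso.trans_apply, RelIso.symm_apply_apply, h1]
    · rw [RelIso.trans_apply, RelIso.trans_apply, RelIso.symm_apply_apply]

omit [DecidableEq V] [G.LocallyFinite] in
theorem ncard_orb_map (ψ : G ≃g G) (x y : V) :
    (orb G (ψ x) (ψ y)).ncard = (orb G x y).ncard := by
  rw [orb_map, Set.ncard_image_of_injective _ ψ.injective]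

omit [DecidableEq V] [G.LocallyFinite] in
theorem ncard_orb (x y : V) : (orb G x y).ncard =
    (MulAction.stabilizer (G ≃g G) y).relIndex (MulAction.stabilizer (G ≃g G) x) := by
  have h1 : orb G x y = MulAction.orbit (MulAction.stabilizer (G ≃g G) x) y := by
    ext z
    exact ⟨fun ⟨φ, h1, h2⟩ => ⟨⟨φ, h1⟩, h2⟩, fun ⟨φ, h⟩ => ⟨φ.1, φ.2, h⟩⟩
  rw [h1, ← MulAction.index_stabilizer]
  rfl

theorem ncard_orb_ne (hc : G.Preconnected) (x y : V) : (orb G x y).ncard ≠ 0 :=
  Set.ncard_ne_zero_of_mem (self_mem_orb x y) (orb_finite hc x y)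

theorem div_eq_div {a b c : ℕ} (hc : c ≠ 0) :
    ((c * a : ℕ) : ℝ≥0∞) / ((c * b : ℕ) : ℝ≥0∞) = (a : ℝ≥0∞) / b := by
  rw [Nat.cast_mul, Nat.cast_mul]
  exact ENNReal.mul_div_mul_left _ _ (Nat.cast_ne_zero.2 hc) (ENNReal.natCast_ne_top c)

theorem ratio {Γ : Type*} [Group Γ] {A B S : Subgroup Γ} (hA : S ≤ A) (hB : S ≤ B)
    (h : S.relIndex A ≠ 0) : ((A.relIndex B : ℕ) : ℝ≥0∞) / (B.relIndex A : ℕ) =
      ((S.relIndex B : ℕ) : ℝ≥0∞) / (S.relIndex A : ℕ) := by
  have h1 := Subgroup.relIndex_mul_relIndex S (A ⊓ B) A (le_inf hA hB) inf_le_left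
  have h2 := Subgroup.relIndex_mul_relIndex S (A ⊓ B) B (le_inf hA hB) inf_le_right
  rw [Subgroup.inf_relIndex_left] at h1
  rw [Subgroup.inf_relIndex_right] at h2
  rw [← h1] at h
  rw [← h1, ← h2, div_eq_div (left_ne_zero_of_mul h)]

omit [DecidableEq V] in
theorem tsum_ind_mem {s : Set V} (hs : s.Finite) : ∑' x, ind (x ∈ s) = (s.ncard : ℝ≥0∞) := by
  classical
  rw [tsum_eq_sum (s := hs.toFinset) fun x hx => ind_neg (mt hs.mem_toFinset.2 hx),
    Finset.sum_congr rfl fun x hx => ind_pos (hs.mem_toFinset.1 hx), Finset.sum_const,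
    nsmul_one, Set.ncard_eq_toFinset_card s hs]

theorem count (hc : G.Preconnected) {reps : Finset V}
    (cover : ∀ x, ∃ a ∈ reps, ∃ φ : G ≃g G, φ a = x)
    (huniq : ∀ a ∈ reps, ∀ b ∈ reps, ∀ φ : G ≃g G, φ a = b → a = b) (u v : V) :
    ∑ b ∈ reps, ∑' x, ind (∃ φ : G ≃g G, φ u = x ∧ φ v = b) = ((orb G v u).ncard : ℝ≥0∞) := by
  obtain ⟨b₀, hb₀, ψ, rfl⟩ := cover v
  obtain ⟨u, rfl⟩ := ψ.surjective u
  rw [Finset.sum_eq_single b₀ (fun b hb hne => ?_) fun h => absurd hb₀ h, ncard_orb_map,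
    ← tsum_ind_mem (orb_finite hc b₀ u)]
  · refine tsum_congr fun x => ind_congr ⟨?_, ?_⟩
    · rintro ⟨φ, h1, h2⟩
      exact ⟨ψ.trans φ, h2, h1⟩
    · rintro ⟨φ, h1, h2⟩
      refine ⟨ψ.symm.trans φ, ?_, ?_⟩
      · rw [RelIso.trans_apply, RelIso.symm_apply_apply, h2]
      · rw [RelIso.trans_apply, RelIso.symm_apply_apply, h1]
  · refine ENNReal.tsum_eq_zero.2 fun x => ind_neg ?_
    rintro ⟨φ, -, h2⟩
    exact hne (huniq b₀ hb₀ b hb (ψ.trans φ) h2).symm

end ModAux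

open ModAux

/-- The modular function. Let `o x y` be the (finite, positive) number of points `φ y` with
`φ x = x` (they lie in a ball around `x`; for neighbours they lie in the neighbour set), and
`Δ x y = o y x / o x y`. Cocycle: `o x y` is the relative index of the stabilisers
(`Subgroup.relIndex`, group `G ≃g G` or its image in `Equiv.Perm V`); with `S` the intersection of
three stabilisers, `[Γx : S] = o x y * [Γxy : S]` and `[Γy : S] = o y x * [Γxy : S]`.
Mass transport by double counting over pairs `(a, y)`, `(x, b)` (`a`, `b` representatives) in the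
same orbit of pairs: `(a, y)` has `o y a` partners and `(x, b)` has `o x b` partners. -/
theorem exists_mod (hc : G.Preconnected) {D : ℕ} (hD : ∀ x, G.degree x ≤ D) (reps : Finset V)
    (cover : ∀ x, ∃ a ∈ reps, ∃ φ : G ≃g G, φ a = x)
    (huniq : ∀ a ∈ reps, ∀ b ∈ reps, ∀ φ : G ≃g G, φ a = b → a = b) :
    ∃ Δ : Ker V, (∀ x, Δ x x = 1) ∧ (∀ x y z, Δ x y * Δ y z = Δ x z) ∧ KInv G Δ ∧
      (∀ x y, G.Adj x y → Δ x y ≤ D) ∧
      ∀ F : Ker V, KInv G F →
        ∑ a ∈ reps, ∑' y, F a y * Δ a y = ∑ b ∈ reps, ∑' x, F x b := by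
  have hne : ∀ x y, (((orb G x y).ncard : ℕ) : ℝ≥0∞) ≠ 0 := fun x y =>
    Nat.cast_ne_zero.2 (ncard_orb_ne hc x y)
  refine ⟨fun x y => ((orb G y x).ncard : ℝ≥0∞) / ((orb G x y).ncard : ℝ≥0∞),
    fun x => ENNReal.div_self (hne x x) (ENNReal.natCast_ne_top _), fun x y z => ?_,
    fun φ x y => by simp only [ncard_orb_map], fun x y hxy => ?_, fun F hF => ?_⟩
  · have h0 : ∀ w, (MulAction.stabilizer (G ≃g G) x ⊓ MulAction.stabilizer (G ≃g G) y ⊓
        MulAction.stabilizer (G ≃g G) z).relIndex (MulAction.stabilizer (G ≃g G) w) ≠ 0 :=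
      fun w => Subgroup.relIndex_inf_ne_zero (Subgroup.relIndex_inf_ne_zero
        (ncard_orb (G := G) w x ▸ ncard_orb_ne hc w x)
        (ncard_orb (G := G) w y ▸ ncard_orb_ne hc w y))
        (ncard_orb (G := G) w z ▸ ncard_orb_ne hc w z)
    simp only [ncard_orb]
    rw [ratio (inf_le_left.trans inf_le_left) (inf_le_left.trans inf_le_right) (h0 x),
      ratio (inf_le_left.trans inf_le_right) inf_le_right (h0 y),
      ratio (inf_le_left.trans inf_le_left) inf_le_right (h0 x), mul_comm, div_eq_mul_inv,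
      div_eq_mul_inv, div_eq_mul_inv, mul_assoc, ← mul_assoc _ ((_ : ℕ) : ℝ≥0∞),
      ENNReal.inv_mul_cancel (Nat.cast_ne_zero.2 (h0 y)) (ENNReal.natCast_ne_top _), one_mul]
  · have h1 : (orb G y x).ncard ≤ D := by
      refine le_trans ?_ (hD y)
      rw [← SimpleGraph.card_neighborFinset_eq_degree, ← Set.ncard_coe_finset]
      refine Set.ncard_le_ncard ?_ (Finset.finite_toSet _)
      rintro _ ⟨φ, h, rfl⟩
      have h2 := φ.map_adj_iff.2 hxy.symm
      rw [h] at h2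
      exact (SimpleGraph.mem_neighborFinset _ _ _).2 h2
    refine ENNReal.div_le_of_le_mul ((Nat.cast_le.2 h1).trans (le_mul_of_one_le_right' ?_))
    exact_mod_cast Nat.pos_of_ne_zero (ncard_orb_ne hc x y)
  · calc ∑ a ∈ reps, ∑' y, F a y * (((orb G y a).ncard : ℝ≥0∞) / ((orb G a y).ncard : ℝ≥0∞))
        = ∑ a ∈ reps, ∑' y, ∑ b ∈ reps, ∑' x, ind (∃ φ : G ≃g G, φ a = x ∧ φ y = b) *
            (F x b / ((orb G x b).ncard : ℝ≥0∞)) := by
          refine Finset.sum_congr rfl fun a _ => tsum_congr fun y => ?_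
          rw [← count hc cover huniq a y, div_eq_mul_inv, mul_left_comm, Finset.sum_mul]
          refine Finset.sum_congr rfl fun b _ => ?_
          rw [← ENNReal.tsum_mul_right]
          refine tsum_congr fun x => ?_
          by_cases h : ∃ φ : G ≃g G, φ a = x ∧ φ y = b
          · obtain ⟨φ, rfl, rfl⟩ := h
            rw [hF φ, ncard_orb_map, div_eq_mul_inv]
          · rw [ind_neg h, zero_mul, zero_mul]
      _ = ∑ b ∈ reps, ∑' x, ∑ a ∈ reps, ∑' y, ind (∃ φ : G ≃g G, φ a = x ∧ φ y = b) *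
            (F x b / ((orb G x b).ncard : ℝ≥0∞)) := by
          simp only [Summable.tsum_finsetSum fun _ _ => ENNReal.summable]
          rw [Finset.sum_comm]
          exact Finset.sum_congr rfl fun b _ => Finset.sum_congr rfl fun a _ => ENNReal.tsum_comm
      _ = _ := by
          refine Finset.sum_congr rfl fun b _ => tsum_congr fun x => ?_
          simp only [ENNReal.tsum_mul_right]
          rw [← Finset.sum_mul]
          have h1 : ∑ a ∈ reps, ∑' y, ind (∃ φ : G ≃g G, φ a = x ∧ φ y = b) =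
              ((orb G x b).ncard : ℝ≥0∞) := by
            rw [← count hc cover huniq b x]
            refine Finset.sum_congr rfl fun a _ => tsum_congr fun y => ind_congr ⟨?_, ?_⟩
            · rintro ⟨φ, rfl, rfl⟩
              exact ⟨φ.symm, φ.symm_apply_apply _, φ.symm_apply_apply _⟩
            · rintro ⟨φ, rfl, rfl⟩
              exact ⟨φ.symm, φ.symm_apply_apply _, φ.symm_apply_apply _⟩
          rw [h1, ENNReal.mul_div_cancel (hne x b) (ENNReal.natCast_ne_top _)]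

end Vale.Agent.P165
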