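import Mathlib
import Vale.Agent.P165.Cheeger
import Vale.Agent.P165.Mod

/-!
Existence of `Env`.
-/

open scoped ENNReal

namespace Vale.Agent.P165

variable {V : Type*} [DecidableEq V] {G : SimpleGraph V} [G.LocallyFinite]

/-- Take `ρ = (1 + nrm P)/2`, `τ = Δ ^ (1/(2n))`, `r = D ^ (1/(2n))` (real powers in `ℝ≥0∞`)
with `n ≥ 12` so large that `r ≤ ϱ` and `r ^ 6 * nrm P ≤ ρ`. -/
theorem exists_env (hc : G.Preconnected) (hq : QuasiTransitive G) (hN : Nonamenable G) :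
    ∃ (D : ℕ) (ρ : ℝ≥0∞), ρ < 1 ∧ ρ ≠ 0 ∧ ∀ ϱ : ℝ≥0∞, 1 < ϱ →
      ∃ E : Env G, E.D = D ∧ E.ρ = ρ ∧ E.r ≤ ϱ := by
  obtain ⟨reps, cover, huniq⟩ := exists_transversal hq
  obtain ⟨D0, hD0⟩ := exists_near hc reps cover
  obtain ⟨D, hD, hdeg⟩ := exists_deg reps cover
  obtain ⟨Δ, h1, h2, h3, h4, h5⟩ := exists_mod hc hdeg reps cover huniq
  obtain ⟨ρ, hρ1, hρ2⟩ := exists_between (cheeger hN hD hdeg)
  refine ⟨D, ρ, hρ2, (zero_le.trans_lt hρ1).ne', fun ϱ hϱ => ?_⟩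
  have hcont : Continuous fun t : ℝ≥0∞ => t ^ 6 * nrm (Pk G D) :=
    (ENNReal.continuous_mul_const (hρ1.trans hρ2).ne_top).comp (ENNReal.continuous_pow 6)
  have e1 : ∀ᶠ t in nhds (1 : ℝ≥0∞), t ^ 6 * nrm (Pk G D) < ρ :=
    hcont.continuousAt.eventually_lt_const (by simpa using hρ1)
  have e2 : ∀ᶠ t in nhdsWithin (1 : ℝ≥0∞) (Set.Ioi 1),
      (t ^ 6 * nrm (Pk G D) < ρ ∧ t < ϱ) ∧ 1 < t :=
    ((e1.and (eventually_lt_nhds hϱ)).filter_mono nhdsWithin_le_nhds).and self_mem_nhdsWithin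
  obtain ⟨t, ⟨ht1, ht2⟩, ht3⟩ := e2.exists
  have ht4 : t ≠ ⊤ := ht2.ne_top
  obtain ⟨m, hm⟩ : ∃ m : ℕ, (D : ℝ≥0∞) ≤ t ^ m := by
    lift t to NNReal using ht4
    obtain ⟨m, hm⟩ := pow_unbounded_of_one_lt (D : NNReal) (by exact_mod_cast ht3 : (1 : NNReal) < t)
    exact ⟨m, by exact_mod_cast hm.le⟩
  have hn : 2 * (m + 12) ≠ 0 := by omega
  have hpos : (0 : ℝ) ≤ ((2 * (m + 12) : ℕ) : ℝ)⁻¹ := by positivity
  refine ⟨⟨D, hD, hdeg, reps, cover, D0, hD0, exists_mem_ball hc, m + 12, Nat.le_add_left _ _,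
    fun x y => Δ x y ^ ((2 * (m + 12) : ℕ) : ℝ)⁻¹, fun x => ?_, fun x y z => ?_, fun φ x y => ?_,
    t, ht3.le, ht4, fun x y hxy => ?_, fun F hF => ?_, ρ, (zero_le.trans_lt hρ1).ne', hρ2, ht1.le⟩,
    rfl, rfl, ht2.le⟩
  · rw [h1, ENNReal.one_rpow]
  · rw [← ENNReal.mul_rpow_of_nonneg _ _ hpos, h2]
  · simp only [h3 φ x y]
  · rw [← ENNReal.pow_rpow_inv_natCast hn t]
    exact ENNReal.rpow_le_rpow ((h4 x y hxy).trans (hm.trans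
      (pow_le_pow_right₀ ht3.le (by omega)))) hpos
  · simp only [ENNReal.rpow_inv_natCast_pow hn]
    exact h5 F hF

end Vale.Agent.P165
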