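import Mathlib
import Vale.Agent.P165.PercA

/-!
The trace size of the two-point function (the supermultiplicativity trick of Schramm).
-/

open scoped ENNReal

namespace Vale.Agent.P165

variable {V : Type*} [DecidableEq V] {G : SimpleGraph V} [G.LocallyFinite]

theorem loop_le_of_pow {x y S : ℝ≥0∞} (hS : S ≠ ⊤) (h : ∀ j : ℕ, x ^ j ≤ y ^ j * S) : x ≤ y := by
  by_contra hc
  have hlt : y < x := not_le.1 hc
  have hx0 : x ≠ 0 := (zero_le.trans_lt hlt).ne'
  have hx1 : x ≠ ⊤ := by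
    have := h 1
    rw [pow_one, pow_one] at this
    exact ne_top_of_le_ne_top (ENNReal.mul_ne_top hlt.ne_top hS) this
  have h1 : y / x < 1 := by
    rw [ENNReal.div_lt_iff (Or.inl hx0) (Or.inl hx1), one_mul]
    exact hlt
  have h2 := ENNReal.Tendsto.mul_const (ENNReal.tendsto_pow_atTop_nhds_zero_of_lt_one h1)
    (Or.inr hS)
  rw [zero_mul] at h2
  refine absurd (ge_of_tendsto' h2 fun j => ?_) (not_le.2 zero_lt_one)
  have e : (y / x) ^ j * S = y ^ j * S / x ^ j := by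
    rw [div_eq_mul_inv, div_eq_mul_inv, mul_pow, ENNReal.inv_pow]
    ring
  rw [e, ENNReal.le_div_iff_mul_le (Or.inl (pow_ne_zero _ hx0)) (Or.inl (ENNReal.pow_ne_top hx1)),
    one_mul]
  exact h j

/-- If `lam ≤ ∑ T a b * Z a b` for all `a` and `T` is supermultiplicative then, by induction on
`j`, `lam ^ j ≤ ∑ T a b * Z^j a b ≤ ‖T a‖₂ * nrm Z ^ j` for all `a` (`row_sq_le`). Let `j → ∞`. -/
theorem pow_trick {T Z : Ker V} {lam : ℝ≥0∞} (hT : ∀ a b c, T a b * T b c ≤ T a c)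
    (h1 : ∀ a, 1 ≤ T a a) (a₀ : V) (hfin : ∑' b, T a₀ b ^ 2 ≠ ⊤)
    (hl : ∀ a, lam ≤ ∑' b, T a b * Z a b) : lam ≤ nrm Z := by
  have key : ∀ j : ℕ, ∀ a, lam ^ j ≤ ∑' b, T a b * kpow Z j a b := by
    intro j
    induction j with
    | zero =>
      intro a
      refine le_trans ?_ (ENNReal.le_tsum a)
      rw [pow_zero, kpow, kid, ind_pos rfl, mul_one]
      exact h1 a
    | succ j ih =>
      intro a
      calc lam ^ (j + 1) = lam * lam ^ j := pow_succ' _ _
        _ ≤ (∑' b, T a b * Z a b) * lam ^ j := mul_le_mul_left (hl a) _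
        _ = ∑' b, T a b * Z a b * lam ^ j := ENNReal.tsum_mul_right.symm
        _ ≤ ∑' b, ∑' c, T a c * (Z a b * kpow Z j b c) := by
            refine ENNReal.tsum_le_tsum fun b => (mul_le_mul_right (ih b) _).trans ?_
            rw [← ENNReal.tsum_mul_left]
            refine ENNReal.tsum_le_tsum fun c => le_trans (le_of_eq ?_)
              (mul_le_mul_left (hT a b c) _)
            ring
        _ = ∑' c, T a c * kpow Z (j + 1) a c := by
            rw [ENNReal.tsum_comm]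
            simp only [kpow, kmul, ENNReal.tsum_mul_left]
  have h2 : lam ^ 2 ≤ nrm Z ^ 2 := by
    refine loop_le_of_pow hfin fun j => ?_
    calc (lam ^ 2) ^ j = (lam ^ j) ^ 2 := by ring
      _ ≤ (∑' b, kpow Z j a₀ b * T a₀ b) ^ 2 := by
          refine pow_le_pow_left' ((key j a₀).trans (le_of_eq ?_)) 2
          simp only [mul_comm]
      _ ≤ nrm (kpow Z j) ^ 2 * ∑' b, T a₀ b ^ 2 := row_sq_le _ _ _
      _ ≤ (nrm Z ^ j) ^ 2 * ∑' b, T a₀ b ^ 2 :=
          mul_le_mul_left (pow_le_pow_left' (nrm_kpow_le Z j) 2) _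
      _ = _ := by ring
  exact (ENNReal.pow_le_pow_left_iff two_ne_zero).1 h2

namespace Env

variable (E : Env G)

/-- `T' a b = TT q a b * τ a b ^ i` is supermultiplicative, and square summable along rows since
`T'² ≤ TT + (TT * τ ^ (2n))²` (`tilt_bound`). For fixed `a`, apply `pow_trick` to
`kmul (ballK D0) Z`: every `a'` has a point `φ a` in `ball a' D0`, and
`T' a' (φ a) ≥ q₀ ^ D0 * (r ^ D0)⁻¹ ^ (2n)`. -/
theorem loop_row {q₀ : ℝ≥0∞} (h0 : q₀ ≠ 0) : ∃ C : ℝ≥0∞, C ≠ ⊤ ∧ ∀ q, Good G q → q₀ ≤ q →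
    ∀ i ≤ 2 * E.n, ∀ Z : Ker V, KInv G Z → ∀ a,
      ∑' b, TT G q a b * E.τ a b ^ i * Z a b ≤ C * nrm Z := by
  set s : ℝ≥0∞ := (E.r ^ E.D0)⁻¹ with hs
  have hs0 : s ≠ 0 := ENNReal.inv_ne_zero.2 (ENNReal.pow_ne_top E.r_ne_top)
  have hs1 : s ≤ 1 := ENNReal.inv_le_one.2 (one_le_pow₀ E.one_le_r)
  set κ : ℝ≥0∞ := q₀ ^ E.D0 * s ^ (2 * E.n) with hκ
  have hκ0 : κ ≠ 0 := mul_ne_zero (pow_ne_zero _ h0) (pow_ne_zero _ hs0)
  refine ⟨κ⁻¹ * ((E.D : ℝ≥0∞) + 1) ^ E.D0, ENNReal.mul_ne_top (ENNReal.inv_ne_top.2 hκ0)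
    (ENNReal.pow_ne_top (by simp)), fun q hq hq0 i hi Z hZ a => ?_⟩
  have hκ1 : κ ≠ ⊤ := ne_top_of_le_ne_top ENNReal.one_ne_top
    (mul_le_one' (pow_le_one' (hq0.trans hq.1) _) (pow_le_one' hs1 _))
  set T : Ker V := fun a b => TT G q a b * E.τ a b ^ i with hT
  have hTm : ∀ a b c, T a b * T b c ≤ T a c := fun a b c => by
    simp only [hT]
    rw [mul_mul_mul_comm, ← mul_pow, E.τ_mul]
    exact mul_le_mul_left (TT_mul_le hq.1 a b c) _
  have hT1 : ∀ a, 1 ≤ T a a := fun a => by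
    simp only [hT, TT_self hq.1, E.τ_self, one_pow, mul_one, le_refl]
  have hfin : ∑' b, T a b ^ 2 ≠ ⊤ := by
    obtain ⟨χ, hχ, hb⟩ := E.tilt_bound hq
    refine ne_top_of_le_ne_top (ENNReal.add_ne_top.2 ⟨hq.2 a, ENNReal.mul_ne_top hχ hχ⟩) ?_
    refine le_trans ?_ (add_le_add le_rfl (mul_le_mul_left (hb a) χ))
    rw [← ENNReal.tsum_mul_right, ← ENNReal.tsum_add]
    refine ENNReal.tsum_le_tsum fun b => ?_
    rcases le_total (E.τ a b) 1 with h | h
    · refine le_trans ?_ le_self_add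
      have h2 : T a b ≤ TT G q a b := mul_le_of_le_one_right' (pow_le_one' h _)
      rw [sq]
      exact (mul_le_mul' h2 (h2.trans (TT_le_one hq.1 a b))).trans (mul_one _).le
    · refine le_trans ?_ le_add_self
      have h2 : T a b ≤ TT G q a b * E.τ a b ^ (2 * E.n) :=
        mul_le_mul_right (pow_le_pow_right₀ h hi) _
      rw [sq]
      exact mul_le_mul' h2 (h2.trans ((ENNReal.le_tsum b).trans (hb a)))
  have hinv : KInv G fun a b => T a b * Z a b := ((TT_inv q).mul (E.τ_inv.pow i)).mul hZ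
  have h := pow_trick (Z := kmul (ballK G E.D0) Z) (lam := κ * ∑' b, T a b * Z a b) hTm hT1 a hfin
    fun a' => by
      obtain ⟨φ, hφ⟩ := E.near a' a
      have h2 : κ ≤ T a' (φ a) := by
        refine mul_le_mul' ((pow_le_pow_left' hq0 _).trans (pow_le_TT hq.1 hφ))
          ((pow_le_pow_right_of_le_one' hs1 hi).trans (pow_le_pow_left' ?_ i))
        rw [hs, ENNReal.eq_inv_of_mul_eq_one_left (E.τ_mul_symm a' (φ a))]
        exact ENNReal.inv_le_inv.2 (E.τ_ball (mem_ball_symm hφ))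
      rw [← hinv.row φ a, ← ENNReal.tsum_mul_left]
      refine ENNReal.tsum_le_tsum fun c => ?_
      rw [← mul_assoc]
      refine mul_le_mul' ((mul_le_mul_left h2 _).trans (hTm _ _ _)) ?_
      refine le_trans (le_of_eq ?_) (ENNReal.le_tsum (φ a))
      rw [ballK, ind_pos hφ, one_mul]
  have h3 := h.trans ((nrm_kmul_le _ _).trans (mul_le_mul_left (E.nrm_ballK_le E.D0) _))
  rw [mul_assoc]
  exact (ENNReal.mul_le_iff_le_inv hκ0 hκ1).1 h3

/-- `w1 ^ 4 ≤ τ a b ^ 4 + τ b a ^ 4`. With `F a u = X u a * ∑ K a b * Y u b`, bound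
`∑' a, F a u` by `col_le`, writing
`τ a u ^ (2n) = τ a u ^ (n-1) * τ a b ^ (n+1) * τ b u ^ (n+1)` and
`Z = kmul (ktr (tl (n-1) X)) (tl (n+1) Y)`; `loop_row` with `i = n + 5` and `i = n - 3`. -/
theorem exists_loop {q₀ : ℝ≥0∞} (h0 : q₀ ≠ 0) : ∃ C : ℝ≥0∞, C ≠ ⊤ ∧ ∀ q, Good G q → q₀ ≤ q →
    E.Tr (fun a b => TT G q a b * E.w1 a b ^ 4) C := by
  obtain ⟨C, hC, hrow⟩ := E.loop_row h0
  refine ⟨E.reps.card * (2 * C), ENNReal.mul_ne_top (by simp) (ENNReal.mul_ne_top (by simp) hC),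
    fun q hq hq0 X Y hX hY u => ?_⟩
  set K : Ker V := fun a b => TT G q a b * E.w1 a b ^ 4 with hK
  have hKi : KInv G K := (TT_inv q).mul (E.w1_inv.pow 4)
  set Z : Ker V := kmul (ktr (E.tl (E.n - 1) X)) (E.tl (E.n + 1) Y) with hZ
  have hZi : KInv G Z := (E.tl_inv _ hX).ktr.kmul (E.tl_inv _ hY)
  have hZn : nrm Z ≤ E.Np X * E.Nm Y :=
    (nrm_kmul_le _ _).trans (mul_le_mul' ((nrm_ktr _).le.trans (le_max_right _ _))
      (le_max_right _ _))
  have hn := E.n_ge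
  have h := E.col_le (F := fun a u => ktr X a u * kmul K (ktr Y) a u) (hX.ktr.mul (hKi.kmul hY.ktr))
    (m := 2 * C * (E.Np X * E.Nm Y)) (fun a => ?_) u
  · rw [kmul_assoc, mul_assoc, mul_assoc]
    exact h
  calc ∑' y, ktr X a y * kmul K (ktr Y) a y * E.τ a y ^ (2 * E.n)
      = ∑' b, K a b * E.τ a b ^ (E.n + 1) * Z a b := by
        simp only [hZ, kmul, ktr, tl, ← ENNReal.tsum_mul_left, ← ENNReal.tsum_mul_right]
        rw [ENNReal.tsum_comm]
        refine tsum_congr fun b => tsum_congr fun y => ?_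
        have e : E.τ a y ^ (2 * E.n)
            = E.τ a y ^ (E.n - 1) * (E.τ a b ^ (E.n + 1) * E.τ b y ^ (E.n + 1)) := by
          rw [← mul_pow, E.τ_mul, ← pow_add]
          congr 1
          omega
        rw [e]
        ring
    _ ≤ ∑' b, (TT G q a b * E.τ a b ^ (E.n + 5) * Z a b
          + TT G q a b * E.τ a b ^ (E.n - 3) * Z a b) := by
        refine ENNReal.tsum_le_tsum fun b => ?_
        rw [← add_mul, ← mul_add, hK, mul_assoc (TT G q a b)]
        refine mul_le_mul_left (mul_le_mul_right ?_ _) _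
        rcases max_choice (E.τ a b) (E.τ b a) with e | e
        · rw [w1, e, ← pow_add]
          exact le_trans (le_of_eq (by congr 1; omega)) le_self_add
        · have e2 : E.n + 1 = 4 + (E.n - 3) := by omega
          rw [w1, e, e2, pow_add, ← mul_assoc, ← mul_pow, E.τ_mul_symm, one_pow, one_mul]
          exact le_add_self
    _ ≤ C * nrm Z + C * nrm Z := by
        rw [ENNReal.tsum_add]
        exact add_le_add (hrow q hq hq0 _ (by omega) Z hZi a) (hrow q hq hq0 _ (by omega) Z hZi a)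
    _ ≤ _ := by
        rw [← two_mul, ← mul_assoc]
        exact mul_le_mul_right hZn _

end Env

end Vale.Agent.P165
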