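import Mathlib
import Vale.Agent.P165.Renew

/-!
The susceptibility threshold is below `1`, and boundedness of the operator norm is an open
condition.
-/

open scoped ENNReal

namespace Vale.Agent.P165

variable {V : Type*} [DecidableEq V] {G : SimpleGraph V} [G.LocallyFinite]

/-- Let `K` be the cluster of `x` in `R = ball x L`. For each edge `e`, the event that `e` meets
`K` is increasing, so `q * P(e ∉ ω, e meets K) ≤ (1 - q) * P(e ∈ ω, e meets K)` (`Ex_mem`,
`Ex_notMem`). The present edges meeting `K` number at most `D |K|`; each vertex of the boundary of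
`K` lies outside `R` and is reached by a present edge, or is the end of an absent edge meeting
`K`. The expected number of the former is at most `D * ∑_{u ∉ ball x (L-1)} TT q x u`, at most
`h / 2` for large `L` (`tail_small`), and `1 ≤ |K|`. So `q h ≤ 2 (1 - q) D`. -/
theorem Env.good_le [Nonempty V] (E : Env G) (hN : Nonamenable G) :
    ∃ q₁ : ℝ≥0∞, q₁ < 1 ∧ ∀ q, Good G q → q ≤ q₁ := by
  classical
  obtain ⟨h, hpos, hiso⟩ := hN
  set η : ℝ≥0∞ := ENNReal.ofReal h / 2 with hη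
  have hη0 : η ≠ 0 := by
    rw [hη]; exact (ENNReal.div_pos (ENNReal.ofReal_pos.2 hpos).ne' ENNReal.ofNat_ne_top).ne'
  have hη1 : η ≠ ⊤ := ENNReal.div_ne_top ENNReal.ofReal_ne_top two_ne_zero
  have hD0 : (E.D : ℝ≥0∞) ≠ 0 := by exact_mod_cast E.D_pos.ne'
  have hD1 : (E.D : ℝ≥0∞) ≠ ⊤ := ENNReal.natCast_ne_top _
  have hs0 : η + E.D ≠ 0 := by simp [hη0]
  have hs1 : η + E.D ≠ ⊤ := ENNReal.add_ne_top.2 ⟨hη1, hD1⟩
  refine ⟨E.D / (η + E.D), ?_, fun q hq => ?_⟩
  · rw [ENNReal.div_lt_iff (Or.inl hs0) (Or.inl hs1), one_mul, add_comm]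
    exact ENNReal.lt_add_right hD1 hη0
  have hq1 : q ≤ 1 := hq.1
  have hq' : ∀ e : Sym2 V, (fun _ => q) e ≤ 1 := fun _ => hq1
  obtain ⟨x⟩ := ‹Nonempty V›
  obtain ⟨L, hL⟩ := E.tail_small hq (δ := η / E.D) (ENNReal.div_pos hη0 hD1).ne'
  set R := ball G x (L + 1) with hR
  have hxR : x ∈ R := self_mem_ball x _
  set k : ℝ≥0∞ := ∑ a ∈ R, tc G q R x a with hk
  have hk1 : 1 ≤ k := by
    rw [← tc_self (G := G) hq1 hxR]
    exact Finset.single_le_sum (f := fun a => tc G q R x a) (fun _ _ => zero_le) hxR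
  have hk0 : k ≠ 0 := (zero_lt_one.trans_le hk1).ne'
  have hkt : k ≠ ⊤ := ENNReal.sum_ne_top.2 fun a _ =>
    ne_top_of_le_ne_top ENNReal.one_ne_top (tc_le_one hq1 R x a)
  set N : ℝ≥0∞ := ∑ a ∈ R, ∑ v ∈ G.neighborFinset a,
    Ex (fun _ => q) (EP G R) (fun ω => ind (s(a, v) ∉ ω) * ind (Conn G R ω x a)) with hN
  have hdeg : ∀ (a : V) (c : ℝ≥0∞), ∑ _v ∈ G.neighborFinset a, c ≤ E.D * c := by
    intro a c
    rw [Finset.sum_const, nsmul_eq_mul, SimpleGraph.card_neighborFinset_eq_degree]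
    exact mul_le_mul' (Nat.cast_le.2 (E.deg_le a)) le_rfl
  have h1 : q * N ≤ (1 - q) * E.D * k := by
    rw [hN, hk, Finset.mul_sum, Finset.mul_sum]
    refine Finset.sum_le_sum fun a ha => ?_
    rw [Finset.mul_sum, mul_comm (1 - q), mul_assoc]
    refine le_trans (Finset.sum_le_sum fun v hv => ?_) (hdeg a _)
    have he : s(a, v) ∈ EP G R := mk_mem_EP ((G.mem_neighborFinset a v).1 hv) ha
    rw [Ex_notMem hq' he, mul_left_comm]
    refine mul_le_mul' le_rfl ?_
    refine le_trans (mul_le_mul' le_rfl (Ex_mono fun ω _ => ind_mono fun hc => ?_))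
      (Ex_insert_le hq' he fun ω => ind (Conn G R ω x a))
    exact hc.mono subset_rfl ((Finset.erase_subset _ _).trans (Finset.subset_insert _ _))
  have h2 : ∀ ω : Finset (Sym2 V), ENNReal.ofReal h * ∑ a ∈ R, ind (Conn G R ω x a) ≤
      ∑ a ∈ R, ∑ v ∈ G.neighborFinset a, (ind (s(a, v) ∉ ω) * ind (Conn G R ω x a) +
        ind (a ∉ ball G x L) * ind (Conn G R ω x a)) := by
    intro ω
    set K := R.filter (Conn G R ω x ·) with hK
    have hKc : ∑ a ∈ R, ind (Conn G R ω x a) = (K.card : ℝ≥0∞) := by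
      rw [hK, Finset.card_filter]
      push_cast
      refine Finset.sum_congr rfl fun v _ => ?_
      by_cases hc : Conn G R ω x v
      · rw [if_pos hc, ind_pos hc]
      · rw [if_neg hc, ind_neg hc]
    have h3 := hiso K ⟨x, Finset.mem_filter.2 ⟨hxR, Conn.refl ω hxR⟩⟩
    set B : Finset V := R.biUnion fun a => (G.neighborFinset a).filter fun v =>
      (s(a, v) ∉ ω ∨ a ∉ ball G x L) ∧ Conn G R ω x a with hB
    have h4 : (vertexBoundary G (K : Set V)).ncard ≤ B.card := by
      rw [← Set.ncard_coe_finset]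
      refine Set.ncard_le_ncard ?_ B.finite_toSet
      rintro v ⟨hv, a, ha, hadj⟩
      obtain ⟨haR, hac⟩ := Finset.mem_filter.1 (Finset.mem_coe.1 ha)
      refine Finset.mem_coe.2 (Finset.mem_biUnion.2 ⟨a, haR, Finset.mem_filter.2
        ⟨(G.mem_neighborFinset a v).2 hadj, ?_, hac⟩⟩)
      by_contra hcon
      push Not at hcon
      have hvR : v ∈ R := mem_ball_succ hcon.2 hadj
      exact hv (Finset.mem_coe.2 (Finset.mem_filter.2 ⟨hvR, hac.tail ⟨hadj, hcon.1⟩ hvR⟩))
    have h5 : ENNReal.ofReal h * (K.card : ℝ≥0∞) ≤ B.card := by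
      rw [← ENNReal.ofReal_natCast, ← ENNReal.ofReal_mul hpos.le, ← ENNReal.ofReal_natCast]
      exact ENNReal.ofReal_le_ofReal (h3.trans (Nat.cast_le.2 h4))
    rw [hKc]
    refine h5.trans ((Nat.cast_le.2 Finset.card_biUnion_le).trans ?_)
    push_cast
    refine Finset.sum_le_sum fun a _ => ?_
    rw [Finset.card_filter]
    push_cast
    refine Finset.sum_le_sum fun v _ => ?_
    rw [← add_mul]
    split_ifs with hc
    · rw [ind_pos hc.2, mul_one, ← ind_pos hc.1]
      exact ind_or_le _ _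
    · exact zero_le
  have h3 : η * k + η * k ≤ N + η * k := by
    have h4 := Ex_mono (p := fun _ => q) (J := EP G R) fun ω _ => h2 ω
    rw [Ex_mul_left, Ex_sum, Ex_sum] at h4
    simp only [Ex_sum, Ex_add, Finset.sum_add_distrib, Ex_mul_left] at h4
    rw [← add_mul, hη, ENNReal.add_halves, ← hη]
    refine h4.trans (add_le_add le_rfl ?_)
    calc _ ≤ ∑ a ∈ R, E.D * (ind (a ∉ ball G x L) * TT G q x a) :=
          Finset.sum_le_sum fun a _ => (hdeg a _).trans
            (mul_le_mul' le_rfl (mul_le_mul' le_rfl (tc_le_TT q R x a)))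
      _ ≤ E.D * (η / E.D) := by
          rw [← Finset.mul_sum]
          exact mul_le_mul' le_rfl ((ENNReal.sum_le_tsum _).trans (hL x))
      _ = η * 1 := by rw [ENNReal.mul_div_cancel hD0 hD1, mul_one]
      _ ≤ η * k := mul_le_mul' le_rfl hk1
  have h4 : η * k ≤ N := (ENNReal.add_le_add_iff_right (ENNReal.mul_ne_top hη1 hkt)).1 h3
  have h5 : q * η ≤ (1 - q) * E.D := by
    rw [← ENNReal.mul_le_mul_iff_left hk0 hkt, mul_assoc]
    exact (mul_le_mul' le_rfl h4).trans h1
  rw [ENNReal.le_div_iff_mul_le (Or.inl hs0) (Or.inl hs1), mul_add]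
  refine (add_le_add h5 le_rfl).trans (le_of_eq ?_)
  rw [← add_mul, tsub_add_cancel_of_le hq1, one_mul]

/-- `renewal` with the `q`-cluster of `x` in `R` as exploration: a frontier edge is in `σ`, so
`tc p R ≤ tc q R + δ • (tc q R) A (tc p R)` with `A` the adjacency kernel (`nrm A ≤ D` by
`nrm_le_of_row_col`). Cancel using `nrm_tc_ne_top`; `nrm_TT_le`. -/
theorem open_step {D : ℕ} (hD : ∀ x, G.degree x ≤ D) {q δ : ℝ≥0∞} (hq : q ≤ 1) (hδ : δ ≤ 1)
    (h : 2 * δ * D * nrm (TT G q) ≤ 1) :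
    nrm (TT G (q + (1 - q) * δ)) ≤ 2 * nrm (TT G q) := by
  classical
  set p := q + (1 - q) * δ with hp
  have hp1 : p ≤ 1 := by
    calc q + (1 - q) * δ ≤ q + (1 - q) := add_le_add le_rfl (mul_le_of_le_one_right' hδ)
      _ = 1 := add_tsub_cancel_of_le hq
  have hq' : ∀ e : Sym2 V, (fun _ => q) e ≤ 1 := fun _ => hq
  have hδ' : ∀ e : Sym2 V, (fun _ => δ) e ≤ 1 := fun _ => hδ
  set A : Ker V := fun u z => ind (G.Adj u z) with hA
  have hrow : ∀ u, ∑' z, A u z ≤ D := by
    intro u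
    rw [tsum_eq_sum (s := G.neighborFinset u) fun z hz =>
      ind_neg fun h => hz ((G.mem_neighborFinset u z).2 h)]
    refine (Finset.sum_le_sum fun z _ => ind_le_one _).trans ?_
    rw [Finset.sum_const, nsmul_eq_mul, mul_one, SimpleGraph.card_neighborFinset_eq_degree]
    exact Nat.cast_le.2 (hD u)
  have hAn : nrm A ≤ D := nrm_le_of_row_col hrow fun z => by
    refine le_trans (le_of_eq (tsum_congr fun u => ind_congr (G.adj_comm u z))) (hrow z)
  refine (nrm_TT_le hp1).trans (iSup_le fun R => ?_)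
  have hker : tc G p R ≤ tc G q R + δ • kmul (kmul (tc G q R) A) (tc G p R) := by
    intro x v
    set C : Finset (Sym2 V) → Finset V := fun ω => R.filter (Conn G R ω x ·) with hC
    have hmem : ∀ ω u, u ∈ C ω ↔ Conn G R ω x u := fun ω u => by
      rw [hC, Finset.mem_filter]
      exact ⟨fun h => h.2, fun h => ⟨h.right, h⟩⟩
    have hren := renewal (G := G) hq hδ hp R x v C
      (fun ω hx => (hmem ω x).2 (Conn.refl ω hx))
      (fun ω ω' h => by
        ext v
        rw [hmem, hmem]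
        refine conn_local (fun a b ha => ?_) v
        have := h s(a, b) ⟨a, (hmem ω a).2 ha, Sym2.mem_mk_left a b⟩
        unfold Op
        rw [this])
    refine hren.trans (add_le_add (le_of_eq ?_) ?_)
    · simp only [hmem]; rfl
    · change _ ≤ δ * ∑' z, kmul (tc G q R) A x z * tc G p R z v
      rw [← ENNReal.tsum_mul_left]
      refine le_trans (Finset.sum_le_sum fun z hz => ?_) (ENNReal.sum_le_tsum R)
      rw [← mul_assoc]
      refine mul_le_mul' ?_ le_rfl
      calc _ ≤ Ex (fun _ => q) (EP G R)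
            (fun ω => ∑ u ∈ R, δ * (ind (Conn G R ω x u) * A u z)) := by
            refine Ex_mono fun ω _ => ?_
            calc _ ≤ Ex (fun _ => δ) (EP G R) (fun σ => ∑ u ∈ R,
                  ind (s(u, z) ∈ σ) * (ind (Conn G R ω x u) * A u z)) := by
                  refine Ex_mono fun σ _ => ?_
                  by_cases hc : z ∉ C ω ∧ ∃ u ∈ C ω, Op G (ω ∪ σ) u z
                  · obtain ⟨hz', u, hu, hop⟩ := hc
                    have hu' := (hmem ω u).1 hu
                    have hσ : s(u, z) ∈ σ := (Finset.mem_union.1 hop.2).resolve_left fun hω =>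
                      hz' ((hmem ω z).2 (hu'.tail ⟨hop.1, hω⟩ hz))
                    refine (ind_le_one _).trans (le_trans ?_ (Finset.single_le_sum (f := fun u =>
                      ind (s(u, z) ∈ σ) * (ind (Conn G R ω x u) * A u z))
                      (fun _ _ => zero_le) hu'.right))
                    simp only [hA]
                    rw [ind_pos hσ, ind_pos hu', ind_pos hop.1]
                    simp
                  · rw [ind_neg hc]; exact zero_le
              _ ≤ _ := by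
                  rw [Ex_sum]
                  refine Finset.sum_le_sum fun u _ => ?_
                  refine (Ex_mem_anti hδ' _ _ antitone_const).trans ?_
                  rw [Ex_const hδ']
        _ ≤ _ := by
            rw [Ex_sum]
            simp only [Ex_mul_left, Ex_mul_right]
            rw [← Finset.mul_sum]
            exact mul_le_mul' le_rfl (ENNReal.sum_le_tsum R)
  have hq2 : nrm (tc G q R) ≤ nrm (TT G q) := nrm_mono (tc_le_TT q R)
  have h1 : nrm (tc G p R) ≤ nrm (TT G q) + δ * (nrm (TT G q) * D * nrm (tc G p R)) := by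
    refine (nrm_mono hker).trans ((nrm_add_le _ _).trans (add_le_add hq2 ?_))
    rw [nrm_smul]
    refine mul_le_mul' le_rfl ((nrm_kmul_le _ _).trans (mul_le_mul' ?_ le_rfl))
    exact (nrm_kmul_le _ _).trans (mul_le_mul' hq2 hAn)
  have h2 : nrm (tc G p R) + nrm (tc G p R) ≤ 2 * nrm (TT G q) + nrm (tc G p R) := by
    calc _ = 2 * nrm (tc G p R) := (two_mul _).symm
      _ ≤ 2 * (nrm (TT G q) + δ * (nrm (TT G q) * D * nrm (tc G p R))) := mul_le_mul' le_rfl h1
      _ = 2 * nrm (TT G q) + (2 * δ * D * nrm (TT G q)) * nrm (tc G p R) := by ring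
      _ ≤ _ := add_le_add le_rfl (mul_le_of_le_one_left' h)
  exact (ENNReal.add_le_add_iff_right (nrm_tc_ne_top hp1 R)).1 h2

/-- with `t` the supremum of the good parameters (`good_zero`), `t ≤ q₁ < 1`; take
`δ = (2 D M + 1)⁻¹` and a good `q` with `t < q + (1 - q) δ` -/
theorem openness {D : ℕ} (hD : ∀ x, G.degree x ≤ D) {q₁ M : ℝ≥0∞} (hq₁ : q₁ < 1)
    (hle : ∀ q, Good G q → q ≤ q₁) (hM : M ≠ ⊤) (hb : ∀ q, Good G q → nrm (TT G q) ≤ M) :
    ∃ p₁ p₂ : ℝ≥0∞, ¬ Good G p₁ ∧ p₁ < p₂ ∧ p₂ ≤ 1 ∧ nrm (TT G p₂) ≠ ⊤ := by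
  set t := sSup {q | Good G q} with ht
  have ht1 : t ≤ q₁ := sSup_le hle
  have htt : t ≠ ⊤ := ne_top_of_le_ne_top (hq₁.trans ENNReal.one_lt_top).ne ht1
  have hc : 2 * (D : ℝ≥0∞) * M + 1 ≠ ⊤ := ENNReal.add_ne_top.2
    ⟨ENNReal.mul_ne_top (ENNReal.mul_ne_top ENNReal.ofNat_ne_top (ENNReal.natCast_ne_top D)) hM,
      ENNReal.one_ne_top⟩
  set δ := (2 * (D : ℝ≥0∞) * M + 1)⁻¹ with hδ
  have hδ0 : δ ≠ 0 := ENNReal.inv_ne_zero.2 hc
  have hδ1 : δ ≤ 1 := ENNReal.inv_le_one.2 le_add_self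
  have hε : (1 - q₁) * δ ≠ 0 := mul_ne_zero (tsub_pos_of_lt hq₁).ne' hδ0
  obtain ⟨q, hq, hlt⟩ : ∃ q, Good G q ∧ t < q + (1 - q₁) * δ := by
    by_contra hcon
    push Not at hcon
    have h1 : t + (1 - q₁) * δ ≤ t := by
      conv_lhs => rw [ht, ENNReal.sSup_add ⟨0, good_zero⟩]
      exact iSup₂_le hcon
    exact (ENNReal.lt_add_right htt hε).not_ge h1
  have hlt2 : t < q + (1 - q) * δ :=
    hlt.trans_le (add_le_add le_rfl (mul_le_mul' (tsub_le_tsub_left (hle q hq) 1) le_rfl))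
  obtain ⟨p₁, h1, h2⟩ := exists_between hlt2
  refine ⟨p₁, _, fun hg => h1.not_ge (le_sSup hg), h2, ?_, ?_⟩
  · calc q + (1 - q) * δ ≤ q + (1 - q) := add_le_add le_rfl (mul_le_of_le_one_right' hδ1)
      _ = 1 := add_tsub_cancel_of_le hq.1
  · refine ne_top_of_le_ne_top (ENNReal.mul_ne_top ENNReal.ofNat_ne_top hM)
      ((open_step hD hq.1 hδ1 ?_).trans (mul_le_mul' le_rfl (hb q hq)))
    calc 2 * δ * D * nrm (TT G q) ≤ 2 * δ * D * M := mul_le_mul' le_rfl (hb q hq)
      _ = δ * (2 * D * M) := by ring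
      _ ≤ δ * (2 * D * M + 1) := mul_le_mul' le_rfl le_self_add
      _ = 1 := ENNReal.inv_mul_cancel (by simp) hc

end Vale.Agent.P165
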