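import Mathlib
import Vale.Agent.P165.Defs
import Vale.Agent.P165.Arith

/-!
The multi-scale schedule (pure arithmetic in `ℝ≥0∞`): definitions and base level.
-/

open scoped ENNReal

namespace Vale.Agent.P165

/-- The abstract system. -/
structure Sys {X : Type*} (good : ℝ≥0∞ → Prop) (Dec : X → Prof → Prop)
    (TrG SupU : X → ℝ≥0∞ → Prop) (C : ℝ≥0∞ → X → ℝ≥0∞ → Prop) (ct : ℝ≥0∞ → X → X) (x₀ : X) :
    Prop where
  dec_mono : ∀ x (v w : Prof), Dec x v → v.a ≤ w.a → v.b ≤ w.b → v.a' ≤ w.a' → v.b' ≤ w.b' →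
    v.s ≤ w.s → Dec x w
  tr_mono : ∀ x t t', TrG x t → t ≤ t' → TrG x t'
  sup_mono : ∀ x t t', SupU x t → t ≤ t' → SupU x t'
  fresh : ∀ x η, TrG x η → SupU x η → Dec x ⟨0, η, 0, 0, η⟩
  ct_sup : ∀ t x, SupU (ct t x) t
  ct_tr : ∀ t x η, TrG x η → TrG (ct t x) η
  ct_dec : ∀ t x (v : Prof), Dec x v → Dec (ct t x) ⟨v.a, v.b, t * v.a', t * v.b', t * v.s⟩
  ct_C : ∀ p t x m, good p → t ≤ 1 → C p x m → C p (ct t x) (t * m)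
  tr₀ : TrG x₀ 0
  sup₀ : SupU x₀ 0
  C₀ : ∀ p, good p → C p x₀ 1
  bound : ∀ p, good p → ∃ χ : ℝ≥0∞, χ ≠ ⊤ ∧ ∀ x m, C p x m → m ≤ χ

/-- A level of the schedule with exponent `n`. -/
def Level {X : Type*} (good : ℝ≥0∞ → Prop) (Dec : X → Prof → Prop)
    (TrG SupU : X → ℝ≥0∞ → Prop) (C : ℝ≥0∞ → X → ℝ≥0∞ → Prop) (ε₀ : ℝ≥0∞) (N n : ℕ) : Prop :=
  ∃ (q η μ B B' γ ϑ : ℝ≥0∞) (Pre : X → Prop) (cyc : X → X), good q ∧ η ≠ 0 ∧ η ≤ 1 ∧ μ ≠ ⊤ ∧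
    B ≠ ⊤ ∧ B' ≠ ⊤ ∧ γ ≠ 0 ∧ 4 * γ ≤ 1 ∧ 2 * ϑ ≤ 1 ∧
    (∀ x, TrG x η → SupU x η → Pre x) ∧ (∀ x, Pre x → Pre (cyc x)) ∧ (∀ x, Pre x → TrG x ε₀) ∧
    (∀ p x m, good p → q ≤ p → m ≠ ⊤ → Pre x → C p x m → C p (cyc x) (μ * m)) ∧
    (∀ x v, Dec x v → Dec (cyc x) (Lam B B' γ ϑ v)) ∧ γ ^ n ≤ μ ^ N ∧ γ * ϑ ^ N ≤ μ ^ N

variable {X : Type*} {good : ℝ≥0∞ → Prop} {Dec : X → Prof → Prop}
  {TrG SupU : X → ℝ≥0∞ → Prop} {C : ℝ≥0∞ → X → ℝ≥0∞ → Prop} {ct : ℝ≥0∞ → X → X} {x₀ : X}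
  {c ρ ϱ ε₀ ε : ℝ≥0∞} {N₁ : ℕ}

/-- iterating a cycle `r` times -/
theorem dec_iter (hS : Sys good Dec TrG SupU C ct x₀) {cyc : X → X} {B B' γ ϑ : ℝ≥0∞}
    (hγ : 4 * γ ≤ 1) (hϑ : 2 * ϑ ≤ 1) (h : ∀ x v, Dec x v → Dec (cyc x) (Lam B B' γ ϑ v))
    (r : ℕ) (x : X) (v : Prof) (hv : Dec x v) :
    Dec (cyc^[r] x) ⟨2 * B + γ ^ r * v.a, v.b,
      2 * (B + 2 * B ^ 2) + r * B * γ ^ (r - 1) * v.a + γ ^ r * v.a',
      2 * B' * v.b + ϑ ^ r * v.b', ϑ ^ r * v.s⟩ := by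
  have hγ2 : 2 * γ ≤ 1 := le_trans (mul_le_mul_left (by norm_num) _) hγ
  induction r with
  | zero =>
    refine hS.dec_mono _ _ _ hv ?_ le_rfl ?_ ?_ ?_ <;> simp
  | succ r ih =>
    rw [Function.iterate_succ_apply']
    refine hS.dec_mono _ _ _ (h _ _ ih) ?_ le_rfl ?_ ?_ ?_
    · simp only [Lam]
      calc B + γ * (2 * B + γ ^ r * v.a) = B + 2 * γ * B + γ ^ (r + 1) * v.a := by ring
        _ ≤ B + 1 * B + γ ^ (r + 1) * v.a := by gcongr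
        _ = _ := by ring
    · simp only [Lam, Nat.add_sub_cancel]
      have e : γ * (r * B * γ ^ (r - 1)) = r * B * γ ^ r := by
        cases r with
        | zero => simp
        | succ r => simp only [Nat.add_sub_cancel]; ring
      calc B + B * (2 * B + γ ^ r * v.a) +
            γ * (2 * (B + 2 * B ^ 2) + r * B * γ ^ (r - 1) * v.a + γ ^ r * v.a')
          = (B + 2 * B ^ 2) + 2 * γ * (B + 2 * B ^ 2) +
            (B * γ ^ r + γ * (r * B * γ ^ (r - 1))) * v.a + γ ^ (r + 1) * v.a' := by ring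
        _ ≤ (B + 2 * B ^ 2) + 1 * (B + 2 * B ^ 2) +
            (B * γ ^ r + γ * (r * B * γ ^ (r - 1))) * v.a + γ ^ (r + 1) * v.a' := by gcongr
        _ = _ := by rw [e]; push_cast; ring
    · simp only [Lam]
      calc B' * v.b + ϑ * (2 * B' * v.b + ϑ ^ r * v.b')
          = B' * v.b + 2 * ϑ * (B' * v.b) + ϑ ^ (r + 1) * v.b' := by ring
        _ ≤ B' * v.b + 1 * (B' * v.b) + ϑ ^ (r + 1) * v.b' := by gcongr
        _ = _ := by ring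
    · simp only [Lam]
      exact le_of_eq (by ring)

theorem lam_fix (hS : Sys good Dec TrG SupU C ct x₀) {B B' γ ϑ b b' s : ℝ≥0∞} (hγ : 2 * γ ≤ 1)
    (hb : B' * b + ϑ * b' ≤ b') (hs : ϑ * s ≤ s) {x : X}
    (h : Dec x (Lam B B' γ ϑ ⟨2 * B, b, 2 * (B + 2 * B ^ 2), b', s⟩)) :
    Dec x ⟨2 * B, b, 2 * (B + 2 * B ^ 2), b', s⟩ := by
  refine hS.dec_mono _ _ _ h ?_ le_rfl ?_ hb hs
  · simp only [Lam]
    calc B + γ * (2 * B) = B + 2 * γ * B := by ring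
      _ ≤ B + 1 * B := by gcongr
      _ = _ := by ring
  · simp only [Lam]
    calc B + B * (2 * B) + γ * (2 * (B + 2 * B ^ 2))
        = (B + 2 * B ^ 2) + 2 * γ * (B + 2 * B ^ 2) := by ring
      _ ≤ (B + 2 * B ^ 2) + 1 * (B + 2 * B ^ 2) := by gcongr
      _ = _ := by ring

/-- closure and validity of the cycle `ct t ∘ op ∘ F` -/
theorem cyc_core (hS : Sys good Dec TrG SupU C ct x₀) {Pre : X → Prop} {F op : X → X}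
    {η t q qp ν μp ηp e : ℝ≥0∞} (ht : t ≤ η) (hη : η ≤ 1) (hν : ν ≠ ⊤)
    (L1 : ∀ x, TrG x η → SupU x η → Pre x) (L3 : ∀ x, Pre x → TrG x ε₀)
    (F1 : ∀ x, Pre x → Pre (F x))
    (F2 : ∀ p x m, good p → q ≤ p → m ≠ ⊤ → Pre x → C p x m → C p (F x) (ν * m))
    (opT : ∀ x, TrG x ε₀ → TrG (op x) η)
    (opV : ∀ p x (v : Prof) m, good p → qp ≤ p → m ≠ ⊤ → TrG x ε₀ → Dec x v → e * v.a ≤ ε →
      e * v.a' ≤ ε → v.b ≤ ηp → v.b' ≤ ηp → v.s ≤ ηp → C p x m → C p (op x) (μp * m))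
    {v₀ : Prof} (fix : ∀ x, Dec x v₀ → Dec (ct t (op (F x))) v₀)
    (thr : ∀ x, Dec x v₀ → ∃ w : Prof, Dec (F x) w ∧ e * w.a ≤ ε ∧ e * w.a' ≤ ε ∧ w.b ≤ ηp ∧
      w.b' ≤ ηp ∧ w.s ≤ ηp) :
    (∀ x, Pre x ∧ Dec x v₀ → Pre (ct t (op (F x))) ∧ Dec (ct t (op (F x))) v₀) ∧
      ∀ p x m, good p → max q qp ≤ p → m ≠ ⊤ → Pre x ∧ Dec x v₀ → C p x m →
        C p (ct t (op (F x))) (t * μp * ν * m) := by
  constructor
  · rintro x ⟨h1, h2⟩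
    exact ⟨L1 _ (hS.ct_tr _ _ _ (opT _ (L3 _ (F1 _ h1)))) (hS.sup_mono _ _ _ (hS.ct_sup _ _) ht),
      fix x h2⟩
  · rintro p x m hp hq hm ⟨h1, h2⟩ hC
    obtain ⟨w, w1, w2, w3, w4, w5, w6⟩ := thr x h2
    have h3 := F2 p x m hp ((le_max_left _ _).trans hq) hm h1 hC
    have h4 := opV p _ w _ hp ((le_max_right _ _).trans hq) (ENNReal.mul_ne_top hν hm)
      (L3 _ (F1 _ h1)) w1 w2 w3 w4 w5 w6 h3
    have h5 := hS.ct_C p t _ _ hp (ht.trans hη) h4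
    have e : t * μp * ν * m = t * (μp * (ν * m)) := by ring
    rw [e]
    exact h5

theorem good_max {q q' : ℝ≥0∞} (h : good q) (h' : good q') : good (max q q') := by
  rcases le_total q q' with h1 | h1
  · rwa [max_eq_right h1]
  · rwa [max_eq_left h1]

theorem ne_top_of_mul_pow_lt {ρ ϱ : ℝ≥0∞} {N : ℕ} (hρ : ρ ≠ 0) (hN : 0 < N) (h : ρ * ϱ ^ N < 1) :
    ϱ ≠ ⊤ := by
  rintro rfl
  rw [ENNReal.top_pow hN.ne', ENNReal.mul_top hρ] at h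
  exact absurd h (by simp)

theorem two_mul_thin_le (η ϑ : ℝ≥0∞) : 2 * (η * min 1 (2 * (η * ϑ))⁻¹ * ϑ) ≤ 1 := by
  calc 2 * (η * min 1 (2 * (η * ϑ))⁻¹ * ϑ) = 2 * (η * ϑ) * min 1 (2 * (η * ϑ))⁻¹ := by ring
    _ ≤ 2 * (η * ϑ) * (2 * (η * ϑ))⁻¹ := mul_le_mul_right (min_le_right _ _) _
    _ ≤ 1 := ENNReal.mul_inv_le_one _

theorem ratio_le {K ρ ϱ μ ϑ : ℝ≥0∞} {k N : ℕ} (h : ϑ ≤ K * ϱ ^ k * μ)
    (hk : K ^ (N + 1) * (ρ * ϱ ^ N) ^ k ≤ 1) : K * ρ ^ k * ϑ ^ N ≤ μ ^ N := by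
  calc K * ρ ^ k * ϑ ^ N ≤ K * ρ ^ k * (K * ϱ ^ k * μ) ^ N := by gcongr
    _ = K ^ (N + 1) * (ρ * ϱ ^ N) ^ k * μ ^ N := by
        rw [mul_pow, mul_pow, mul_pow, ← pow_mul, ← pow_mul, mul_comm k N]; ring
    _ ≤ μ ^ N := mul_le_of_le_one_left' hk

/-- The base level: one piece with `η = min ε₀ 1`, any `M` and `k` large, followed by `ct t`. -/
theorem level_base (hS : Sys good Dec TrG SupU C ct x₀) (hc0 : c ≠ 0) (hc1 : c ≤ 1) (hρ0 : ρ ≠ 0)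
    (hρ1 : ρ < 1) (hε₀ : ε₀ ≠ 0) (hε : ε ≠ 0) (hϱ : ρ * ϱ ^ (20 * N₁) < 1) (hN₁ : 0 < N₁)
    (pf : PieceFamily good Dec TrG C c ρ ϱ ε₀ ε) :
    ∃ n, Level good Dec TrG SupU C ε₀ (20 * N₁) n := by
  have hϱt : ϱ ≠ ⊤ := ne_top_of_mul_pow_lt hρ0 (by omega) hϱ
  obtain ⟨η, hηdef⟩ : ∃ x : ℝ≥0∞, x = min ε₀ 1 := ⟨_, rfl⟩
  have hη0 : η ≠ 0 := hηdef ▸ (lt_min (pos_iff_ne_zero.2 hε₀) zero_lt_one).ne'
  have hη1 : η ≤ 1 := hηdef ▸ min_le_right _ _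
  have hηε : η ≤ ε₀ := hηdef ▸ min_le_left _ _
  obtain ⟨K, hK1, hKt, hK⟩ := pf η hη0
  obtain ⟨M, q, hM1, hMt, hq, hM⟩ := hK 1 ENNReal.one_ne_top
  obtain ⟨B, hB⟩ : ∃ x : ℝ≥0∞, x = K * M ^ 2 := ⟨_, rfl⟩
  have hBt : B ≠ ⊤ := hB ▸ ENNReal.mul_ne_top hKt (ENNReal.pow_ne_top hMt)
  have hB2 : 2 * (B + 2 * B ^ 2) ≠ ⊤ := ENNReal.mul_ne_top (by norm_num)
    (ENNReal.add_ne_top.2 ⟨hBt, ENNReal.mul_ne_top (by norm_num) (ENNReal.pow_ne_top hBt)⟩)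
  have hcρ : c * ρ < 1 := lt_of_le_of_lt (mul_le_of_le_one_left' hc1) hρ1
  obtain ⟨k₁, hk₁⟩ := exists_pow_small (b := 1) hcρ (ENNReal.mul_ne_top hMt hKt) one_ne_zero
  obtain ⟨k₂, hk₂⟩ := exists_pow_small (a := 4 * K) (b := 1) hρ1
    (ENNReal.mul_ne_top (by norm_num) hKt) one_ne_zero
  obtain ⟨k₃, hk₃⟩ := exists_pow_small hρ1 hB2 hε
  obtain ⟨k₄, hk₄⟩ := exists_pow_small (a := K ^ (20 * N₁ + 1)) (b := 1) hϱ
    (ENNReal.pow_ne_top hKt) one_ne_zero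
  obtain ⟨k₅, hk₅⟩ := ENNReal.exists_nat_gt hKt
  obtain ⟨k, hk⟩ : ∃ k : ℕ, k = k₁ + k₂ + k₃ + k₄ + k₅ := ⟨_, rfl⟩
  obtain ⟨op, μ, ηp, B', ϑ, hηp, hμ1, hμt, hB't, hϑ, opD, opT, opV⟩ := hM k
    (hk₅.le.trans (by exact_mod_cast (by omega : k₅ ≤ k)))
    (le_trans (le_of_eq (by ring)) (hk₁ k (by omega)))
  rw [← hB] at opD
  have hμ0 : μ ≠ 0 := by
    rintro rfl
    rw [mul_zero, nonpos_iff_eq_zero] at hμ1
    exact mul_ne_zero (lt_of_lt_of_le zero_lt_one hM1).ne' (pow_ne_zero _ hc0) hμ1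
  have hϑt : ϑ ≠ ⊤ := ne_top_of_le_ne_top
    (ENNReal.mul_ne_top (ENNReal.mul_ne_top hKt (ENNReal.pow_ne_top hϱt)) hμt) hϑ
  obtain ⟨t, ht⟩ : ∃ x : ℝ≥0∞, x = η * min 1 (2 * (η * ϑ))⁻¹ := ⟨_, rfl⟩
  have htη : t ≤ η := ht ▸ mul_le_of_le_one_right' (min_le_left _ _)
  have ht1 : t ≤ 1 := htη.trans hη1
  have ht0 : t ≠ 0 := by
    rw [ht]
    refine mul_ne_zero hη0 (lt_min zero_lt_one (ENNReal.inv_pos.2 ?_)).ne'
    exact ENNReal.mul_ne_top (by norm_num)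
      (ENNReal.mul_ne_top (ne_top_of_le_ne_top ENNReal.one_ne_top hη1) hϑt)
  have htϑ : 2 * (t * ϑ) ≤ 1 := ht ▸ two_mul_thin_le η ϑ
  have hγ4 : 4 * (K * ρ ^ k) ≤ 1 := le_trans (le_of_eq (by ring)) (hk₂ k (by omega))
  have hγ2 : 2 * (K * ρ ^ k) ≤ 1 := le_trans (mul_le_mul_left (by norm_num) _) hγ4
  obtain ⟨e, he0, -, he⟩ := exists_small (a := 2 * B' + 1)
    (ENNReal.add_ne_top.2 ⟨ENNReal.mul_ne_top (by norm_num) hB't, by simp⟩) hηp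
  obtain ⟨η', hη'⟩ : ∃ x : ℝ≥0∞, x = min η e := ⟨_, rfl⟩
  have hη'η : η' ≤ η := hη' ▸ min_le_left _ _
  have hη'e : (2 * B' + 1) * η' ≤ ηp :=
    le_trans (mul_le_mul_right (hη' ▸ min_le_right _ _) _) he
  have hLam : ∀ x v, Dec x v → Dec (ct t (op x)) (Lam B B' (K * ρ ^ k) (t * ϑ) v) := by
    intro x v hv
    refine hS.dec_mono _ _ _ (hS.ct_dec t _ _ (opD x v hv)) le_rfl le_rfl ?_ ?_ ?_
    · exact mul_le_of_le_one_left' ht1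
    · simp only [Lam]
      rw [mul_add, mul_assoc]
      exact add_le_add (mul_le_of_le_one_left' ht1) le_rfl
    · simp only [Lam]
      exact le_of_eq (by ring)
  have hρB : ρ ^ k * (2 * (B + 2 * B ^ 2)) ≤ ε := by
    rw [mul_comm]; exact hk₃ k (by omega)
  have hρB' : ρ ^ k * (2 * B) ≤ ε :=
    le_trans (mul_le_mul_right (mul_le_mul_right le_self_add _) _) hρB
  obtain ⟨c1, c2⟩ := cyc_core (ε := ε) hS (Pre := fun x => TrG x ε₀) (F := id) (q := q) (ν := 1)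
    htη hη1 ENNReal.one_ne_top (fun x h _ => hS.tr_mono _ _ _ h hηε) (fun _ h => h)
    (fun _ h => h) (fun p x m _ _ _ _ h => by rw [one_mul]; exact h) opT opV
    (v₀ := ⟨2 * B, η', 2 * (B + 2 * B ^ 2), 2 * B' * η', η'⟩)
    (fun x hx => lam_fix hS hγ2 (by
        calc B' * η' + t * ϑ * (2 * B' * η') = B' * η' + 2 * (t * ϑ) * (B' * η') := by ring
          _ ≤ B' * η' + 1 * (B' * η') := by gcongr
          _ = _ := by ring)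
      (mul_le_of_le_one_left' (le_trans (le_mul_of_one_le_left' (by norm_num)) htϑ))
      (hLam x _ hx))
    (fun x hx => ⟨_, hx, hρB', hρB,
      le_trans (le_mul_of_one_le_left' le_add_self) hη'e,
      le_trans (mul_le_mul_left le_self_add _) hη'e,
      le_trans (le_mul_of_one_le_left' le_add_self) hη'e⟩)
  have hγ1 : K * ρ ^ k < 1 := by
    refine lt_of_le_of_lt (?_ : _ ≤ (2 : ℝ≥0∞)⁻¹) (by norm_num)
    rw [ENNReal.le_inv_iff_mul_le, mul_comm]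
    exact hγ2
  obtain ⟨n, hn⟩ := exists_pow_small (a := 1) (b := (t * μ) ^ (20 * N₁)) hγ1 ENNReal.one_ne_top
    (pow_ne_zero _ (mul_ne_zero ht0 hμ0))
  refine ⟨n, q, η', t * μ, B, B', K * ρ ^ k, t * ϑ, _, fun x => ct t (op x), hq, ?_,
    hη'η.trans hη1,
    ENNReal.mul_ne_top (ne_top_of_le_ne_top ENNReal.one_ne_top ht1) hμt, hBt, hB't,
    mul_ne_zero (lt_of_lt_of_le zero_lt_one hK1).ne' (pow_ne_zero _ hρ0), hγ4, htϑ,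
    fun x h1 h2 => ⟨hS.tr_mono _ _ _ h1 (hη'η.trans hηε),
      hS.dec_mono _ _ _ (hS.fresh x η' h1 h2) zero_le le_rfl zero_le zero_le le_rfl⟩,
    c1, fun _ h => h.1, fun p x m hp hqp hm hx hC => ?_, hLam, ?_, ?_⟩
  · rw [hη']
    exact (lt_min (pos_iff_ne_zero.2 hη0) (pos_iff_ne_zero.2 he0)).ne'
  · have := c2 p x m hp (by rwa [max_self]) hm hx hC
    rwa [mul_one] at this
  · simpa using hn n le_rfl
  · calc K * ρ ^ k * (t * ϑ) ^ (20 * N₁) = t ^ (20 * N₁) * (K * ρ ^ k * ϑ ^ (20 * N₁)) := by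
          rw [mul_pow]; ring
      _ ≤ t ^ (20 * N₁) * μ ^ (20 * N₁) := mul_le_mul_right (ratio_le hϑ (hk₄ k (by omega))) _
      _ = _ := by rw [mul_pow]

theorem Level.mono {n n' N : ℕ} (h : Level good Dec TrG SupU C ε₀ N n) (hn : n ≤ n') :
    Level good Dec TrG SupU C ε₀ N n' := by
  obtain ⟨q, η, μ, B, B', γ, ϑ, Pre, cyc, h1, h2, h3, h4, h5, h6, h7, h8, h9, h10, h11, h12, h13,
    h14, h15, h16⟩ := h
  refine ⟨q, η, μ, B, B', γ, ϑ, Pre, cyc, h1, h2, h3, h4, h5, h6, h7, h8, h9, h10, h11, h12, h13,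
    h14, le_trans ?_ h15, h16⟩
  exact pow_le_pow_of_le_one zero_le (le_trans (le_mul_of_one_le_left' (by norm_num)) h8) hn

end Vale.Agent.P165
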