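import Mathlib
import Vale.Agent.P165.SchedA

/-!
The multi-scale schedule: the inductive step.
-/

open scoped ENNReal

namespace Vale.Agent.P165

variable {X : Type*} {good : ℝ≥0∞ → Prop} {Dec : X → Prof → Prop}
  {TrG SupU : X → ℝ≥0∞ → Prop} {C : ℝ≥0∞ → X → ℝ≥0∞ → Prop} {ct : ℝ≥0∞ → X → X} {x₀ : X}
  {c ρ ϱ ε₀ ε : ℝ≥0∞} {N₁ : ℕ}

theorem cast_mul_pow_le {γ : ℝ≥0∞} (r : ℕ) : (r : ℝ≥0∞) * γ ^ r ≤ (2 * γ) ^ r := by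
  rw [mul_pow]
  refine mul_le_mul_left ?_ _
  exact_mod_cast (Nat.lt_two_pow_self (n := r)).le

theorem cast_mul_pow_pred_le {γ : ℝ≥0∞} (hγ : 2 * γ ≤ 1) (r : ℕ) :
    (r : ℝ≥0∞) * γ ^ (r - 1) ≤ 1 := by
  cases r with
  | zero => simp
  | succ r =>
    simp only [Nat.add_sub_cancel]
    refine le_trans ?_ (pow_le_one₀ (n := r) zero_le hγ)
    rw [mul_pow]
    refine mul_le_mul_left ?_ _
    exact_mod_cast (Nat.lt_two_pow_self (n := r))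

theorem mul_cast_mul_pow_pred (γ : ℝ≥0∞) (r : ℕ) :
    γ * ((r : ℝ≥0∞) * γ ^ (r - 1)) = r * γ ^ r := by
  cases r with
  | zero => simp
  | succ r => simp only [Nat.add_sub_cancel]; ring

theorem exists_iter {γ B : ℝ≥0∞} (hγ : 4 * γ ≤ 1) (hB1 : 1 ≤ B) (hB : B ≠ ⊤) :
    ∃ r : ℕ, (2 * γ) ^ r * B ^ 2 ≤ 1 ∧ (2 * γ) ^ 4 ≤ γ ^ (2 * r) * B ^ 8 := by
  classical
  have h2 : 2 * γ ≤ 2⁻¹ := by
    rw [ENNReal.le_inv_iff_mul_le]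
    exact le_trans (le_of_eq (by ring)) hγ
  have h1 : 2 * γ < 1 := lt_of_le_of_lt h2 (by norm_num)
  obtain ⟨k₀, hk₀⟩ := exists_pow_small (b := 1) h1 (ENNReal.pow_ne_top (n := 2) hB) one_ne_zero
  have hex : ∃ r : ℕ, (2 * γ) ^ r * B ^ 2 ≤ 1 := ⟨k₀, by rw [mul_comm]; exact hk₀ k₀ le_rfl⟩
  refine ⟨Nat.find hex, Nat.find_spec hex, ?_⟩
  rcases h : Nat.find hex with _ | r
  · simp only [mul_zero, pow_zero, one_mul]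
    exact (pow_le_one₀ zero_le h1.le).trans (one_le_pow₀ hB1)
  · have h3 : 1 ≤ (2 * γ) ^ r * B ^ 2 := (not_le.1 (Nat.find_min hex (by omega))).le
    have h4 : (2 * γ) ^ 2 ≤ γ := by
      calc (2 * γ) ^ 2 = 4 * γ * γ := by ring
        _ ≤ γ := mul_le_of_le_one_left' hγ
    calc (2 * γ) ^ 4 ≤ (2 * γ) ^ 4 * ((2 * γ) ^ r * B ^ 2) ^ 4 :=
          le_mul_of_one_le_right' (one_le_pow₀ h3)
      _ = ((2 * γ) ^ 2) ^ (2 * (r + 1)) * B ^ 8 := by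
          generalize 2 * γ = d
          ring
      _ ≤ γ ^ (2 * (r + 1)) * B ^ 8 := by gcongr

theorem gain {c ρ K M μ γ B K₁ η : ℝ≥0∞} {r k N₁ : ℕ} (h1 : c * ρ ≤ K ^ 2 * ρ ^ k * μ)
    (h2 : M * (c * ρ) ^ k ≤ 1) (hN : ρ ^ N₁ ≤ c * ρ) (h3 : (2 * γ) ^ 4 ≤ γ ^ (2 * r) * B ^ 8)
    (h4 : B ≤ K₁ * M ^ 2)
    (h5 : 2 * (K ^ (2 * (20 * N₁)) * K₁ ^ 8) ≤
      M * (η ^ (20 * N₁) * (c * ρ) ^ (20 * N₁) * (2 * γ) ^ 4))
    (hM1 : 1 ≤ M) (hM : M ≠ ⊤) (hK0 : K ≠ 0) (hK : K ≠ ⊤) (hK₁0 : K₁ ≠ 0) (hK₁ : K₁ ≠ ⊤) :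
    2 ≤ (η * μ) ^ (20 * N₁) * γ ^ (2 * r) := by
  have hM0 : M ≠ 0 := (lt_of_lt_of_le zero_lt_one hM1).ne'
  have a1 : M * (ρ ^ N₁) ^ k ≤ 1 := le_trans (by gcongr) h2
  have a2 : M ^ 20 * (ρ ^ k) ^ (20 * N₁) ≤ 1 := by
    calc M ^ 20 * (ρ ^ k) ^ (20 * N₁) = (M * (ρ ^ N₁) ^ k) ^ 20 := by ring
      _ ≤ 1 := pow_le_one₀ zero_le a1
  have a3 : M ^ 20 * (c * ρ) ^ (20 * N₁) ≤ K ^ (2 * (20 * N₁)) * μ ^ (20 * N₁) := by
    calc M ^ 20 * (c * ρ) ^ (20 * N₁) ≤ M ^ 20 * (K ^ 2 * ρ ^ k * μ) ^ (20 * N₁) := by gcongr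
      _ = M ^ 20 * (ρ ^ k) ^ (20 * N₁) * (K ^ (2 * (20 * N₁)) * μ ^ (20 * N₁)) := by
          rw [mul_pow, mul_pow, ← pow_mul K]; ring
      _ ≤ _ := mul_le_of_le_one_left' a2
  have hZ0 : K ^ (2 * (20 * N₁)) * K₁ ^ 8 * M ^ 19 ≠ 0 :=
    mul_ne_zero (mul_ne_zero (pow_ne_zero _ hK0) (pow_ne_zero _ hK₁0)) (pow_ne_zero _ hM0)
  have hZ : K ^ (2 * (20 * N₁)) * K₁ ^ 8 * M ^ 19 ≠ ⊤ :=
    ENNReal.mul_ne_top (ENNReal.mul_ne_top (ENNReal.pow_ne_top hK) (ENNReal.pow_ne_top hK₁))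
      (ENNReal.pow_ne_top hM)
  refine (ENNReal.mul_le_mul_iff_left hZ0 hZ).1 ?_
  generalize 20 * N₁ = N at *
  calc 2 * (K ^ (2 * N) * K₁ ^ 8 * M ^ 19) = 2 * (K ^ (2 * N) * K₁ ^ 8) * M ^ 19 := by ring
    _ ≤ M * (η ^ N * (c * ρ) ^ N * (2 * γ) ^ 4) * M ^ 19 := by gcongr
    _ = η ^ N * (M ^ 20 * (c * ρ) ^ N) * (2 * γ) ^ 4 := by ring
    _ ≤ η ^ N * (K ^ (2 * N) * μ ^ N) * (γ ^ (2 * r) * (K₁ * M ^ 2) ^ 8) :=
        mul_le_mul' (mul_le_mul_right a3 _) (h3.trans (by gcongr))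
    _ = (η * μ) ^ N * γ ^ (2 * r) * (K ^ (2 * N) * K₁ ^ 8 * M ^ 16) := by rw [mul_pow η]; ring
    _ ≤ _ := by gcongr; norm_num

/-- the profile action of the new cycle -/
theorem new_lam (hS : Sys good Dec TrG SupU C ct x₀) {cyc op : X → X}
    {B B' γ ϑ Bp B'p γp ϑp t : ℝ≥0∞} (hγ : 4 * γ ≤ 1) (hϑ : 2 * ϑ ≤ 1)
    (h : ∀ x v, Dec x v → Dec (cyc x) (Lam B B' γ ϑ v))
    (hp : ∀ x v, Dec x v → Dec (op x) (Lam Bp B'p γp ϑp v)) (hγp : γp ≤ 1) (ht : t ≤ 1) (r : ℕ)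
    (x : X) (v : Prof) (hv : Dec x v) :
    Dec (ct t (op (cyc^[r] x))) (Lam (Bp * (1 + 2 * B) + 2 * (B + 2 * B ^ 2) + B)
      (B'p + 2 * ϑp * B') (γp * γ ^ r) (t * ϑp * ϑ ^ r) v) := by
  have hγ2 : 2 * γ ≤ 1 := le_trans (mul_le_mul_left (by norm_num) _) hγ
  have hγr : γ ^ r ≤ 1 :=
    pow_le_one₀ zero_le (le_trans (le_mul_of_one_le_left' (by norm_num)) hγ)
  have hr := cast_mul_pow_pred_le hγ2 r
  refine hS.dec_mono _ _ _ (hS.ct_dec t _ _ (hp _ _ (dec_iter hS hγ hϑ h r x v hv))) ?_ le_rfl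
    ?_ ?_ ?_
  · simp only [Lam]
    calc Bp + γp * (2 * B + γ ^ r * v.a) = Bp + γp * (2 * B) + γp * γ ^ r * v.a := by ring
      _ ≤ Bp + 1 * (2 * B) + γp * γ ^ r * v.a := by gcongr
      _ ≤ Bp + 1 * (2 * B) + γp * γ ^ r * v.a + (2 * Bp * B + 4 * B ^ 2 + B) := le_self_add
      _ = _ := by ring
  · simp only [Lam]
    refine le_trans (mul_le_of_le_one_left' ht) ?_
    calc Bp + Bp * (2 * B + γ ^ r * v.a) +
          γp * (2 * (B + 2 * B ^ 2) + r * B * γ ^ (r - 1) * v.a + γ ^ r * v.a')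
        = Bp * (1 + 2 * B) + γp * (2 * (B + 2 * B ^ 2)) +
          (γ ^ r * Bp + γp * (r * γ ^ (r - 1)) * B) * v.a + γp * γ ^ r * v.a' := by ring
      _ ≤ Bp * (1 + 2 * B) + 1 * (2 * (B + 2 * B ^ 2)) +
          (1 * Bp + 1 * 1 * B) * v.a + γp * γ ^ r * v.a' := by gcongr
      _ ≤ Bp * (1 + 2 * B) + 1 * (2 * (B + 2 * B ^ 2)) +
          (1 * Bp + 1 * 1 * B) * v.a + γp * γ ^ r * v.a' +
          (B + (2 * Bp * B + 2 * (B + 2 * B ^ 2)) * v.a) := le_self_add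
      _ = _ := by ring
  · simp only [Lam]
    calc t * (B'p * v.b + ϑp * (2 * B' * v.b + ϑ ^ r * v.b'))
        = t * ((B'p + 2 * ϑp * B') * v.b) + t * ϑp * ϑ ^ r * v.b' := by ring
      _ ≤ _ := add_le_add (mul_le_of_le_one_left' ht) le_rfl
  · simp only [Lam]
    exact le_of_eq (by ring)

/-- after `r` old cycles the profile is below the thresholds -/
theorem thresholds {B γ Bn e ε : ℝ≥0∞} {r : ℕ} (hγ0 : γ ≠ 0) (hγ : 4 * γ ≤ 1) (hB1 : 1 ≤ Bn)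
    (hr : (2 * γ) ^ r * Bn ^ 2 ≤ 1) (he : (2 * (B + 2 * B ^ 2) + 2 * B * γ⁻¹ + 6) * e ≤ ε) :
    e * (2 * B + γ ^ r * (2 * Bn)) ≤ ε ∧
      e * (2 * (B + 2 * B ^ 2) + r * B * γ ^ (r - 1) * (2 * Bn) +
        γ ^ r * (2 * (Bn + 2 * Bn ^ 2))) ≤ ε := by
  have hγt : γ ≠ ⊤ := ne_top_of_le_ne_top ENNReal.one_ne_top
    (le_trans (le_mul_of_one_le_left' (by norm_num)) hγ)
  have hB2 : Bn ≤ Bn ^ 2 := by rw [sq]; exact le_mul_of_one_le_right' hB1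
  have a0 : γ ^ r ≤ (2 * γ) ^ r := by
    gcongr
    exact le_mul_of_one_le_left' (by norm_num)
  have a1 : γ ^ r * Bn ^ 2 ≤ 1 := le_trans (by gcongr) hr
  have a2 : γ ^ r * Bn ≤ 1 := le_trans (by gcongr) a1
  have a3 : (r : ℝ≥0∞) * γ ^ (r - 1) * Bn ≤ γ⁻¹ := by
    rw [ENNReal.le_inv_iff_mul_le]
    calc (r : ℝ≥0∞) * γ ^ (r - 1) * Bn * γ = γ * (r * γ ^ (r - 1)) * Bn := by ring
      _ = r * γ ^ r * Bn := by rw [mul_cast_mul_pow_pred]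
      _ ≤ (2 * γ) ^ r * Bn ^ 2 := mul_le_mul' (cast_mul_pow_le r) hB2
      _ ≤ 1 := hr
  constructor
  · refine le_trans ?_ he
    rw [mul_comm]
    refine mul_le_mul_left ?_ _
    calc 2 * B + γ ^ r * (2 * Bn) = 2 * B + 2 * (γ ^ r * Bn) := by ring
      _ ≤ 2 * B + 2 * 1 := by gcongr
      _ ≤ 2 * B + 2 * 1 + (4 * B ^ 2 + 2 * B * γ⁻¹ + 4) := le_self_add
      _ = _ := by ring
  · refine le_trans ?_ he
    rw [mul_comm]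
    refine mul_le_mul_left ?_ _
    calc 2 * (B + 2 * B ^ 2) + r * B * γ ^ (r - 1) * (2 * Bn) + γ ^ r * (2 * (Bn + 2 * Bn ^ 2))
        = 2 * (B + 2 * B ^ 2) + 2 * B * (r * γ ^ (r - 1) * Bn) +
          (2 * (γ ^ r * Bn) + 4 * (γ ^ r * Bn ^ 2)) := by ring
      _ ≤ 2 * (B + 2 * B ^ 2) + 2 * B * γ⁻¹ + (2 * 1 + 4 * 1) := by gcongr
      _ = _ := by ring

theorem false_of_iter (hS : Sys good Dec TrG SupU C ct x₀) {Pre : X → Prop} {f : X → X}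
    {q μ : ℝ≥0∞} (hq : good q) (h0 : Pre x₀) (h1 : ∀ x, Pre x → Pre (f x))
    (h2 : ∀ x m, m ≠ ⊤ → Pre x → C q x m → C q (f x) (μ * m)) (hμ : 1 < μ) (hμt : μ ≠ ⊤) :
    False := by
  obtain ⟨χ, hχ, hb⟩ := hS.bound q hq
  have key : ∀ i : ℕ, Pre (f^[i] x₀) ∧ C q (f^[i] x₀) (μ ^ i) := by
    intro i
    induction i with
    | zero => exact ⟨h0, by simpa using hS.C₀ q hq⟩
    | succ i ih =>
      rw [Function.iterate_succ_apply', pow_succ']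
      exact ⟨h1 _ ih.1, h2 _ _ (ENNReal.pow_ne_top hμt) ih.1 ih.2⟩
  have hi : μ⁻¹ < 1 := ENNReal.inv_lt_one.2 hμ
  obtain ⟨k, hk⟩ := exists_pow_small (a := χ) (b := 2⁻¹) hi hχ (by simp)
  have h3 := hb _ _ (key k).2
  have h4 : (1 : ℝ≥0∞) ≤ 2⁻¹ := by
    calc (1 : ℝ≥0∞) = (μ * μ⁻¹) ^ k := by
          rw [ENNReal.mul_inv_cancel (lt_trans zero_lt_one hμ).ne' hμt, one_pow]
      _ = μ ^ k * μ⁻¹ ^ k := mul_pow _ _ _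
      _ ≤ χ * μ⁻¹ ^ k := by gcongr
      _ ≤ 2⁻¹ := hk k le_rfl
  exact absurd h4 (by norm_num)

set_option maxHeartbeats 400000 in
/-- The inductive step: the new cycle is `ct t ∘ op ∘ cyc^[r]`. -/
theorem level_step (hS : Sys good Dec TrG SupU C ct x₀) (hc0 : c ≠ 0) (hc1 : c ≤ 1)
    (hρ0 : ρ ≠ 0) (hρ1 : ρ < 1) (hε : ε ≠ 0) (hϱ : ρ * ϱ ^ (20 * N₁) < 1)
    (hN : ρ ^ N₁ ≤ c * ρ) (pf : PieceFamily good Dec TrG C c ρ ϱ ε₀ ε) {n : ℕ} (hn : 2 ≤ n)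
    (h : Level good Dec TrG SupU C ε₀ (20 * N₁) n) :
    ∃ n', 2 ≤ n' ∧ n' < n ∧ Level good Dec TrG SupU C ε₀ (20 * N₁) n' := by
  classical
  obtain ⟨q, η, μ, B, B', γ, ϑ, Pre, cyc, hq, hη0, hη1, hμt, hBt, hB't, hγ0, hγ, hϑ, L1, L2, L3,
    L4, L5, L6, L7⟩ := h
  have hcρ : c * ρ < 1 := lt_of_le_of_lt (mul_le_of_le_one_left' hc1) hρ1
  have hcρ0 : c * ρ ≠ 0 := mul_ne_zero hc0 hρ0
  have hN₁ : 0 < N₁ := by
    rcases Nat.eq_zero_or_pos N₁ with rfl | h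
    · rw [pow_zero] at hN
      exact absurd hcρ (not_lt.2 hN)
    · exact h
  have hϱt : ϱ ≠ ⊤ := ne_top_of_mul_pow_lt hρ0 (by omega) hϱ
  have hγ1 : γ ≤ 1 := le_trans (le_mul_of_one_le_left' (by norm_num)) hγ
  have hϑ1 : ϑ ≤ 1 := le_trans (le_mul_of_one_le_left' (by norm_num)) hϑ
  have hηt : η ≠ ⊤ := ne_top_of_le_ne_top ENNReal.one_ne_top hη1
  obtain ⟨K, hK1, hKt, hK⟩ := pf η hη0
  have hK0 : K ≠ 0 := (lt_of_lt_of_le zero_lt_one hK1).ne'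
  have hB2 : 2 * (B + 2 * B ^ 2) ≠ ⊤ := ENNReal.mul_ne_top (by norm_num)
    (ENNReal.add_ne_top.2 ⟨hBt, ENNReal.mul_ne_top (by norm_num) (ENNReal.pow_ne_top hBt)⟩)
  have hB3 : 1 + 2 * B ≠ ⊤ :=
    ENNReal.add_ne_top.2 ⟨by simp, ENNReal.mul_ne_top (by norm_num) hBt⟩
  obtain ⟨k₂, hk₂⟩ := exists_pow_small (a := 4 * 2 ^ (20 * N₁) * K) (b := 1) hρ1
    (ENNReal.mul_ne_top (ENNReal.mul_ne_top (by norm_num) (ENNReal.pow_ne_top (by norm_num))) hKt)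
    one_ne_zero
  obtain ⟨k₃, hk₃⟩ := exists_pow_small (a := 2 * (B + 2 * B ^ 2) + 2 * B * γ⁻¹ + 6) hρ1
    (ENNReal.add_ne_top.2 ⟨ENNReal.add_ne_top.2 ⟨hB2, ENNReal.mul_ne_top
      (ENNReal.mul_ne_top (by norm_num) hBt) (ENNReal.inv_ne_top.2 hγ0)⟩, by norm_num⟩) hε
  obtain ⟨k₄, hk₄⟩ := exists_pow_small (a := K ^ (20 * N₁ + 1)) (b := 1) hϱ
    (ENNReal.pow_ne_top hKt) one_ne_zero
  obtain ⟨k₅, hk₅⟩ := ENNReal.exists_nat_gt hKt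
  obtain ⟨k₀, hk₀⟩ : ∃ k : ℕ, k = k₂ + k₃ + k₄ + k₅ := ⟨_, rfl⟩
  obtain ⟨K₁, hK₁⟩ : ∃ x : ℝ≥0∞, x = K * (1 + 2 * B) + 2 * (B + 2 * B ^ 2) + B := ⟨_, rfl⟩
  have hK₁t : K₁ ≠ ⊤ := hK₁ ▸ ENNReal.add_ne_top.2
    ⟨ENNReal.add_ne_top.2 ⟨ENNReal.mul_ne_top hKt hB3, hB2⟩, hBt⟩
  have hK₁1 : 1 ≤ K₁ := by
    rw [hK₁]
    exact le_trans (le_trans (one_le_mul hK1 le_self_add) le_self_add) le_self_add
  obtain ⟨M₁, hM₁t, hM₁⟩ := exists_large (a := 2) (b := (c * ρ) ^ k₀) (by norm_num)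
    (pow_ne_zero _ hcρ0)
  obtain ⟨M₂, hM₂t, hM₂⟩ := exists_large (a := 2 * (K ^ (2 * (20 * N₁)) * K₁ ^ 8))
    (b := η ^ (20 * N₁) * (c * ρ) ^ (20 * N₁) * (2 * γ) ^ 4)
    (ENNReal.mul_ne_top (by norm_num)
      (ENNReal.mul_ne_top (ENNReal.pow_ne_top hKt) (ENNReal.pow_ne_top hK₁t)))
    (mul_ne_zero (mul_ne_zero (pow_ne_zero _ hη0) (pow_ne_zero _ hcρ0))
      (pow_ne_zero _ (mul_ne_zero (by norm_num) hγ0)))
  obtain ⟨M, qp, hM0, hMt, hqp, hM⟩ := hK (max 1 (max M₁ M₂))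
    (max_lt ENNReal.one_lt_top (max_lt hM₁t.lt_top hM₂t.lt_top)).ne
  simp only [max_le_iff] at hM0
  obtain ⟨hM1, hMM₁, hMM₂⟩ := hM0
  have hex : ∃ k : ℕ, M * (c * ρ) ^ k * K ≤ 1 := by
    obtain ⟨k₁, hk₁⟩ := exists_pow_small (b := 1) hcρ (ENNReal.mul_ne_top hMt hKt) one_ne_zero
    exact ⟨k₁, le_trans (le_of_eq (by ring)) (hk₁ k₁ le_rfl)⟩
  obtain ⟨k, hkdef⟩ : ∃ k, k = Nat.find hex := ⟨_, rfl⟩
  have hk : M * (c * ρ) ^ k * K ≤ 1 := hkdef ▸ Nat.find_spec hex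
  have hkk : k₀ < k := by
    by_contra hlt
    have h1 : (c * ρ) ^ k₀ ≤ (c * ρ) ^ k := pow_le_pow_of_le_one zero_le hcρ.le (not_lt.1 hlt)
    have h2 : (2 : ℝ≥0∞) ≤ 1 := by
      calc (2 : ℝ≥0∞) ≤ M₁ * (c * ρ) ^ k₀ * 1 := by rw [mul_one]; exact hM₁
        _ ≤ M * (c * ρ) ^ k * K := by gcongr
        _ ≤ 1 := hk
    exact absurd h2 (by norm_num)
  have hkm : 1 ≤ M * (c * ρ) ^ (k - 1) * K :=
    (not_le.1 (Nat.find_min hex (by rw [← hkdef]; omega))).le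
  obtain ⟨op, μp, ηp, B'p, ϑp, hηp, hμp1, hμpt, hB'pt, hϑp, opD, opT, opV⟩ := hM k
    (hk₅.le.trans (by exact_mod_cast (by omega : k₅ ≤ k))) hk
  have hϑpt : ϑp ≠ ⊤ := ne_top_of_le_ne_top
    (ENNReal.mul_ne_top (ENNReal.mul_ne_top hKt (ENNReal.pow_ne_top hϱt)) hμpt) hϑp
  have hlow : c * ρ ≤ K ^ 2 * ρ ^ k * μp := by
    obtain ⟨k', rfl⟩ : ∃ k', k = k' + 1 := ⟨k - 1, by omega⟩
    simp only [Nat.add_sub_cancel] at hkm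
    calc c * ρ ≤ c * ρ * (M * (c * ρ) ^ k' * K) := le_mul_of_one_le_right' hkm
      _ = M * c ^ (k' + 1) * (K * ρ ^ (k' + 1)) := by rw [mul_pow]; ring
      _ ≤ K * μp * (K * ρ ^ (k' + 1)) := by gcongr
      _ = _ := by ring
  obtain ⟨Bn, hBn⟩ : ∃ x : ℝ≥0∞, x = K * M ^ 2 * (1 + 2 * B) + 2 * (B + 2 * B ^ 2) + B := ⟨_, rfl⟩
  have hM2 : 1 ≤ M ^ 2 := one_le_pow₀ hM1
  have hBnK : Bn ≤ K₁ * M ^ 2 := by
    rw [hBn, hK₁]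
    calc K * M ^ 2 * (1 + 2 * B) + 2 * (B + 2 * B ^ 2) + B
        = K * (1 + 2 * B) * M ^ 2 + (2 * (B + 2 * B ^ 2) + B) * 1 := by ring
      _ ≤ K * (1 + 2 * B) * M ^ 2 + (2 * (B + 2 * B ^ 2) + B) * M ^ 2 := by gcongr
      _ = _ := by ring
  have hBnt : Bn ≠ ⊤ :=
    ne_top_of_le_ne_top (ENNReal.mul_ne_top hK₁t (ENNReal.pow_ne_top hMt)) hBnK
  have hBn1 : 1 ≤ Bn := by
    rw [hBn]
    exact le_trans (le_trans (one_le_mul (one_le_mul hK1 hM2) le_self_add) le_self_add) le_self_add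
  obtain ⟨r, hr1, hr2⟩ := exists_iter hγ hBn1 hBnt
  have hgain : 2 ≤ (η * μp) ^ (20 * N₁) * γ ^ (2 * r) :=
    gain hlow (le_trans (le_mul_of_one_le_right' hK1) hk) hN hr2 hBnK
      (hM₂.trans (mul_le_mul_left hMM₂ _)) hM1 hMt hK0 hKt
      (lt_of_lt_of_le zero_lt_one hK₁1).ne' hK₁t
  have hγp : 4 * 2 ^ (20 * N₁) * (K * ρ ^ k) ≤ 1 :=
    le_trans (le_of_eq (by ring)) (hk₂ k (by omega))
  have h2N : (1 : ℝ≥0∞) ≤ 2 ^ (20 * N₁) := one_le_pow₀ (by norm_num)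
  have hγp4 : 4 * (K * ρ ^ k) ≤ 1 :=
    le_trans (mul_le_mul_left (le_mul_of_one_le_right' h2N) _) hγp
  have hγp1 : K * ρ ^ k ≤ 1 := le_trans (le_mul_of_one_le_left' (by norm_num)) hγp4
  have hγr : γ ^ r ≤ 1 := pow_le_one₀ zero_le hγ1
  have hϑr : ϑ ^ r ≤ 1 := pow_le_one₀ zero_le hϑ1
  obtain ⟨γ', hγ'⟩ : ∃ x : ℝ≥0∞, x = K * ρ ^ k * γ ^ r := ⟨_, rfl⟩
  have hγ'p : γ' ≤ K * ρ ^ k := hγ' ▸ mul_le_of_le_one_right' hγr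
  have hγ'r : γ' ≤ γ ^ r := hγ' ▸ mul_le_of_le_one_left' hγp1
  have hγ'4 : 4 * γ' ≤ 1 := le_trans (mul_le_mul_right hγ'p _) hγp4
  have hγ'2 : 2 * γ' ≤ 1 := le_trans (mul_le_mul_left (by norm_num) _) hγ'4
  have hγ'1 : γ' ≤ 1 := hγ'p.trans hγp1
  have hγ'0 : γ' ≠ 0 :=
    hγ' ▸ mul_ne_zero (mul_ne_zero hK0 (pow_ne_zero _ hρ0)) (pow_ne_zero _ hγ0)
  obtain ⟨B'n, hB'n⟩ : ∃ x : ℝ≥0∞, x = B'p + 2 * ϑp * B' := ⟨_, rfl⟩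
  have hB'nt : B'n ≠ ⊤ := hB'n ▸ ENNReal.add_ne_top.2
    ⟨hB'pt, ENNReal.mul_ne_top (ENNReal.mul_ne_top (by norm_num) hϑpt) hB't⟩
  have hLam : ∀ t, t ≤ 1 → ∀ x v, Dec x v →
      Dec (ct t (op (cyc^[r] x))) (Lam Bn B'n γ' (t * ϑp * ϑ ^ r) v) := by
    intro t ht x v hv
    rw [hBn, hB'n, hγ']
    exact new_lam hS hγ hϑ L5 opD hγp1 ht r x v hv
  have F1 : ∀ i x, Pre x → Pre (cyc^[i] x) := by
    intro i
    induction i with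
    | zero => exact fun _ h => h
    | succ i ih => exact fun x h => by rw [Function.iterate_succ_apply']; exact L2 _ (ih x h)
  have F2 : ∀ i p x m, good p → q ≤ p → m ≠ ⊤ → Pre x → C p x m →
      C p (cyc^[i] x) (μ ^ i * m) := by
    intro i p x m hp hqp hm hx hC
    induction i with
    | zero => simpa using hC
    | succ i ih =>
      rw [Function.iterate_succ_apply', pow_succ', mul_assoc]
      exact L4 p _ _ hp hqp (ENNReal.mul_ne_top (ENNReal.pow_ne_top hμt) hm) (F1 i x hx) ih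
  obtain ⟨th1, th2⟩ := thresholds (B := B) hγ0 hγ hBn1 hr1 (hk₃ k (by omega))
  have core : ∀ t b b' s : ℝ≥0∞, t ≤ η → B'n * b + t * ϑp * ϑ ^ r * b' ≤ b' →
      t * ϑp * ϑ ^ r * s ≤ s → b ≤ ηp → 2 * B' * b + b' ≤ ηp → s ≤ ηp →
      (∀ x, Pre x ∧ Dec x ⟨2 * Bn, b, 2 * (Bn + 2 * Bn ^ 2), b', s⟩ →
        Pre (ct t (op (cyc^[r] x))) ∧
          Dec (ct t (op (cyc^[r] x))) ⟨2 * Bn, b, 2 * (Bn + 2 * Bn ^ 2), b', s⟩) ∧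
      ∀ p x m, good p → max q qp ≤ p → m ≠ ⊤ →
        Pre x ∧ Dec x ⟨2 * Bn, b, 2 * (Bn + 2 * Bn ^ 2), b', s⟩ → C p x m →
          C p (ct t (op (cyc^[r] x))) (t * μp * μ ^ r * m) := by
    intro t b b' s ht h1 h2 h3 h4 h5
    exact cyc_core (ε := ε) hS (F := fun x => cyc^[r] x) ht hη1 (ENNReal.pow_ne_top hμt) L1 L3
      (F1 r) (F2 r) opT opV (fun x hx => lam_fix hS hγ'2 h1 h2 (hLam t (ht.trans hη1) x _ hx))
      (fun x hx => ⟨_, dec_iter hS hγ hϑ L5 r x _ hx, th1, th2, h3,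
        le_trans (add_le_add le_rfl (mul_le_of_le_one_left' hϑr)) h4,
        le_trans (mul_le_of_le_one_left' hϑr) h5⟩)
  have hgain2 : 2 * γ' ^ (n - 2) ≤ (η * μp * μ ^ r) ^ (20 * N₁) := by
    obtain ⟨n', rfl⟩ : ∃ n', n = n' + 2 := ⟨n - 2, by omega⟩
    simp only [Nat.add_sub_cancel]
    calc 2 * γ' ^ n' ≤ (η * μp) ^ (20 * N₁) * γ ^ (2 * r) * (γ ^ r) ^ n' := by gcongr
      _ = (η * μp) ^ (20 * N₁) * (γ ^ (n' + 2)) ^ r := by ring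
      _ ≤ (η * μp) ^ (20 * N₁) * (μ ^ (20 * N₁)) ^ r := by gcongr
      _ = _ := by rw [mul_pow (η * μp), ← pow_mul μ, ← pow_mul μ, mul_comm r]
  have hratio : ∀ t : ℝ≥0∞, γ' * (t * ϑp * ϑ ^ r) ^ (20 * N₁) ≤ (t * μp * μ ^ r) ^ (20 * N₁) := by
    intro t
    have h1 := ratio_le hϑp (hk₄ k (by omega))
    calc γ' * (t * ϑp * ϑ ^ r) ^ (20 * N₁)
        = t ^ (20 * N₁) * (K * ρ ^ k * ϑp ^ (20 * N₁)) * (γ * ϑ ^ (20 * N₁)) ^ r := by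
          rw [hγ', mul_pow, mul_pow, mul_pow γ, ← pow_mul ϑ, ← pow_mul ϑ, mul_comm r]; ring
      _ ≤ t ^ (20 * N₁) * μp ^ (20 * N₁) * (μ ^ (20 * N₁)) ^ r := by gcongr
      _ = _ := by rw [mul_pow, mul_pow, ← pow_mul μ, ← pow_mul μ, mul_comm r]
  have hμ't : ∀ t, t ≤ 1 → t * μp * μ ^ r ≠ ⊤ := fun t ht => ENNReal.mul_ne_top
    (ENNReal.mul_ne_top (ne_top_of_le_ne_top ENNReal.one_ne_top ht) hμpt) (ENNReal.pow_ne_top hμt)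
  by_cases hbig : 1 < η * μp * μ ^ r
  · exfalso
    obtain ⟨c1, c2⟩ := core η 0 0 0 le_rfl (by simp) (by simp) zero_le (by simp) zero_le
    exact false_of_iter hS (f := fun x => ct η (op (cyc^[r] x))) (good_max hq hqp)
      ⟨L1 _ (hS.tr_mono _ _ _ hS.tr₀ zero_le) (hS.sup_mono _ _ _ hS.sup₀ zero_le),
        hS.dec_mono _ _ _ (hS.fresh _ 0 hS.tr₀ hS.sup₀) zero_le le_rfl zero_le le_rfl le_rfl⟩
      c1 (fun x m hm hx hC => c2 _ x m (good_max hq hqp) le_rfl hm hx hC) hbig (hμ't η hη1)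
  have hn3 : 3 ≤ n := by
    by_contra hlt
    have : n - 2 = 0 := by omega
    rw [this, pow_zero, mul_one] at hgain2
    exact absurd (hgain2.trans (pow_le_one₀ zero_le (not_lt.1 hbig))) (by norm_num)
  obtain ⟨θ, hθ⟩ : ∃ x : ℝ≥0∞, x = ϑp * ϑ ^ r := ⟨_, rfl⟩
  have hθt : θ ≠ ⊤ := hθ ▸ ENNReal.mul_ne_top hϑpt (ne_top_of_le_ne_top ENNReal.one_ne_top hϑr)
  obtain ⟨a, ha⟩ : ∃ x : ℝ≥0∞, x = min 1 (2 * (η * θ))⁻¹ := ⟨_, rfl⟩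
  have ha1 : a ≤ 1 := ha ▸ min_le_left _ _
  have htη : η * a ≤ η := mul_le_of_le_one_right' ha1
  have htϑ : 2 * (η * a * ϑp * ϑ ^ r) ≤ 1 := by
    rw [mul_assoc (η * a), ← hθ, ha]
    exact two_mul_thin_le η θ
  obtain ⟨e, he0, -, he⟩ := exists_small (a := 2 * B' + 2 * B'n + 1)
    (ENNReal.add_ne_top.2 ⟨ENNReal.add_ne_top.2 ⟨ENNReal.mul_ne_top (by norm_num) hB't,
      ENNReal.mul_ne_top (by norm_num) hB'nt⟩, by simp⟩) hηp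
  obtain ⟨η', hη'⟩ : ∃ x : ℝ≥0∞, x = min η e := ⟨_, rfl⟩
  have hη'η : η' ≤ η := hη' ▸ min_le_left _ _
  have hη'e : (2 * B' + 2 * B'n + 1) * η' ≤ ηp :=
    le_trans (mul_le_mul_right (hη' ▸ min_le_right _ _) _) he
  have hη'p : η' ≤ ηp := le_trans (le_mul_of_one_le_left' le_add_self) hη'e
  obtain ⟨c1, c2⟩ := core (η * a) η' (2 * B'n * η') η' htη
    (by
      calc B'n * η' + η * a * ϑp * ϑ ^ r * (2 * B'n * η')
          = B'n * η' + 2 * (η * a * ϑp * ϑ ^ r) * (B'n * η') := by ring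
        _ ≤ B'n * η' + 1 * (B'n * η') := by gcongr
        _ = _ := by ring)
    (mul_le_of_le_one_left' (le_trans (le_mul_of_one_le_left' (by norm_num)) htϑ)) hη'p
    (by
      refine le_trans ?_ hη'e
      rw [← add_mul]
      exact mul_le_mul_left le_self_add _) hη'p
  refine ⟨max (n - 2) 2, le_max_right _ _, max_lt (by omega) (by omega), max q qp, η',
    η * a * μp * μ ^ r, Bn, B'n, γ', η * a * ϑp * ϑ ^ r, _, fun x => ct (η * a) (op (cyc^[r] x)),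
    good_max hq hqp, ?_, hη'η.trans hη1, hμ't _ (htη.trans hη1), hBnt, hB'nt, hγ'0, hγ'4, htϑ,
    fun x h1 h2 => ⟨L1 x (hS.tr_mono _ _ _ h1 hη'η) (hS.sup_mono _ _ _ h2 hη'η),
      hS.dec_mono _ _ _ (hS.fresh x η' h1 h2) zero_le le_rfl zero_le zero_le le_rfl⟩,
    c1, fun x h => L3 x h.1, c2, hLam _ (htη.trans hη1), ?_, hratio _⟩
  · rw [hη']
    exact (lt_min (pos_iff_ne_zero.2 hη0) (pos_iff_ne_zero.2 he0)).ne'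
  · rcases le_total 1 (2 * (η * θ))⁻¹ with h1 | h1
    · rw [ha, min_eq_left h1, mul_one]
      refine le_trans (pow_le_pow_of_le_one zero_le hγ'1 (le_max_left _ _)) (le_trans ?_ hgain2)
      exact le_mul_of_one_le_left' (by norm_num)
    · have h0 : 2 * (η * θ) ≠ 0 := by
        intro h0
        rw [h0] at h1
        simp at h1
      have h2 : 2 * (η * a * ϑp * ϑ ^ r) = 1 := by
        rw [mul_assoc (η * a), ← hθ, ha, min_eq_right h1]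
        calc 2 * (η * (2 * (η * θ))⁻¹ * θ) = 2 * (η * θ) * (2 * (η * θ))⁻¹ := by ring
          _ = 1 := ENNReal.mul_inv_cancel h0
            (ENNReal.mul_ne_top (by norm_num) (ENNReal.mul_ne_top hηt hθt))
      have h3 : 2 ^ (20 * N₁) * γ' ≤ 1 := by
        refine le_trans ?_ hγp
        calc 2 ^ (20 * N₁) * γ' = 1 * 2 ^ (20 * N₁) * γ' := by ring
          _ ≤ _ := by gcongr; norm_num
      refine le_trans (pow_le_pow_of_le_one zero_le hγ'1 (le_max_right _ _))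
        (le_trans ?_ (hratio (η * a)))
      calc γ' ^ 2 = γ' * (γ' * (2 * (η * a * ϑp * ϑ ^ r)) ^ (20 * N₁)) := by
            rw [h2, one_pow]; ring
        _ = γ' * ((2 ^ (20 * N₁) * γ') * (η * a * ϑp * ϑ ^ r) ^ (20 * N₁)) := by
            rw [mul_pow 2]; ring
        _ ≤ γ' * (1 * (η * a * ϑp * ϑ ^ r) ^ (20 * N₁)) := by gcongr
        _ = _ := by rw [one_mul]

end Vale.Agent.P165
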