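import Mathlib
import Vale.Agent.P165.SchedB

/-!
The multi-scale schedule: conclusion.
-/

open scoped ENNReal

namespace Vale.Agent.P165

variable {X : Type*} {good : ℝ≥0∞ → Prop} {Dec : X → Prof → Prop}
  {TrG SupU : X → ℝ≥0∞ → Prop} {C : ℝ≥0∞ → X → ℝ≥0∞ → Prop} {ct : ℝ≥0∞ → X → X} {x₀ : X}
  {c ρ ϱ ε₀ ε : ℝ≥0∞} {N₁ : ℕ}

theorem sched (hS : Sys good Dec TrG SupU C ct x₀) (hc0 : c ≠ 0) (hc1 : c ≤ 1) (hρ0 : ρ ≠ 0)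
    (hρ1 : ρ < 1) (hε₀ : ε₀ ≠ 0) (hε : ε ≠ 0) (hϱ : ρ * ϱ ^ (20 * N₁) < 1) (hN₁ : 0 < N₁)
    (hN : ρ ^ N₁ ≤ c * ρ) (pf : PieceFamily good Dec TrG C c ρ ϱ ε₀ ε) : False := by
  obtain ⟨n, hn⟩ := level_base hS hc0 hc1 hρ0 hρ1 hε₀ hε hϱ hN₁ pf
  have key : ∀ n, 2 ≤ n → ¬ Level good Dec TrG SupU C ε₀ (20 * N₁) n := by
    intro n
    induction n using Nat.strong_induction_on with
    | _ n ih =>
      intro h2 hl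
      obtain ⟨n', h2', hlt, hl'⟩ := level_step hS hc0 hc1 hρ0 hρ1 hε hϱ hN pf h2 hl
      exact ih n' hlt h2' hl'
  exact key (n + 2) (by omega) (hn.mono (by omega))

end Vale.Agent.P165
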