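import Mathlib
import Vale.Agent.P165.ExB
import Vale.Agent.P165.KerA

/-!
The potential inequality: start, cap and thinning.
-/

open scoped ENNReal

namespace Vale.Agent.P165

variable {V : Type*} [DecidableEq V] {Ψ : Finset V → Finset V → ℝ≥0∞}
  {hit : Finset V → V → ℝ≥0∞}

theorem CC_start (hΨ : ∀ A L : Finset V, ((L \ A).card : ℝ≥0∞) ≤ Ψ A L)
    (hhit : ∀ A y, y ∈ A → 1 ≤ hit A y) : CC Ψ hit (0, 0) 1 := by
  intro A L
  have h1 : ((L ∩ A).card : ℝ≥0∞) ≤ ∑ y ∈ L, hit A y := by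
    calc ((L ∩ A).card : ℝ≥0∞) = ∑ _y ∈ L ∩ A, (1 : ℝ≥0∞) := by simp
      _ ≤ ∑ y ∈ L ∩ A, hit A y :=
        Finset.sum_le_sum fun y hy => hhit A y (Finset.mem_inter.1 hy).2
      _ ≤ _ := Finset.sum_le_sum_of_subset Finset.inter_subset_left
  have h2 : (L.card : ℝ≥0∞) = (L \ A).card + (L ∩ A).card := by
    rw [← Finset.card_sdiff_add_card_inter L A]; push_cast; rfl
  simp only [Pi.zero_apply, Finset.sum_const_zero, add_zero, one_mul]
  rw [h2]
  exact add_le_add (hΨ A L) h1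

theorem CC_bound {x : Ker V × Ker V} {m : ℝ≥0∞} (h : CC Ψ hit x m) (y : V) (h0 : hit ∅ y = 0) :
    m ≤ Ψ ∅ {y} := by
  simpa [h0] using h ∅ {y}

theorem potAux_pairs {L : Finset V} {y : V} (hy : y ∉ L) (U : Ker V) :
    ∑ a ∈ insert y L, ∑ b ∈ (insert y L).erase a, U a b =
      ∑ a ∈ L, ∑ b ∈ L.erase a, U a b + ∑ a ∈ L, (U y a + U a y) := by
  rw [Finset.sum_insert hy, Finset.erase_insert hy, Finset.sum_add_distrib]
  have h1 : ∑ a ∈ L, ∑ b ∈ (insert y L).erase a, U a b =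
      ∑ a ∈ L, (U a y + ∑ b ∈ L.erase a, U a b) := by
    refine Finset.sum_congr rfl fun a ha => ?_
    rw [Finset.erase_insert_of_ne (by rintro rfl; exact hy ha),
      Finset.sum_insert fun h => hy (Finset.mem_of_mem_erase h)]
  rw [h1, Finset.sum_add_distrib]
  ring

/-- strong induction on `L`: if some pair has `x.2 y y' > 1` remove `y` from `L` -/
theorem CC_cap (hΨ : ∀ A L L', L ⊆ L' → Ψ A L ≤ Ψ A L') {x : Ker V × Ker V} {m : ℝ≥0∞}
    (h : CC Ψ hit x m) : CC Ψ hit (x.1, fun y z => min 1 (x.2 y z)) m := by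
  intro A L
  induction L using Finset.strongInduction with
  | H L ih =>
    by_cases h1 : ∀ y ∈ L, ∀ y' ∈ L.erase y, x.2 y y' ≤ 1
    · refine (h A L).trans (le_of_eq ?_)
      congr 3
      exact Finset.sum_congr rfl fun y hy => Finset.sum_congr rfl fun y' hy' =>
        (min_eq_right (h1 y hy y' hy')).symm
    · push Not at h1
      obtain ⟨y, hy, y', hy', h2⟩ := h1
      obtain ⟨L', hL', rfl⟩ : ∃ L', y ∉ L' ∧ L = insert y L' :=
        ⟨L.erase y, Finset.notMem_erase y L, (Finset.insert_erase hy).symm⟩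
      rw [Finset.erase_insert hL'] at hy'
      have h3 := ih L' (Finset.ssubset_insert hL')
      have h4 : (1 : ℝ≥0∞) ≤ ∑ a ∈ L', (min 1 (x.2 y a) + min 1 (x.2 a y)) :=
        le_trans (le_trans (min_eq_left h2.le).ge le_self_add)
          (Finset.single_le_sum (f := fun a => min 1 (x.2 y a) + min 1 (x.2 a y))
            (fun _ _ => zero_le) hy')
      simp only at h3 ⊢
      rw [potAux_pairs hL' fun y z => min 1 (x.2 y z), Finset.card_insert_of_notMem hL',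
        Finset.sum_insert hL']
      push_cast
      calc m * ((L'.card : ℝ≥0∞) + 1) = m * L'.card + m * 1 := mul_add _ _ _
        _ ≤ (Ψ A L' + m * (∑ y ∈ L', (hit A y + ∑ z ∈ A, x.1 y z) +
            ∑ y ∈ L', ∑ y' ∈ L'.erase y, min 1 (x.2 y y'))) +
            m * ∑ a ∈ L', (min 1 (x.2 y a) + min 1 (x.2 a y)) :=
          add_le_add h3 (mul_le_mul_right h4 m)
        _ = Ψ A L' + m * (∑ y ∈ L', (hit A y + ∑ z ∈ A, x.1 y z) +
            (∑ y ∈ L', ∑ y' ∈ L'.erase y, min 1 (x.2 y y') +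
              ∑ a ∈ L', (min 1 (x.2 y a) + min 1 (x.2 a y)))) := by ring
        _ ≤ _ := add_le_add (hΨ A _ _ (Finset.subset_insert y L'))
          (mul_le_mul_right (add_le_add le_add_self le_rfl) m)

omit [DecidableEq V] in
theorem potAux_ind {L ω : Finset V} (h : ω ⊆ L) (g : V → ℝ≥0∞) :
    ∑ y ∈ ω, g y = ∑ y ∈ L, ind (y ∈ ω) * g y := by
  rw [← Finset.sum_subset h fun y _ hy => by rw [ind_neg hy, zero_mul]]
  exact Finset.sum_congr rfl fun y hy => by rw [ind_pos hy, one_mul]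

theorem potAux_one {t : ℝ≥0∞} (ht : t ≤ 1) (L : Finset V) (g : V → ℝ≥0∞) :
    Ex (fun _ => t) L (fun ω => ∑ y ∈ ω, g y) = t * ∑ y ∈ L, g y := by
  rw [Ex_congr fun ω hω => potAux_ind hω g, Ex_sum, Finset.mul_sum]
  refine Finset.sum_congr rfl fun y hy => ?_
  rw [Ex_mem (fun _ => ht) hy fun _ => g y, Ex_const fun _ => ht]

theorem potAux_two {t : ℝ≥0∞} (ht : t ≤ 1) (L : Finset V) (U : Ker V) :
    Ex (fun _ => t) L (fun ω => ∑ y ∈ ω, ∑ y' ∈ ω.erase y, U y y') ≤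
      t * ∑ y ∈ L, ∑ y' ∈ L.erase y, t * U y y' := by
  have h1 : ∀ ω, ω ⊆ L → ∑ y ∈ ω, ∑ y' ∈ ω.erase y, U y y' ≤
      ∑ y ∈ L, ∑ y' ∈ L.erase y, ind (y ∈ ω ∧ y' ∈ ω) * U y y' := by
    intro ω hω
    refine le_trans (Finset.sum_le_sum fun y hy => ?_) (Finset.sum_le_sum_of_subset hω)
    refine le_trans (Finset.sum_le_sum fun y' hy' => ?_)
      (Finset.sum_le_sum_of_subset (Finset.erase_subset_erase y hω))
    rw [ind_pos ⟨hy, Finset.mem_of_mem_erase hy'⟩, one_mul]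
  refine (Ex_mono h1).trans ?_
  rw [Ex_sum, Finset.mul_sum]
  refine Finset.sum_le_sum fun y _ => ?_
  rw [Ex_sum, Finset.mul_sum]
  refine Finset.sum_le_sum fun y' hy' => ?_
  refine (Ex_mem_mem_anti (fun _ => ht) L (Finset.ne_of_mem_erase hy').symm
    (f := fun _ => U y y') antitone_const).trans ?_
  rw [Ex_const fun _ => ht, mul_assoc]

/-- average the inequality over the random subset `L'` of `L` under `Ex (fun _ => t) L`
(`Ex_mem`, `Ex_mem_anti`, `Ex_mem_mem_anti` with `f = 1`) -/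
theorem CC_thin (hΨ : ∀ A L L', L ⊆ L' → Ψ A L ≤ Ψ A L') {x : Ker V × Ker V} {m t : ℝ≥0∞}
    (ht : t ≤ 1) (h : CC Ψ hit x m) : CC Ψ hit (x.1, fun y z => t * x.2 y z) (t * m) := by
  intro A L
  have h1 : Ex (fun _ => t) L (fun ω => m * ∑ _y ∈ ω, (1 : ℝ≥0∞)) ≤
      Ex (fun _ => t) L (fun ω => Ψ A L + m * (∑ y ∈ ω, (hit A y + ∑ z ∈ A, x.1 y z) +
        ∑ y ∈ ω, ∑ y' ∈ ω.erase y, x.2 y y')) := by
    refine Ex_mono fun ω hω => ?_
    rw [Finset.sum_const, nsmul_eq_mul, mul_one]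
    exact (h A ω).trans (add_le_add (hΨ A _ _ hω) le_rfl)
  rw [Ex_mul_left, potAux_one ht, Ex_add, Ex_const fun _ => ht, Ex_mul_left, Ex_add,
    potAux_one ht, Finset.sum_const, nsmul_eq_mul, mul_one] at h1
  calc t * m * L.card = m * (t * L.card) := by ring
    _ ≤ _ := h1
    _ ≤ Ψ A L + m * (t * ∑ y ∈ L, (hit A y + ∑ z ∈ A, x.1 y z) +
        t * ∑ y ∈ L, ∑ y' ∈ L.erase y, t * x.2 y y') :=
      add_le_add le_rfl (mul_le_mul_right (add_le_add le_rfl (potAux_two ht L x.2)) m)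
    _ = _ := by ring

theorem CC_capThin (hΨ : ∀ A L L', L ⊆ L' → Ψ A L ≤ Ψ A L') {x : Ker V × Ker V} {m t : ℝ≥0∞}
    (ht : t ≤ 1) (h : CC Ψ hit x m) : CC Ψ hit (capThin t x) (t * m) := by
  have h1 := CC_thin (x := (x.1, fun y z => min 1 (x.2 y z))) hΨ ht (CC_cap hΨ h)
  exact h1

/-- the empty stage, used when the root is deleted -/
theorem stage_trivial (hΨ : ∀ A L L', L ⊆ L' → Ψ A L ≤ Ψ A L') (Tt Φ Hs : Ker V) (μ : ℝ≥0∞)
    (x : Ker V × Ker V) {A : Finset V} {y : V} (hy : 1 ≤ hit A y) :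
    ∃ K, StageK Ψ Tt Φ A y K ∧ Valid hit Hs μ x A y K := by
  refine ⟨fun f => f ∅ ∅, ⟨fun f g h => h ∅ ∅, fun _ _ => rfl, fun _ _ => rfl, fun _ => rfl,
    fun L => ?_, fun g => by simp, fun g => by simp, by simp⟩, ?_⟩
  · simp only [Finset.union_empty]
    exact hΨ A _ _ (Finset.subset_insert y L)
  · unfold Valid
    simp only [Finset.sum_empty, add_zero, Finset.card_empty, Nat.cast_zero, zero_add]
    exact le_mul_of_one_le_right zero_le (hy.trans le_self_add)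

end Vale.Agent.P165
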