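import Mathlib
import Vale.Agent.P165.Pot

/-!
The potential inequality: one stage.
-/

open scoped ENNReal

namespace Vale.Agent.P165

variable {V : Type*} [DecidableEq V] {Ψ : Finset V → Finset V → ℝ≥0∞}
  {hit : Finset V → V → ℝ≥0∞}

/-- the bracket in `CC` -/
noncomputable def potSAux_err (hit : Finset V → V → ℝ≥0∞) (x : Ker V × Ker V) (A L : Finset V) :
    ℝ≥0∞ :=
  ∑ y ∈ L, (hit A y + ∑ z ∈ A, x.1 y z) + ∑ y ∈ L, ∑ y' ∈ L.erase y, x.2 y y'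

/-- the interaction of a root with a future exit -/
noncomputable def potSAux_X (H Tt Φ : Ker V) (x : Ker V × Ker V) : Ker V :=
  Φ + ktr (kmul (H + x.1) (ktr Tt)) + kmul Φ x.2 + kmul Φ (ktr x.2)

theorem potSAux_union (s t : Finset V) (g : V → ℝ≥0∞) :
    ∑ a ∈ s ∪ t, g a ≤ ∑ a ∈ s, g a + ∑ a ∈ t, g a := by
  rw [← Finset.sum_union_inter]
  exact le_self_add

theorem potSAux_single {H Gk : Ker V}
    (hsub : ∀ A S y, hit (A ∪ S) y ≤ hit A y + ∑ z ∈ S, H y z) (A S : Finset V) (y : V) :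
    hit (A ∪ S) y + ∑ z ∈ A ∪ S, Gk y z ≤
      (hit A y + ∑ z ∈ A, Gk y z) + ∑ z ∈ S, (H + Gk) y z := by
  simp only [Pi.add_apply, Finset.sum_add_distrib]
  exact (add_le_add (hsub A S y) (potSAux_union A S _)).trans (le_of_eq (by ring))

theorem potSAux_errA {H : Ker V}
    (hsub : ∀ A S y, hit (A ∪ S) y ≤ hit A y + ∑ z ∈ S, H y z) (x : Ker V × Ker V)
    (A S L : Finset V) :
    potSAux_err hit x (A ∪ S) L ≤ potSAux_err hit x A L + ∑ z ∈ S, ∑ y ∈ L, (H + x.1) y z := by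
  unfold potSAux_err
  rw [Finset.sum_comm (s := S), add_right_comm]
  refine add_le_add ?_ le_rfl
  rw [← Finset.sum_add_distrib]
  exact Finset.sum_le_sum fun y _ => potSAux_single hsub A S y

theorem potSAux_pairs (U : Ker V) (F₀ F : Finset V) :
    ∑ a ∈ F₀ ∪ F, ∑ b ∈ (F₀ ∪ F).erase a, U a b ≤ ∑ a ∈ F₀, ∑ b ∈ F₀.erase a, U a b +
      ∑ a ∈ F, ∑ b ∈ F.erase a, U a b + ∑ f ∈ F, ∑ f' ∈ F₀, (U f f' + U f' f) := by
  have h1 : ∀ a, ∑ b ∈ (F₀ ∪ F).erase a, U a b ≤ ∑ b ∈ F₀.erase a, U a b + ∑ b ∈ F, U a b := by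
    intro a
    rw [Finset.erase_union_distrib]
    exact (potSAux_union _ _ _).trans (add_le_add le_rfl
      (Finset.sum_le_sum_of_subset (Finset.erase_subset a F)))
  have h2 : ∀ a, ∑ b ∈ (F₀ ∪ F).erase a, U a b ≤ ∑ b ∈ F.erase a, U a b + ∑ b ∈ F₀, U a b := by
    intro a
    rw [Finset.erase_union_distrib, add_comm]
    exact (potSAux_union _ _ _).trans (add_le_add
      (Finset.sum_le_sum_of_subset (Finset.erase_subset a F₀)) le_rfl)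
  refine (potSAux_union _ _ _).trans ((add_le_add (Finset.sum_le_sum fun a _ => h1 a)
    (Finset.sum_le_sum fun a _ => h2 a)).trans (le_of_eq ?_))
  simp only [Finset.sum_add_distrib]
  rw [Finset.sum_comm (s := F₀) (t := F)]
  ring

theorem potSAux_errB {H : Ker V}
    (hsub : ∀ A S y, hit (A ∪ S) y ≤ hit A y + ∑ z ∈ S, H y z) (x : Ker V × Ker V)
    (A S F₀ F : Finset V) :
    potSAux_err hit x (A ∪ S) (F₀ ∪ F) ≤ potSAux_err hit x A F₀ +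
      ∑ z ∈ S, ∑ y ∈ F₀, (H + x.1) y z +
      (∑ f ∈ F, (hit (A ∪ S) f + ∑ z ∈ S, x.1 f z) + ∑ f ∈ F, ∑ f' ∈ F.erase f, x.2 f f') +
      ∑ f ∈ F, (∑ z ∈ A, x.1 f z + ∑ f' ∈ F₀, (x.2 f f' + x.2 f' f)) := by
  unfold potSAux_err
  have h1 : ∑ y ∈ F₀, (hit (A ∪ S) y + ∑ z ∈ A ∪ S, x.1 y z) ≤
      ∑ y ∈ F₀, (hit A y + ∑ z ∈ A, x.1 y z) + ∑ z ∈ S, ∑ y ∈ F₀, (H + x.1) y z := by
    rw [Finset.sum_comm (s := S), ← Finset.sum_add_distrib]
    exact Finset.sum_le_sum fun y _ => potSAux_single hsub A S y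
  have h2 : ∑ y ∈ F, (hit (A ∪ S) y + ∑ z ∈ A ∪ S, x.1 y z) ≤
      ∑ f ∈ F, (hit (A ∪ S) f + ∑ z ∈ S, x.1 f z) + ∑ f ∈ F, ∑ z ∈ A, x.1 f z := by
    rw [← Finset.sum_add_distrib]
    exact Finset.sum_le_sum fun y _ =>
      (add_le_add le_rfl (potSAux_union A S _)).trans (le_of_eq (by ring))
  refine (add_le_add ((potSAux_union _ _ _).trans (add_le_add h1 h2))
    (potSAux_pairs x.2 F₀ F)).trans (le_of_eq ?_)
  rw [Finset.sum_add_distrib (s := F) (f := fun f => ∑ z ∈ A, x.1 f z)]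
  ring

theorem potSAux_card (F₀ F : Finset V) :
    (F₀.card : ℝ≥0∞) + F.card ≤ (F₀ ∪ F).card + ∑ f ∈ F, ∑ f' ∈ F₀, kid f f' := by
  have h1 : ((F₀ ∩ F).card : ℝ≥0∞) ≤ ∑ f ∈ F, ∑ f' ∈ F₀, kid f f' := by
    calc ((F₀ ∩ F).card : ℝ≥0∞) = ∑ _y ∈ F₀ ∩ F, (1 : ℝ≥0∞) := by simp
      _ ≤ ∑ f ∈ F₀ ∩ F, ∑ f' ∈ F₀, kid f f' := Finset.sum_le_sum fun y hy =>
        le_trans (ind_pos (rfl : y = y)).ge (Finset.single_le_sum (f := fun f' => kid y f')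
          (fun _ _ => zero_le) (Finset.mem_inter.1 hy).1)
      _ ≤ _ := Finset.sum_le_sum_of_subset Finset.inter_subset_right
  have h2 : (F₀.card : ℝ≥0∞) + F.card = (F₀ ∪ F).card + (F₀ ∩ F).card := by
    exact_mod_cast (Finset.card_union_add_card_inter F₀ F).symm
  rw [h2]
  exact add_le_add le_rfl h1

omit [DecidableEq V] in
theorem potSAux_t1 (K L : Ker V) (y : V) (s : Finset V) :
    ∑' f, K y f * ∑ z ∈ s, L f z = ∑ z ∈ s, kmul K L y z := by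
  simp only [Finset.mul_sum]
  exact Summable.tsum_finsetSum fun _ _ => ENNReal.summable

omit [DecidableEq V] in
theorem potSAux_t2 (K L : Ker V) (y : V) (s : Finset V) :
    ∑' f, K y f * ∑ z ∈ s, L z f = ∑ z ∈ s, kmul L (ktr K) z y := by
  rw [potSAux_t1 K (fun f z => L z f)]
  exact Finset.sum_congr rfl fun z _ => tsum_congr fun f => mul_comm _ _

theorem potSAux_cancel {μ : ℝ≥0∞} (hμ0 : μ ≠ 0) (hμ : μ ≠ ⊤) (c : ℝ≥0∞) : μ * (μ⁻¹ * c) = c := by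
  rw [← mul_assoc, ENNReal.mul_inv_cancel hμ0 hμ, one_mul]

omit [DecidableEq V] in
theorem potSAux_fit {H Hs Tt Φ : Ker V} {μ : ℝ≥0∞} (hμ0 : μ ≠ 0) (hμ : μ ≠ ⊤)
    (x : Ker V × Ker V) (y y' : V) :
    μ * kmul (H + (stepOp H Hs Tt Φ μ x).1) (ktr Tt) y' y +
      kmul (potSAux_X H Tt Φ x) (ktr Φ) y' y ≤
    μ * ((stepOp H Hs Tt Φ μ x).2 y y' + (stepOp H Hs Tt Φ μ x).2 y' y) := by
  have e1 : kmul (ktr (kmul (H + x.1) (ktr Tt))) (ktr Φ) y' y =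
      kmul (kmul Φ H) (ktr Tt) y y' + kmul (kmul Φ x.1) (ktr Tt) y y' := by
    rw [← ktr_kmul, ← kmul_assoc, kmul_add, add_kmul]
    rfl
  have e2 : kmul (kmul Φ (ktr x.2)) (ktr Φ) y' y = kmul (kmul Φ x.2) (ktr Φ) y y' := by
    have : kmul (kmul Φ (ktr x.2)) (ktr Φ) = ktr (kmul (kmul Φ x.2) (ktr Φ)) := by
      rw [ktr_kmul, ktr_kmul, ktr_ktr, kmul_assoc]
    rw [this]
    rfl
  have e3 : ∀ a b, μ * (stepOp H Hs Tt Φ μ x).2 a b =
      μ * kmul (H + (stepOp H Hs Tt Φ μ x).1) (ktr Tt) a b + kmul (kmul Φ H) (ktr Tt) a b +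
        (kmul (kmul Φ x.2) (ktr Φ) a b + kmul Φ (ktr Φ) a b) := by
    intro a b
    simp only [stepOp, Pi.add_apply, Pi.smul_apply, smul_eq_mul, mul_add,
      potSAux_cancel hμ0 hμ]
    rw [kmul_add Φ x.2, add_kmul (kmul Φ x.2), kmul_kid]
    rfl
  have e4 : kmul (kmul Φ x.1) (ktr Tt) y y' ≤
      μ * kmul (H + (stepOp H Hs Tt Φ μ x).1) (ktr Tt) y y' := by
    have h1 : μ⁻¹ • kmul Φ x.1 ≤ H + (stepOp H Hs Tt Φ μ x).1 := fun a b =>
      le_add_left le_add_self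
    have h2 := kmul_mono h1 (le_refl (ktr Tt)) y y'
    rw [smul_kmul, Pi.smul_apply, Pi.smul_apply, smul_eq_mul] at h2
    exact (potSAux_cancel hμ0 hμ _).ge.trans (mul_le_mul_right h2 μ)
  have e5 : kmul (potSAux_X H Tt Φ x) (ktr Φ) y' y = kmul Φ (ktr Φ) y' y +
      kmul (ktr (kmul (H + x.1) (ktr Tt))) (ktr Φ) y' y + kmul (kmul Φ x.2) (ktr Φ) y' y +
        kmul (kmul Φ (ktr x.2)) (ktr Φ) y' y := by
    rw [potSAux_X, add_kmul, add_kmul, add_kmul]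
    rfl
  rw [mul_add, e3, e3, e5, e1, e2]
  calc _ = kmul (kmul Φ x.1) (ktr Tt) y y' + kmul (kmul Φ H) (ktr Tt) y y' +
        (kmul (kmul Φ x.2) (ktr Φ) y y' + 0) +
        (μ * kmul (H + (stepOp H Hs Tt Φ μ x).1) (ktr Tt) y' y + 0 +
          (kmul (kmul Φ x.2) (ktr Φ) y' y + kmul Φ (ktr Φ) y' y)) := by ring
    _ ≤ _ := add_le_add (add_le_add (add_le_add e4 le_rfl) (add_le_add le_rfl zero_le))
      (add_le_add (add_le_add le_rfl zero_le) le_rfl)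

theorem potSAux_main {H Hs Tt Φ : Ker V} {μ m : ℝ≥0∞} (hμ0 : μ ≠ 0) (hμ : μ ≠ ⊤) (hm : m ≠ ⊤)
    (hsub : ∀ A S y, hit (A ∪ S) y ≤ hit A y + ∑ z ∈ S, H y z) {x : Ker V × Ker V}
    (hst : ∀ A y, ∃ K, StageK Ψ Tt Φ A y K ∧ Valid hit Hs μ x A y K) (h : CC Ψ hit x m)
    (L : Finset V) : ∀ A F₀ : Finset V, m * (F₀.card + μ * L.card) ≤ Ψ A (L ∪ F₀) +
      m * (potSAux_err hit x A F₀ + μ * potSAux_err hit (stepOp H Hs Tt Φ μ x) A L +
        ∑ f ∈ F₀, ∑ y ∈ L, potSAux_X H Tt Φ x y f) := by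
  induction L using Finset.induction_on with
  | empty =>
    intro A F₀
    simpa [potSAux_err] using h A F₀
  | insert y L hy ih =>
    intro A F₀
    obtain ⟨K, hK, hV⟩ := hst A y
    obtain ⟨x', hx'⟩ : ∃ x', x' = stepOp H Hs Tt Φ μ x := ⟨_, rfl⟩
    obtain ⟨X, hX⟩ : ∃ X, X = potSAux_X H Tt Φ x := ⟨_, rfl⟩
    have hfit := potSAux_fit (H := H) (Hs := Hs) (Tt := Tt) (Φ := Φ) hμ0 hμ x y
    have hG : ∀ z, μ * x'.1 y z = μ * Hs y z + kmul Φ x.1 y z := fun z => by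
      simp only [hx', stepOp, Pi.add_apply, Pi.smul_apply, smul_eq_mul, mul_add,
        potSAux_cancel hμ0 hμ]
    have hXy : ∀ f, X y f = kmul Φ kid y f + kmul (H + x.1) (ktr Tt) f y +
        (kmul Φ x.2 y f + kmul Φ (ktr x.2) y f) := fun f => by
      rw [hX, kmul_kid, ← add_assoc]
      rfl
    rw [← hx', ← hX] at ih hfit ⊢
    obtain ⟨C, hC⟩ : ∃ C, C = potSAux_err hit x A F₀ + μ * potSAux_err hit x' A L +
      ∑ f ∈ F₀, ∑ y ∈ L, X y f := ⟨_, rfl⟩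
    obtain ⟨gS, hgS⟩ : ∃ gS : V → ℝ≥0∞, gS = fun z =>
      ∑ f ∈ F₀, (H + x.1) f z + μ * ∑ y' ∈ L, (H + x'.1) y' z := ⟨_, rfl⟩
    obtain ⟨gF, hgF⟩ : ∃ gF : V → ℝ≥0∞, gF = fun f => ∑ f' ∈ F₀, kid f f' +
      (∑ z ∈ A, x.1 f z + (∑ f' ∈ F₀, x.2 f f' + ∑ f' ∈ F₀, ktr x.2 f f')) +
        ∑ y' ∈ L, X y' f := ⟨_, rfl⟩
    have p1 : ∀ S F : Finset V, m * (F₀.card + μ * L.card) + m * F.card ≤
        Ψ (A ∪ S) (L ∪ F₀ ∪ F) + m * (C + ((∑ f ∈ F, (hit (A ∪ S) f + ∑ z ∈ S, x.1 f z) +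
          ∑ f ∈ F, ∑ f' ∈ F.erase f, x.2 f f') + (∑ z ∈ S, gS z + ∑ f ∈ F, gF f))) := by
      intro S F
      have q1 := ih (A ∪ S) (F₀ ∪ F)
      rw [← Finset.union_assoc] at q1
      have q2 := potSAux_errB hsub x A S F₀ F
      have q3 := potSAux_errA hsub x' A S L
      have q4 := potSAux_union F₀ F fun f => ∑ y ∈ L, X y f
      calc m * (F₀.card + μ * L.card) + m * F.card = m * ((F₀.card + F.card) + μ * L.card) := by
            ring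
        _ ≤ m * (((F₀ ∪ F).card + ∑ f ∈ F, ∑ f' ∈ F₀, kid f f') + μ * L.card) :=
          mul_le_mul_right (add_le_add (potSAux_card F₀ F) le_rfl) m
        _ = m * ((F₀ ∪ F).card + μ * L.card) + m * ∑ f ∈ F, ∑ f' ∈ F₀, kid f f' := by ring
        _ ≤ _ := add_le_add (q1.trans (add_le_add le_rfl (mul_le_mul_right
          (add_le_add (add_le_add q2 (mul_le_mul_right q3 μ)) q4) m))) le_rfl
        _ = _ := by
          simp only [hC, hgS, hgF, Finset.sum_add_distrib, ← Finset.mul_sum, ktr]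
          ring
    have p2 := hK.mono _ _ p1
    rw [hK.add, hK.const, hK.smul, hK.add, hK.smul, hK.add, hK.const, hK.add,
      hK.add (fun S _ => ∑ z ∈ S, gS z)] at p2
    have p3 := hK.psi (L ∪ F₀)
    have p4 : K (fun S _ => ∑ z ∈ S, gS z) ≤ ∑ f ∈ F₀, kmul (H + x.1) (ktr Tt) f y +
        μ * ∑ y' ∈ L, kmul (H + x'.1) (ktr Tt) y' y := by
      refine (hK.hS gS).trans (le_of_eq ?_)
      simp only [hgS, mul_add, ENNReal.tsum_add, mul_left_comm _ μ, ENNReal.tsum_mul_left,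
        potSAux_t2]
    have p5 : K (fun _ F => ∑ f ∈ F, gF f) ≤ ∑ f ∈ F₀, kmul Φ kid y f +
        (∑ z ∈ A, kmul Φ x.1 y z + (∑ f ∈ F₀, kmul Φ x.2 y f + ∑ f ∈ F₀, kmul Φ (ktr x.2) y f)) +
          ∑ y' ∈ L, kmul X (ktr Φ) y' y := by
      refine (hK.hF gF).trans (le_of_eq ?_)
      simp only [hgF, mul_add, ENNReal.tsum_add]
      rw [potSAux_t1, potSAux_t1, potSAux_t1, potSAux_t1, potSAux_t2]
    have p6 : μ * ∑ y' ∈ L, kmul (H + x'.1) (ktr Tt) y' y + ∑ y' ∈ L, kmul X (ktr Φ) y' y ≤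
        μ * ∑ y' ∈ L, (x'.2 y y' + x'.2 y' y) := by
      rw [Finset.mul_sum, Finset.mul_sum, ← Finset.sum_add_distrib]
      exact Finset.sum_le_sum fun y' _ => hfit y'
    have p7 : potSAux_err hit x' A (insert y L) = potSAux_err hit x' A L +
        (hit A y + ∑ z ∈ A, x'.1 y z) + ∑ y' ∈ L, (x'.2 y y' + x'.2 y' y) := by
      unfold potSAux_err
      rw [potAux_pairs hy, Finset.sum_insert hy]
      ring
    have p8 : μ * ∑ z ∈ A, x'.1 y z = μ * ∑ z ∈ A, Hs y z + ∑ z ∈ A, kmul Φ x.1 y z := by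
      simp only [Finset.mul_sum, hG, Finset.sum_add_distrib]
    have p9 : ∑ f ∈ F₀, ∑ y' ∈ insert y L, X y' f = ∑ f ∈ F₀, kmul Φ kid y f +
        ∑ f ∈ F₀, kmul (H + x.1) (ktr Tt) f y +
        (∑ f ∈ F₀, kmul Φ x.2 y f + ∑ f ∈ F₀, kmul Φ (ktr x.2) y f) +
        ∑ f ∈ F₀, ∑ y' ∈ L, X y' f := by
      simp only [Finset.sum_insert hy, hXy, Finset.sum_add_distrib]
    unfold Valid at hV
    obtain ⟨κ, hκ⟩ : ∃ κ, κ = K (fun _ F => (F.card : ℝ≥0∞)) := ⟨_, rfl⟩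
    have hκt : m * κ ≠ ⊤ := ENNReal.mul_ne_top hm (hκ ▸ hK.fin)
    rw [← hκ] at hV p2
    obtain ⟨v, hv⟩ : ∃ v, v = K (fun S F => ∑ f ∈ F, (hit (A ∪ S) f + ∑ z ∈ S, x.1 f z) +
      ∑ f ∈ F, ∑ f' ∈ F.erase f, x.2 f f') := ⟨_, rfl⟩
    rw [← hv] at hV p2
    refine (ENNReal.add_le_add_iff_right hκt).1 ?_
    rw [Finset.card_insert_of_notMem hy, Finset.insert_union, p7, p9]
    push_cast
    calc m * (F₀.card + μ * (L.card + 1)) + m * κ
        = m * (F₀.card + μ * L.card) + m * κ + m * μ := by ring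
      _ ≤ _ := add_le_add (p2.trans (add_le_add p3 (mul_le_mul_right (add_le_add le_rfl
        (add_le_add le_rfl (add_le_add p4 p5))) m))) le_rfl
      _ = Ψ A (insert y (L ∪ F₀)) + m * (C + (μ + v) + (∑ f ∈ F₀, kmul Φ kid y f +
          ∑ f ∈ F₀, kmul (H + x.1) (ktr Tt) f y +
          (∑ f ∈ F₀, kmul Φ x.2 y f + ∑ f ∈ F₀, kmul Φ (ktr x.2) y f)) +
          ∑ z ∈ A, kmul Φ x.1 y z +
          (μ * ∑ y' ∈ L, kmul (H + x'.1) (ktr Tt) y' y + ∑ y' ∈ L, kmul X (ktr Φ) y' y)) := by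
        ring
      _ ≤ _ := add_le_add le_rfl (mul_le_mul_right (add_le_add (add_le_add (add_le_add
        (add_le_add le_rfl hV) le_rfl) le_rfl) p6) m)
      _ = _ := by
        rw [mul_add μ (potSAux_err hit x' A L + _), mul_add μ (potSAux_err hit x' A L),
          mul_add μ (hit A y) (∑ z ∈ A, x'.1 y z), p8, hC]
        ring

/-- One stage. Write `x = (Gk, U)`, `stepOp .. x = (G', U')`,
`err (G, U) A L` for the bracket in `CC`, and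
`X y f = Φ y f + kmul (H + Gk) (ktr Tt) f y + kmul Φ U y f + kmul Φ (ktr U) y f`.
Prove by induction on `L`, for all `A` and `F₀`:
`m * (|F₀| + μ |L|) ≤ Ψ A (L ∪ F₀) + m * (err x A F₀ + μ * err (G',U') A L + ∑_{y ∈ L, f ∈ F₀} X y f)`.
Step for `insert y L`: apply `K` to the hypothesis at `(A ∪ S, F₀ ∪ F)`; use
`|F₀| + |F| ≤ |F₀ ∪ F| + ∑_{f ∈ F} ind (f ∈ F₀)`, `hsub`, `hS`, `hF`, `psi`; add `Valid` and cancel
the finite term `m * K (..)` (it is finite by `Valid` and `fin` unless the error of `y` is `⊤`, in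
which case the claim is trivial). The pair terms fit because
`μ * kmul (H + G') (ktr Tt) y' y + kmul X (ktr Φ) y' y ≤ μ * (U' y' y + U' y y')`. -/
theorem CC_step {H Hs Tt Φ : Ker V} {μ m : ℝ≥0∞} (hμ0 : μ ≠ 0) (hμ : μ ≠ ⊤) (hm : m ≠ ⊤)
    (hsub : ∀ A S y, hit (A ∪ S) y ≤ hit A y + ∑ z ∈ S, H y z) {x : Ker V × Ker V}
    (hst : ∀ A y, ∃ K, StageK Ψ Tt Φ A y K ∧ Valid hit Hs μ x A y K) (h : CC Ψ hit x m) :
    CC Ψ hit (stepOp H Hs Tt Φ μ x) (μ * m) := by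
  intro A L
  have h1 := potSAux_main hμ0 hμ hm hsub hst h L A ∅
  simp only [potSAux_err, Finset.card_empty, Nat.cast_zero, zero_add, Finset.union_empty,
    Finset.sum_empty, add_zero] at h1
  calc μ * m * L.card = m * (μ * L.card) := by ring
    _ ≤ _ := h1
    _ = _ := by ring

end Vale.Agent.P165
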