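import Mathlib
import Vale.Agent.P165.PercB

/-!
Linearity of `E3`, `KK`, and the Markov property of a stage.
-/

open scoped ENNReal

namespace Vale.Agent.P165

variable {V : Type*} [DecidableEq V] {G : SimpleGraph V} [G.LocallyFinite] {q : ℝ≥0∞}
  {a : List V → ℝ≥0∞} {φ : Ker V} {R : Finset V} {y : V}

section E3

variable {f g : Finset (Sym2 V) → Finset (List V) → Finset (List V) → ℝ≥0∞}

theorem E3_mono (h : ∀ ω m c, ω ⊆ EP G R → m ⊆ LL R → c ⊆ LL R → f ω m c ≤ g ω m c) :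
    E3 G q a φ R y f ≤ E3 G q a φ R y g :=
  E2_mono fun ω m h1 h2 => Ex_mono fun c h3 => h ω m c h1 h2 h3

theorem E3_add (f g : Finset (Sym2 V) → Finset (List V) → Finset (List V) → ℝ≥0∞) :
    E3 G q a φ R y (fun ω m c => f ω m c + g ω m c) = E3 G q a φ R y f + E3 G q a φ R y g := by
  simp only [E3, Ex_add, E2_add]

theorem E3_mul_left (t : ℝ≥0∞) (f : Finset (Sym2 V) → Finset (List V) → Finset (List V) → ℝ≥0∞) :
    E3 G q a φ R y (fun ω m c => t * f ω m c) = t * E3 G q a φ R y f := by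
  simp only [E3, Ex_mul_left, E2_mul_left]

theorem E3_mul_right (t : ℝ≥0∞) (f : Finset (Sym2 V) → Finset (List V) → Finset (List V) → ℝ≥0∞) :
    E3 G q a φ R y (fun ω m c => f ω m c * t) = E3 G q a φ R y f * t := by
  simp only [E3, Ex_mul_right, E2_mul_right]

theorem E3_sum {κ : Type*} (s : Finset κ)
    (f : κ → Finset (Sym2 V) → Finset (List V) → Finset (List V) → ℝ≥0∞) :
    E3 G q a φ R y (fun ω m c => ∑ i ∈ s, f i ω m c) = ∑ i ∈ s, E3 G q a φ R y (f i) := by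
  simp only [E3, Ex_sum, E2_sum]

theorem E3_tsum {κ : Type*} (f : κ → Finset (Sym2 V) → Finset (List V) → Finset (List V) → ℝ≥0∞) :
    E3 G q a φ R y (fun ω m c => ∑' i, f i ω m c) = ∑' i, E3 G q a φ R y (f i) := by
  simp only [E3, Ex_tsum, E2_tsum]

omit [DecidableEq V] in
theorem coin_le_one (hφ : ∀ y u, φ y u ≤ 1) (y : V) (η : List V) : φ y (η.headD y) ^ 2 ≤ 1 :=
  pow_le_one₀ zero_le (hφ _ _)

theorem E3_of_E2 (hφ : ∀ y u, φ y u ≤ 1) (f : Finset (Sym2 V) → Finset (List V) → ℝ≥0∞) :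
    E3 G q a φ R y (fun ω m _ => f ω m) = E2 G q a R f := by
  simp only [E3, Ex_const (coin_le_one hφ y)]

theorem E3_const (hq : q ≤ 1) (ha : ∀ η, a η ≤ 1) (hφ : ∀ y u, φ y u ≤ 1) (t : ℝ≥0∞) :
    E3 G q a φ R y (fun _ _ _ => t) = t :=
  (E3_of_E2 hφ fun _ _ => t).trans (E2_const hq ha t)

theorem E3_zero : E3 G q a φ R y (fun _ _ _ => 0) = 0 := by
  simp only [E3, E2, Ex_zero]

theorem E3_iSup {κ : Type*} (f : κ → Finset (Sym2 V) → Finset (List V) → Finset (List V) → ℝ≥0∞)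
    (hf : ∀ i j, ∃ k, ∀ ω m c, f i ω m c ≤ f k ω m c ∧ f j ω m c ≤ f k ω m c) :
    E3 G q a φ R y (fun ω m c => ⨆ i, f i ω m c) = ⨆ i, E3 G q a φ R y (f i) := by
  unfold E3 E2
  rw [← Ex_iSup _ _ _ fun i j => (hf i j).imp fun k h ω =>
    ⟨Ex_mono fun m _ => Ex_mono fun c _ => (h ω m c).1,
      Ex_mono fun m _ => Ex_mono fun c _ => (h ω m c).2⟩]
  refine Ex_congr fun ω _ => ?_
  rw [← Ex_iSup _ _ _ fun i j => (hf i j).imp fun k h m =>
    ⟨Ex_mono fun c _ => (h ω m c).1, Ex_mono fun c _ => (h ω m c).2⟩]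
  exact Ex_congr fun m _ => Ex_iSup _ _ _ fun i j => (hf i j).imp fun k h c => h ω m c

end E3

theorem KK_mono {f g : Finset V → Finset V → ℝ≥0∞} (h : ∀ S F, S ⊆ R → F ⊆ R → f S F ≤ g S F) :
    KK G q a φ R y f ≤ KK G q a φ R y g :=
  E3_mono fun _ _ _ _ _ _ => h _ _ K0_subset Exits_subset

theorem KK_add (f g : Finset V → Finset V → ℝ≥0∞) :
    KK G q a φ R y (fun S F => f S F + g S F) = KK G q a φ R y f + KK G q a φ R y g :=
  E3_add _ _

theorem KK_smul (t : ℝ≥0∞) (f : Finset V → Finset V → ℝ≥0∞) :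
    KK G q a φ R y (fun S F => t * f S F) = t * KK G q a φ R y f := E3_mul_left _ _

theorem KK_const (hq : q ≤ 1) (ha : ∀ η, a η ≤ 1) (hφ : ∀ y u, φ y u ≤ 1) (t : ℝ≥0∞) :
    KK G q a φ R y (fun _ _ => t) = t := E3_const hq ha hφ t

theorem KK_fin (hq : q ≤ 1) (ha : ∀ η, a η ≤ 1) (hφ : ∀ y u, φ y u ≤ 1) :
    KK G q a φ R y (fun _ F => (F.card : ℝ≥0∞)) ≠ ⊤ := by
  refine ne_top_of_le_ne_top (ENNReal.natCast_ne_top R.card) ?_
  rw [← KK_const (G := G) (R := R) (y := y) hq ha hφ (R.card : ℝ≥0∞)]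
  exact KK_mono fun S F _ h => Nat.cast_le.2 (Finset.card_le_card h)

/-- `E3_of_E2`, `E2_sum_K0`, `t0_le_tc`, `t0_eq_zero` -/
theorem KK_hS (ha : ∀ η, a η ≤ 1) (hφ : ∀ y u, φ y u ≤ 1) (A : Finset V) (L : ℕ)
    (g : V → ℝ≥0∞) :
    KK G q a φ (ball G y L \ A) y (fun S _ => ∑ z ∈ S, g z) ≤
      ∑' z, TT G q y z * ballK G L y z * g z := by
  refine ((E3_of_E2 hφ fun ω m => ∑ z ∈ K0 G (ball G y L \ A) y ω m, g z).trans
    (E2_sum_K0 _ y g)).le.trans (ENNReal.tsum_le_tsum fun z => ?_)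
  by_cases hz : z ∈ ball G y L \ A
  · rw [ballK, ind_pos (Finset.mem_sdiff.1 hz).1, mul_one, mul_comm]
    exact mul_le_mul_left ((t0_le_tc ha _ y z).trans (tc_le_TT q _ y z)) _
  · rw [t0_eq_zero hz, mul_zero]
    exact zero_le

open Classical in
theorem psi_markov {p : ℝ≥0∞} (hqp : q ≤ p) (hp : p ≤ 1) {A : Finset V} (hRA : Disjoint R A)
    (L W : Finset V) (m c : Finset (List V)) :
    Ex (fun _ => q) (EP G R) (fun ω => psi G p (W \ (A ∪ K0 G R y ω m)) (L ∪ Exits G R y ω m c)) ≤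
      psi G p ((W ∪ R) \ A) (insert y L) := by
  have hq : q ≤ 1 := hqp.trans hp
  obtain ⟨δ, hδ, hpq⟩ := exists_sprinkle hqp hp
  have hR : R ⊆ (W ∪ R) \ A := fun v hv =>
    Finset.mem_sdiff.2 ⟨Finset.mem_union_right _ hv, Finset.disjoint_left.1 hRA hv⟩
  have hW : ∀ S : Finset V, W \ (A ∪ S) ⊆ (W ∪ R) \ A := fun S =>
    Finset.sdiff_subset_sdiff Finset.subset_union_left Finset.subset_union_left
  have hS : ∀ ω ω' : Finset (Sym2 V), (∀ e ∈ EP G (K0 G R y ω m), (e ∈ ω ↔ e ∈ ω')) →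
      (K0 G R y ω' m, Exits G R y ω' m c) = (K0 G R y ω m, Exits G R y ω m c) :=
    fun ω ω' h => Prod.ext (exits_local (c := c) h).1 (exits_local h).2
  have h1 := Ex_markov₂ (q := fun _ => q) (δ := fun _ => δ) (p := fun _ => p) (fun _ => hq)
    (fun _ => hδ) (fun _ => hpq) (EP G ((W ∪ R) \ A))
    (fun ω => (K0 G R y ω m, Exits G R y ω m c)) (fun x => (EP G x.1 : Set (Sym2 V))) hS
    (fun _ _ => 1) (fun _ _ _ _ _ _ => rfl)
    (fun x ω => (((W \ (A ∪ x.1)).filter fun v => ∃ z ∈ L ∪ x.2,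
      Conn G (W \ (A ∪ x.1)) ω z v).card : ℝ≥0∞)) (by
      intro x ω ω' h
      have h2 : ∀ a ∈ W \ (A ∪ x.1), ∀ b ∈ W \ (A ∪ x.1), (s(a, b) ∈ ω ↔ s(a, b) ∈ ω') := by
        intro a ha b hb
        refine h _ fun e => ?_
        obtain ⟨-, v, h3, h4⟩ := mem_EP.1 (Finset.mem_coe.1 e)
        rcases Sym2.mem_iff.1 h4 with rfl | rfl
        · exact (Finset.mem_sdiff.1 ha).2 (Finset.mem_union_right _ h3)
        · exact (Finset.mem_sdiff.1 hb).2 (Finset.mem_union_right _ h3)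
      refine congrArg (fun s : Finset V => (s.card : ℝ≥0∞)) (Finset.filter_congr fun v _ =>
        exists_congr fun z => and_congr_right fun _ => ⟨?_, ?_⟩)
      · exact Conn.congr fun a ha b hb _ => (h2 a ha b hb).1
      · exact Conn.congr fun a ha b hb _ => (h2 a ha b hb).2)
  simp only [one_mul, Ex_const (p := fun _ : Sym2 V => δ) (fun _ => hδ), psi_eq hp (hW _)] at h1
  rw [Ex_ext (D := (EP G R : Set (Sym2 V))) (J' := EP G ((W ∪ R) \ A)) (fun _ => hq)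
    (fun ω ω' h => by
      have := hS ω ω' fun e he => h e (EP_mono K0_subset he)
      rw [(Prod.mk.inj this).1, (Prod.mk.inj this).2])
    (fun e he => ⟨fun _ => EP_mono hR he, fun _ => he⟩), ← h1, ← psi_eq hp subset_rfl,
    Ex_union_law (q := fun _ => q) (δ := fun _ => δ) (fun _ => hq) (fun _ => hδ) fun _ => hpq]
  refine Ex_mono fun ω _ => Ex_mono fun σ _ => Nat.cast_le.2 (Finset.card_le_card fun v hv => ?_)
  obtain ⟨h2, z, h3, h4⟩ := Finset.mem_filter.1 hv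
  refine Finset.mem_filter.2 ⟨hW _ h2, ?_⟩
  rcases Finset.mem_union.1 h3 with h3 | h3
  · exact ⟨z, Finset.mem_insert_of_mem h3, h4.mono (hW _) subset_rfl⟩
  · exact ⟨y, Finset.mem_insert_self _ _,
      ((exit_conn h3).mono hR Finset.subset_union_left).trans (h4.mono (hW _) subset_rfl)⟩

/-- Markov property. First the finite-volume statement with `psi p (W \ (A ∪ S))` for
`W ⊇ R`: move the expectation over `ω` inside those over `m` and `c`; extend its index set from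
`EP R` to `EP (W \ A)` (`Ex_ext`, `K0_dep`, `exits_local`); `exists_sprinkle`, `psi_eq`,
`Ex_markov₂` (with `h = 1`, exploration `ω ↦ (K0, Exits)`, `D (S, F) = EP S`, locality
`exits_local`) and `Ex_union_law`; pointwise, a vertex joined off `A ∪ S` to `L ∪ F` in `ω ∪ σ`
is joined off `A` to `insert y L` (`exit_conn`). Then take suprema over `W` (`Ex_iSup`,
`psi_mono`). -/
theorem KK_psi {p : ℝ≥0∞} (hqp : q ≤ p) (hp : p ≤ 1) (ha : ∀ η, a η ≤ 1)
    (hφ : ∀ y u, φ y u ≤ 1) {A : Finset V} (hRA : Disjoint R A) (L : Finset V) :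
    KK G q a φ R y (fun S F => Psi G p (A ∪ S) (L ∪ F)) ≤ Psi G p A (insert y L) := by
  refine (E3_iSup (fun W ω m c => psi G p (W \ (A ∪ K0 G R y ω m)) (L ∪ Exits G R y ω m c))
    fun W W' => ⟨W ∪ W', fun ω m c =>
    ⟨psi_mono hp (Finset.sdiff_subset_sdiff Finset.subset_union_left subset_rfl) subset_rfl,
      psi_mono hp (Finset.sdiff_subset_sdiff Finset.subset_union_right subset_rfl)
        subset_rfl⟩⟩).le.trans (iSup_le fun W => le_iSup_of_le (W ∪ R) ?_)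
  rw [E3, E2_comm]
  refine Ex_le_const ha fun m _ => ?_
  rw [Ex_comm]
  exact Ex_le_const (coin_le_one hφ y) fun c _ => psi_markov hqp hp hRA L W m c

end Vale.Agent.P165
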