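import Mathlib
import Vale.Agent.P165.StageM
import Vale.Agent.P165.CombB

/-!
Upper bounds on exits.
-/

open scoped ENNReal

namespace Vale.Agent.P165

variable {V : Type*} [DecidableEq V] {G : SimpleGraph V} [G.LocallyFinite] {q : ℝ≥0∞} {k : ℕ}
  {π a : List V → ℝ≥0∞} {s cst ε₁ : ℝ≥0∞} {φ : Ker V}

omit [DecidableEq V] in
theorem head_mem_dropLastF {η : List V} {u : V} (hu : η.head? = some u) (h : 2 ≤ η.length) :
    u ∈ η.dropLast := by
  match η, h with
  | a :: b :: l, _ =>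
    obtain rfl : a = u := by simpa using hu
    simp

omit [DecidableEq V] in
theorem headD_eqF {η : List V} {u : V} (hu : η.head? = some u) (y : V) : η.headD y = u := by
  rw [List.headD_eq_head?_getD, hu]
  rfl

theorem anti_K0F (R : Finset V) (y u z : V) (ω : Finset (Sym2 V)) :
    Antitone fun m => ind (u ∈ K0 G R y ω m ∧ z ∈ K0 G R y ω m) := fun _ _ h =>
  ind_mono fun e => ⟨K0_mono subset_rfl subset_rfl h e.1, K0_mono subset_rfl subset_rfl h e.2⟩

/-- Write `η = u :: b :: l` (otherwise, or if `η ∉ LL R`, or `u b` is no edge, the left side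
vanishes). By `exit_upper` for `u` and for `z` the event implies `η ∈ c`, `η ∈ m`, `Tube ω η` and
`u, z ∈ K0 R y (insert s(u,b) (ω \ Eta η)) m`. Integrate the coin (`Ex_mem`), the mark
(`Ex_mem_anti`), the tube (`Ex_tube`), then `K0_mono`, `Ex_insert_le` and `mul_w`. -/
theorem exit_prob (hM : IsMark G q k π a s cst ε₁) (hq : q ≤ 1) (hφ : ∀ y u, φ y u ≤ 1)
    (R : Finset V) (y : V) {η : List V} {u : V} (hu : η.head? = some u) (z : V) :
    q * E3 G q a φ R y
        (fun ω m c => ind (IsExit G R y ω m c η ∧ z ∈ K0 G R y ω m ∧ z ∉ η.tail)) ≤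
      cst * π η * φ y u ^ 2 *
        E2 G q a R (fun ω m => ind (u ∈ K0 G R y ω m ∧ z ∈ K0 G R y ω m)) := by
  by_cases H : (∀ v ∈ η, v ∈ R) ∧ ∃ b l, η = u :: b :: l ∧ G.Adj u b
  swap
  · have : E3 G q a φ R y
        (fun ω m c => ind (IsExit G R y ω m c η ∧ z ∈ K0 G R y ω m ∧ z ∉ η.tail)) ≤ 0 := by
      rw [← E3_zero (G := G) (q := q) (a := a) (φ := φ) (R := R) (y := y)]
      refine E3_mono fun ω m c _ _ _ => (ind_neg fun e => H ⟨e.1.2.2.2.2.1, ?_⟩).le
      obtain ⟨⟨-, -, -, h2, -, h3, -⟩, -⟩ := e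
      match η, h2 with
      | a :: b :: l, _ =>
        obtain rfl : a = u := by simpa using hu
        exact ⟨b, l, rfl, (List.isChain_cons_cons.1 h3.1).1.1⟩
    rw [le_zero_iff.1 this, mul_zero]
    exact zero_le
  obtain ⟨hR, b, l, rfl, hb⟩ := H
  have h1 : E3 G q a φ R y (fun ω m c => ind (IsExit G R y ω m c (u :: b :: l) ∧
      z ∈ K0 G R y ω m ∧ z ∉ (u :: b :: l).tail)) ≤
      Ex (fun _ => q) (EP G R) fun ω => φ y u ^ 2 * a (u :: b :: l) *
        (ind (Tube G ω (u :: b :: l)) * Ex a (LL R) fun m =>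
          ind (u ∈ K0 G R y (insert s(u, b) (ω \ Eta G (u :: b :: l))) m ∧
            z ∈ K0 G R y (insert s(u, b) (ω \ Eta G (u :: b :: l))) m)) := by
    refine Ex_mono fun ω _ => ?_
    rw [mul_assoc, ← Ex_mul_left]
    refine le_trans ?_ (mul_le_mul_right (Ex_mem_anti hM.le_one _ _ fun m m' h =>
      mul_le_mul_right (anti_K0F R y u z _ h) _) _)
    rw [← Ex_mul_left]
    refine Ex_mono fun m _ => ?_
    refine le_trans (Ex_mono fun c _ => ?_) ((Ex_mem_anti (coin_le_one hφ y) (LL R) (u :: b :: l)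
      antitone_const).trans (by rw [Ex_const (coin_le_one hφ y)]; rfl))
    rw [← ind_and, ← ind_and, ← ind_and]
    refine ind_mono fun ⟨⟨e1, e2, e3, e4, _, e5, e6, e7, e8⟩, e9, e10⟩ => ⟨e2, e1, e5,
      exit_upper e3 e5 e7 e8 (e6 u (by simp)) (List.nodup_cons.1 e3).1,
      exit_upper e3 e5 e7 e8 e9 e10⟩
  rw [Ex_mul_left, Ex_tube hq hR (fun ω => Ex a (LL R) fun m =>
    ind (u ∈ K0 G R y (insert s(u, b) ω) m ∧ z ∈ K0 G R y (insert s(u, b) ω) m))] at h1
  have h2 : Ex (fun _ => q) (EP G R) (fun ω => Ex a (LL R) fun m =>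
      ind (u ∈ K0 G R y (insert s(u, b) (ω \ Eta G (u :: b :: l))) m ∧
        z ∈ K0 G R y (insert s(u, b) (ω \ Eta G (u :: b :: l))) m)) ≤
      Ex (fun _ => q) (EP G R) (fun ω => Ex a (LL R) fun m =>
        ind (u ∈ K0 G R y (insert s(u, b) ω) m ∧ z ∈ K0 G R y (insert s(u, b) ω) m)) := by
    refine Ex_mono fun ω _ => Ex_mono fun m _ => ind_mono fun e => ?_
    have := K0_mono (G := G) (R := R) (x := y) (m := m) subset_rfl (Finset.insert_subset_insert
      s(u, b) (Finset.sdiff_subset (s := ω) (t := Eta G (u :: b :: l)))) subset_rfl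
    exact ⟨this e.1, this e.2⟩
  have h3 := Ex_insert_le (p := fun _ => q) (fun _ => hq) (mk_mem_EP hb (hR u (by simp)))
    fun ω => Ex a (LL R) fun m => ind (u ∈ K0 G R y ω m ∧ z ∈ K0 G R y ω m)
  refine (mul_le_mul_right (h1.trans (mul_le_mul_right (mul_le_mul_right h2 _) _)) q).trans ?_
  refine le_trans (le_of_eq ?_) (mul_le_mul_right h3 _)
  rw [← hM.mul_w]
  ring

/-- only the marks and the coins are used: `Ex_mem_mem_anti`, `le_s` -/
theorem exit_pair (hM : IsMark G q k π a s cst ε₁) (hφ : ∀ y u, φ y u ≤ 1)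
    (R : Finset V) (y : V) {η η' : List V} (hne : η ≠ η') {u u' : V} (hu : η.head? = some u)
    (hu' : η'.head? = some u') :
    E3 G q a φ R y (fun ω m c => ind (IsExit G R y ω m c η ∧ IsExit G R y ω m c η')) ≤
      s ^ 2 * (π η * π η') * (φ y u ^ 2 * φ y u' ^ 2) *
        E2 G q a R (fun ω m => ind (u ∈ K0 G R y ω m ∧ u' ∈ K0 G R y ω m)) := by
  have h1 : E3 G q a φ R y (fun ω m c => ind (IsExit G R y ω m c η ∧ IsExit G R y ω m c η')) ≤
      Ex (fun _ => q) (EP G R) fun ω => φ y u ^ 2 * φ y u' ^ 2 * (a η * a η') *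
        Ex a (LL R) fun m => ind (u ∈ K0 G R y ω m ∧ u' ∈ K0 G R y ω m) := by
    refine Ex_mono fun ω _ => ?_
    rw [mul_assoc]
    refine le_trans ?_ (mul_le_mul_right (Ex_mem_mem_anti hM.le_one _ hne
      (anti_K0F R y u u' ω)) _)
    rw [← Ex_mul_left]
    refine Ex_mono fun m _ => ?_
    refine le_trans (Ex_mono fun c _ => ?_) ((Ex_mem_mem_anti (coin_le_one hφ y) (LL R) hne
      antitone_const).trans (by
        rw [Ex_const (coin_le_one hφ y), headD_eqF hu, headD_eqF hu']))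
    rw [← ind_and, ← ind_and]
    exact ind_mono fun ⟨e, e'⟩ => ⟨⟨e.2.1, e'.2.1⟩, ⟨e.1, e'.1⟩,
      e.2.2.2.2.2.2.1 u (head_mem_dropLastF hu e.2.2.2.1),
      e'.2.2.2.2.2.2.1 u' (head_mem_dropLastF hu' e'.2.2.2.1)⟩
  rw [Ex_mul_left] at h1
  refine h1.trans (mul_le_mul_left ?_ _)
  refine (mul_le_mul_right (mul_le_mul' (hM.le_s η) (hM.le_s η')) _).trans (le_of_eq ?_)
  ring

/-- union bound over `η`, `exit_prob` with `z = u`, `tsum_head_last` -/
theorem KK_hF (hM : IsMark G q k π a s cst ε₁) (hq0 : q ≠ 0) (hq : q ≤ 1) (hφ : ∀ y u, φ y u ≤ 1)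
    (R : Finset V) (y : V) (g : V → ℝ≥0∞) :
    KK G q a φ R y (fun _ F => ∑ f ∈ F, g f) ≤
      ∑' f, ((cst / q) • kmul (fun y u => φ y u ^ 2 * T0 G q a y u) (PiK π)) y f * g f := by
  unfold KK
  simp only [sum_eq_tsum_ind, E3_tsum, E3_mul_right]
  refine ENNReal.tsum_le_tsum fun f => mul_le_mul_left ?_ _
  have h1 : E3 G q a φ R y (fun ω m c => ind (f ∈ Exits G R y ω m c)) ≤
      E3 G q a φ R y (fun ω m c => ∑' u, ∑' η : List V,
        ind (η.head? = some u ∧ η.getLast? = some f) *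
          ind (IsExit G R y ω m c η ∧ u ∈ K0 G R y ω m ∧ u ∉ η.tail)) := by
    refine E3_mono fun ω m c _ _ _ => ?_
    by_cases h : f ∈ Exits G R y ω m c
    · obtain ⟨η, e1, e2⟩ := mem_Exits.1 h
      obtain ⟨u, l, rfl⟩ := List.exists_cons_of_length_pos (l := η) (by
        have := e1.2.2.2.1
        omega)
      refine le_trans ?_ ((ENNReal.le_tsum (u :: l)).trans (ENNReal.le_tsum u))
      rw [← ind_and]
      exact ind_mono fun _ => ⟨⟨rfl, e2⟩, e1,
        e1.2.2.2.2.2.2.1 u (head_mem_dropLastF rfl e1.2.2.2.1), (List.nodup_cons.1 e1.2.2.1).1⟩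
    · rw [ind_neg h]
      exact zero_le
  refine h1.trans ?_
  simp only [E3_tsum, E3_mul_left, Pi.smul_apply, smul_eq_mul, kmul, PiK,
    ← ENNReal.tsum_mul_left]
  refine ENNReal.tsum_le_tsum fun u => ENNReal.tsum_le_tsum fun η => ?_
  by_cases h : η.head? = some u ∧ η.getLast? = some f
  · have h2 := exit_prob hM hq hφ R y h.1 u
    simp only [and_self] at h2
    have h3 : q ≠ ⊤ := ne_top_of_le_ne_top ENNReal.one_ne_top hq
    rw [ind_pos h, one_mul, one_mul, ENNReal.div_eq_inv_mul, mul_assoc,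
      ← ENNReal.mul_le_iff_le_inv hq0 h3]
    refine h2.trans ((mul_le_mul_right (t0_le_T0 q a R y u) _).trans (le_of_eq ?_))
    ring
  · rw [ind_neg h, zero_mul]
    exact zero_le

end Vale.Agent.P165
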