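import Mathlib
import Vale.Agent.P165.StageF

/-!
The error terms of a stage.
-/

open scoped ENNReal

namespace Vale.Agent.P165

variable {V : Type*} [DecidableEq V] {G : SimpleGraph V} [G.LocallyFinite] {q : ℝ≥0∞} {k : ℕ}
  {π a : List V → ℝ≥0∞} {s cst ε₁ : ℝ≥0∞} {φ : Ker V}

omit [DecidableEq V] in
theorem tsum_last_leE (η : List V) (u : V) (g : V → ℝ≥0∞) :
    ∑' f, ind (η.head? = some u ∧ η.getLast? = some f) * g f ≤
      ind (η.head? = some u) * g (η.getLastD u) := by
  by_cases h : η.head? = some u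
  · obtain ⟨l, rfl⟩ : ∃ l, η = u :: l := by
      cases η with
      | nil => simp at h
      | cons a l =>
        obtain rfl : a = u := by simpa using h
        exact ⟨l, rfl⟩
    have e : (u :: l).getLast? = some ((u :: l).getLastD u) := by
      simp [List.getLast?_eq_some_getLast]
    rw [ind_pos h, one_mul, ← tsum_ind_eq ((u :: l).getLastD u) g]
    refine ENNReal.tsum_le_tsum fun f => mul_le_mul_left (ind_mono fun hf => ?_) _
    exact Option.some.inj (e.symm.trans hf.2)
  · simp only [ind_neg fun e : η.head? = some u ∧ _ => h e.1, zero_mul, tsum_zero]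
    exact zero_le

theorem exit_prob' (hM : IsMark G q k π a s cst ε₁) (hq0 : q ≠ 0) (hq : q ≤ 1)
    (hφ : ∀ y u, φ y u ≤ 1) (R : Finset V) (y : V) (η : List V) (u f z : V) :
    ind (η.head? = some u ∧ η.getLast? = some f) * E3 G q a φ R y
        (fun ω m c => ind (IsExit G R y ω m c η ∧ z ∈ K0 G R y ω m ∧ z ∉ η.tail)) ≤
      cst / q * (φ y u ^ 2 * E2 G q a R (fun ω m => ind (u ∈ K0 G R y ω m ∧ z ∈ K0 G R y ω m))) *
        (ind (η.head? = some u ∧ η.getLast? = some f) * π η) := by
  by_cases h : η.head? = some u ∧ η.getLast? = some f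
  · have h2 := exit_prob hM hq hφ R y h.1 z
    have h3 : q ≠ ⊤ := ne_top_of_le_ne_top ENNReal.one_ne_top hq
    rw [ind_pos h, one_mul, one_mul, ENNReal.div_eq_inv_mul, mul_assoc, mul_assoc,
      ← ENNReal.mul_le_iff_le_inv hq0 h3]
    exact h2.trans (le_of_eq (by ring))
  · rw [ind_neg h, zero_mul]
    exact zero_le

theorem E2_pair_eq (R : Finset V) (y : V) (K : Ker V) :
    ∑' u, ∑' z, E2 G q a R (fun ω m => ind (u ∈ K0 G R y ω m ∧ z ∈ K0 G R y ω m)) * K u z =
      E2 G q a R (fun ω m => ∑ u ∈ K0 G R y ω m, ∑ z ∈ K0 G R y ω m, K u z) := by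
  simp only [sum_eq_tsum_ind, ← ENNReal.tsum_mul_left, E2_tsum, ← E2_mul_right, ind_and,
    mul_assoc]

omit [DecidableEq V] in
theorem crude_sumE {R F S : Finset V} (hF : F ⊆ R) (hS : S ⊆ R) (b : ℝ≥0∞) :
    ∑ _f ∈ F, ∑ _z ∈ S, b ≤ (R.card : ℝ≥0∞) ^ 2 * b := by
  simp only [Finset.sum_const, nsmul_eq_mul]
  rw [← mul_assoc, sq]
  gcongr

namespace Env

variable (E : Env G) {φ₀ : ℝ≥0∞}

/-- For an exit `η` with last vertex `f` and `z ∈ S`: if `z ∈ η.tail` then `z ∈ η.dropLast`, use
`exit_prob` with `z = u` and `htG`; otherwise use `Ga` with `exit_prob` and `set_bound`, and `Gb`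
with the crude bound. -/
theorem err_G (hM : IsMark G q k π a s cst ε₁) (hφ : E.IsWin φ φ₀) (hq0 : q ≠ 0) (hq : q ≤ 1)
    (R : Finset V) (y : V) {Gk Ga Gb : Ker V} (hG : Gk ≤ Ga + Gb) {b tG : ℝ≥0∞}
    (hb : ∀ f ∈ R, ∀ z ∈ R, Gb f z ≤ b)
    (htG : ∀ u, ∑' η : List V, ind (η.head? = some u) * π η *
      ∑ z ∈ η.dropLast.toFinset, Gk (η.getLastD u) z ≤ tG) :
    KK G q a φ R y (fun S F => ∑ f ∈ F, ∑ z ∈ S, Gk f z) ≤
      cst / q * (E.nw 2 (kmul (PiK π) Ga) + tG) * nn G q a φ R y +
        (R.card : ℝ≥0∞) ^ 2 * b := by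
  have h1 : KK G q a φ R y (fun S F => ∑ f ∈ F, ∑ z ∈ S, Gk f z) ≤
      E3 G q a φ R y (fun ω m c => (∑' f, ∑' u, ∑' η : List V,
        ((∑' z, ind (η.head? = some u ∧ η.getLast? = some f) *
          ind (IsExit G R y ω m c η ∧ z ∈ K0 G R y ω m ∧ z ∉ η.tail) * Ga f z) +
        ind (η.head? = some u ∧ η.getLast? = some f) *
          ind (IsExit G R y ω m c η ∧ u ∈ K0 G R y ω m ∧ u ∉ η.tail) *
            ∑ z ∈ η.dropLast.toFinset, Gk f z)) + (R.card : ℝ≥0∞) ^ 2 * b) := by
    refine E3_mono fun ω m c _ _ _ => ?_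
    refine le_trans ?_ (add_le_add (ENNReal.sum_le_tsum (Exits G R y ω m c))
      (crude_sumE (Exits_subset (G := G) (c := c) (x := y) (ω := ω) (m := m))
        (K0_subset (G := G) (x := y) (ω := ω) (m := m)) b))
    rw [← Finset.sum_add_distrib]
    refine Finset.sum_le_sum fun f hf => ?_
    obtain ⟨η, e1, e2⟩ := mem_Exits.1 hf
    obtain ⟨u, l, rfl⟩ := List.exists_cons_of_length_pos (l := η) (by
      have := e1.2.2.2.1
      omega)
    refine le_trans ?_ (add_le_add ((ENNReal.le_tsum (u :: l)).trans (ENNReal.le_tsum u)) le_rfl)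
    have hu : u ∈ K0 G R y ω m := e1.2.2.2.2.2.2.1 u (head_mem_dropLastF rfl e1.2.2.2.1)
    rw [ind_pos (P := (u :: l).head? = some u ∧ (u :: l).getLast? = some f) ⟨rfl, e2⟩,
      ind_pos (P := IsExit G R y ω m c (u :: l) ∧ u ∈ K0 G R y ω m ∧ u ∉ (u :: l).tail)
        ⟨e1, hu, (List.nodup_cons.1 e1.2.2.1).1⟩]
    simp only [one_mul]
    have h2 : ∀ z ∈ K0 G R y ω m, Gk f z ≤
        ind (IsExit G R y ω m c (u :: l) ∧ z ∈ K0 G R y ω m ∧ z ∉ (u :: l).tail) * Ga f z +
          ind (z ∈ (u :: l).dropLast.toFinset) * Gk f z + b := by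
      intro z hz
      by_cases ht : z ∈ (u :: l).tail
      · have hz2 : z ∈ (u :: l).dropLast := by
          have h3 : z ∈ u :: l := List.mem_of_mem_tail ht
          have h4 := List.dropLast_append_getLast? f (l := u :: l) e2
          rw [← h4, List.mem_append] at h3
          rcases h3 with h3 | h3
          · exact h3
          · obtain rfl : z = f := by simpa using h3
            exact absurd hz (e1.2.2.2.2.2.2.2.1 z e2)
        rw [ind_pos (List.mem_toFinset.2 hz2), one_mul]
        exact le_trans le_add_self le_self_add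
      · rw [ind_pos (P := IsExit G R y ω m c (u :: l) ∧ z ∈ K0 G R y ω m ∧ z ∉ (u :: l).tail)
          ⟨e1, hz, ht⟩, one_mul]
        exact (hG f z).trans (add_le_add le_self_add (hb f (Exits_subset hf) z (K0_subset hz)))
    refine (Finset.sum_le_sum h2).trans ?_
    rw [Finset.sum_add_distrib, Finset.sum_add_distrib]
    refine add_le_add (add_le_add (ENNReal.sum_le_tsum _) ?_) le_rfl
    rw [sum_eq_tsum_ind ((u :: l).dropLast.toFinset)]
    exact ENNReal.sum_le_tsum _
  refine h1.trans ?_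
  rw [E3_add, E3_const hq hM.le_one hφ.le_one]
  refine add_le_add ?_ le_rfl
  simp only [E3_tsum, E3_add, E3_mul_right, E3_mul_left, ENNReal.tsum_add]
  rw [mul_assoc, add_mul, mul_add]
  refine add_le_add ?_ ?_
  · calc _ ≤ ∑' f, ∑' u, ∑' η : List V, ∑' z, cst / q * (φ y u ^ 2 *
            E2 G q a R (fun ω m => ind (u ∈ K0 G R y ω m ∧ z ∈ K0 G R y ω m))) *
          (ind (η.head? = some u ∧ η.getLast? = some f) * π η) * Ga f z :=
          ENNReal.tsum_le_tsum fun f => ENNReal.tsum_le_tsum fun u =>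
            ENNReal.tsum_le_tsum fun η => ENNReal.tsum_le_tsum fun z =>
              mul_le_mul_left (exit_prob' hM hq0 hq hφ.le_one R y η u f z) _
      _ = cst / q * ∑' u, ∑' z,
            E2 G q a R (fun ω m => ind (u ∈ K0 G R y ω m ∧ z ∈ K0 G R y ω m)) *
              (φ y u ^ 2 * kmul (PiK π) Ga u z) := by
          simp only [kmul, PiK, ← ENNReal.tsum_mul_left, ← ENNReal.tsum_mul_right]
          rw [ENNReal.tsum_comm]
          refine tsum_congr fun u => ?_
          simp_rw [ENNReal.tsum_comm (β := V) (α := List V)]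
          rw [ENNReal.tsum_comm]
          refine tsum_congr fun z => tsum_congr fun f => tsum_congr fun η => ?_
          ring
      _ ≤ _ := by
          refine mul_le_mul_right ?_ _
          rw [E2_pair_eq R y (fun u z => φ y u ^ 2 * kmul (PiK π) Ga u z), nn, ← E2_mul_left]
          exact E2_mono fun ω m _ _ => E.set_bound _ (φ y) (hφ.right y) _
  · calc _ ≤ ∑' f, ∑' u, ∑' η : List V, cst / q * (φ y u ^ 2 *
            E2 G q a R (fun ω m => ind (u ∈ K0 G R y ω m ∧ u ∈ K0 G R y ω m))) *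
          (ind (η.head? = some u ∧ η.getLast? = some f) * π η) *
            ∑ z ∈ η.dropLast.toFinset, Gk f z :=
          ENNReal.tsum_le_tsum fun f => ENNReal.tsum_le_tsum fun u =>
            ENNReal.tsum_le_tsum fun η =>
              mul_le_mul_left (exit_prob' hM hq0 hq hφ.le_one R y η u f u) _
      _ = ∑' u, cst / q * (φ y u ^ 2 * t0 G q a R y u) * ∑' η : List V, π η * ∑' f,
            ind (η.head? = some u ∧ η.getLast? = some f) * ∑ z ∈ η.dropLast.toFinset, Gk f z := by
          simp only [and_self, t0, ← ENNReal.tsum_mul_left]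
          rw [ENNReal.tsum_comm]
          refine tsum_congr fun u => ?_
          rw [ENNReal.tsum_comm]
          refine tsum_congr fun η => tsum_congr fun f => ?_
          ring
      _ ≤ ∑' u, cst / q * (φ y u ^ 2 * t0 G q a R y u) * tG := by
          refine ENNReal.tsum_le_tsum fun u => mul_le_mul_right (le_trans ?_ (htG u)) _
          refine ENNReal.tsum_le_tsum fun η => ?_
          refine (mul_le_mul_right (tsum_last_leE η u
            fun f => ∑ z ∈ η.dropLast.toFinset, Gk f z) _).trans (le_of_eq ?_)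
          ring
      _ = _ := by
          rw [ENNReal.tsum_mul_right, ENNReal.tsum_mul_left, ← nn_eq]
          ring

/-- distinct exits come from distinct patterns; `exit_pair`, then `quad_le` for `φ y · ^ 2` cut
to `S` -/
theorem err_U (hM : IsMark G q k π a s cst ε₁) (hφ : E.IsWin φ φ₀) (hq : q ≤ 1)
    (R : Finset V) (y : V) {U Ua Ub : Ker V} (hU : U ≤ Ua + Ub) {b : ℝ≥0∞}
    (hb : ∀ f ∈ R, ∀ z ∈ R, Ub f z ≤ b) :
    KK G q a φ R y (fun _ F => ∑ f ∈ F, ∑ f' ∈ F.erase f, U f f') ≤
      s ^ 2 * nrm (kmul (kmul (PiK π) Ua) (ktr (PiK π))) * nn G q a φ R y +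
        (R.card : ℝ≥0∞) ^ 2 * b := by
  have h1 : KK G q a φ R y (fun _ F => ∑ f ∈ F, ∑ f' ∈ F.erase f, U f f') ≤
      E3 G q a φ R y (fun ω m c => (∑' f, ∑' f', ∑' u, ∑' u', ∑' η : List V, ∑' η' : List V,
        ind ((η.head? = some u ∧ η.getLast? = some f) ∧
          (η'.head? = some u' ∧ η'.getLast? = some f') ∧ η ≠ η') *
          ind (IsExit G R y ω m c η ∧ IsExit G R y ω m c η') * Ua f f') +
        (R.card : ℝ≥0∞) ^ 2 * b) := by
    refine E3_mono fun ω m c _ _ _ => ?_
    have hF : Exits G R y ω m c ⊆ R := Exits_subset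
    refine le_trans ?_ (add_le_add (ENNReal.sum_le_tsum (Exits G R y ω m c)) (crude_sumE hF hF b))
    rw [← Finset.sum_add_distrib]
    refine Finset.sum_le_sum fun f hf => ?_
    refine le_trans ?_ (add_le_add (ENNReal.sum_le_tsum ((Exits G R y ω m c).erase f))
      (Finset.sum_le_sum_of_subset (Finset.erase_subset f _)))
    rw [← Finset.sum_add_distrib]
    refine Finset.sum_le_sum fun f' hf' => ?_
    obtain ⟨hne, hf'⟩ := Finset.mem_erase.1 hf'
    refine (hU f f').trans (add_le_add ?_ (hb f (hF hf) f' (hF hf')))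
    obtain ⟨η, e1, e2⟩ := mem_Exits.1 hf
    obtain ⟨η', e1', e2'⟩ := mem_Exits.1 hf'
    obtain ⟨u, l, rfl⟩ := List.exists_cons_of_length_pos (l := η) (by
      have := e1.2.2.2.1
      omega)
    obtain ⟨u', l', rfl⟩ := List.exists_cons_of_length_pos (l := η') (by
      have := e1'.2.2.2.1
      omega)
    refine le_trans ?_ ((((ENNReal.le_tsum (u' :: l')).trans (ENNReal.le_tsum (u :: l))).trans
      (ENNReal.le_tsum u')).trans (ENNReal.le_tsum u))
    rw [ind_pos ⟨⟨rfl, e2⟩, ⟨rfl, e2'⟩, fun h => hne (Option.some.inj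
      (e2'.symm.trans (h ▸ e2)))⟩, ind_pos ⟨e1, e1'⟩, one_mul, one_mul]
  refine h1.trans ?_
  rw [E3_add, E3_const hq hM.le_one hφ.le_one]
  refine add_le_add ?_ le_rfl
  simp only [E3_tsum, E3_mul_right, E3_mul_left]
  calc _ ≤ ∑' f, ∑' f', ∑' u, ∑' u', ∑' η : List V, ∑' η' : List V,
          s ^ 2 * (E2 G q a R (fun ω m => ind (u ∈ K0 G R y ω m ∧ u' ∈ K0 G R y ω m)) *
            (φ y u ^ 2 * ((ind (η.head? = some u ∧ η.getLast? = some f) * π η) * Ua f f' *
              (ind (η'.head? = some u' ∧ η'.getLast? = some f') * π η')) * φ y u' ^ 2)) := by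
        refine ENNReal.tsum_le_tsum fun f => ENNReal.tsum_le_tsum fun f' =>
          ENNReal.tsum_le_tsum fun u => ENNReal.tsum_le_tsum fun u' =>
          ENNReal.tsum_le_tsum fun η => ENNReal.tsum_le_tsum fun η' => ?_
        by_cases h : (η.head? = some u ∧ η.getLast? = some f) ∧
          (η'.head? = some u' ∧ η'.getLast? = some f') ∧ η ≠ η'
        · rw [ind_pos h, ind_pos h.1, ind_pos h.2.1, one_mul]
          refine (mul_le_mul_left (exit_pair hM hφ.le_one R y h.2.2 h.1.1 h.2.1.1) _).trans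
            (le_of_eq ?_)
          ring
        · rw [ind_neg h, zero_mul, zero_mul]
          exact zero_le
    _ = s ^ 2 * ∑' u, ∑' u',
          E2 G q a R (fun ω m => ind (u ∈ K0 G R y ω m ∧ u' ∈ K0 G R y ω m)) *
            (φ y u ^ 2 * kmul (kmul (PiK π) Ua) (ktr (PiK π)) u u' * φ y u' ^ 2) := by
        simp only [ENNReal.tsum_mul_left, ENNReal.tsum_mul_right]
        refine congrArg _ ?_
        have e1 : ∀ F : V → V → V → V → ℝ≥0∞,
            ∑' f, ∑' f', ∑' u, ∑' u', F f f' u u' = ∑' u, ∑' u', ∑' f', ∑' f, F f f' u u' := by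
          intro F
          rw [ENNReal.tsum_comm]
          calc ∑' f', ∑' f, ∑' u, ∑' u', F f f' u u' = ∑' f', ∑' u, ∑' u', ∑' f, F f f' u u' := by
                refine tsum_congr fun f' => ?_
                rw [ENNReal.tsum_comm]
                exact tsum_congr fun u => ENNReal.tsum_comm
            _ = _ := by
                rw [ENNReal.tsum_comm]
                exact tsum_congr fun u => ENNReal.tsum_comm
        rw [e1]
        refine tsum_congr fun u => tsum_congr fun u' => ?_
        simp only [ENNReal.tsum_mul_left, ENNReal.tsum_mul_right, kmul, ktr, PiK]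
    _ ≤ _ := by
        rw [mul_assoc]
        refine mul_le_mul_right ?_ _
        rw [E2_pair_eq R y (fun u u' =>
          φ y u ^ 2 * kmul (kmul (PiK π) Ua) (ktr (PiK π)) u u' * φ y u' ^ 2), nn, ← E2_mul_left]
        refine E2_mono fun ω m _ _ => ?_
        have h2 := quad_le (kmul (kmul (PiK π) Ua) (ktr (PiK π)))
          fun u => ind (u ∈ K0 G R y ω m) * φ y u ^ 2
        refine le_trans (le_of_eq ?_) (h2.trans (mul_le_mul_right ?_ _))
        · simp only [sum_eq_tsum_ind, ← ENNReal.tsum_mul_left]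
          refine tsum_congr fun u => tsum_congr fun u' => ?_
          ring
        · rw [sum_eq_tsum_ind]
          refine ENNReal.tsum_le_tsum fun u => ?_
          rw [sq]
          exact mul_le_of_le_one_right'
            (mul_le_one' (ind_le_one _) (pow_le_one₀ zero_le (hφ.le_one y u)))

end Env

end Vale.Agent.P165
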