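import Mathlib
import Vale.Agent.P165.StageM
import Vale.Agent.P165.CombB

/-!
Lower bound on fresh exits: lonely exits.
-/

open scoped ENNReal

namespace Vale.Agent.P165

variable {V : Type*} [DecidableEq V] {G : SimpleGraph V} [G.LocallyFinite] {q : ℝ≥0∞} {k : ℕ}
  {π a : List V → ℝ≥0∞} {s cst ε₁ : ℝ≥0∞} {φ : Ker V}

theorem tsum_ind_injLA {α β : Type*} (P : α → Prop) (l : α → β) (t : Finset β)
    (hs : ∀ x, P x → l x ∈ t) (hinj : ∀ x x', P x → P x' → l x = l x' → x = x')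
    (e : β → ℝ≥0∞) : ∑' x, ind (P x) * e (l x) ≤ ∑ b ∈ t, e b := by
  have h1 := ENNReal.tsum_comp_le_tsum_of_injective (f := fun x : {x | P x} => l x)
    (fun x x' h => Subtype.ext (hinj _ _ x.2 x'.2 h)) fun b => ind (b ∈ t) * e b
  rw [tsum_subtype {x | P x} fun x => ind (l x ∈ t) * e (l x), ← sum_eq_tsum_ind] at h1
  refine le_trans (ENNReal.tsum_le_tsum fun x => ?_) h1
  by_cases h : P x
  · rw [Set.indicator_of_mem (show x ∈ {x | P x} from h), ind_pos h, ind_pos (hs x h)]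
  · rw [ind_neg h, zero_mul]
    exact zero_le

open Classical in
theorem sparse_sumLA (hM : IsMark G q k π a s cst ε₁) (R : Finset V) {η : List V}
    (h : η.length ≤ k + 2) :
    ∑ σ ∈ (LL R).filter (fun σ => ∃ v ∈ η, v ∈ σ), a σ ≤ ε₁ := by
  have h1 : ∑ σ ∈ (LL R).filter (fun σ => ∃ v ∈ η, v ∈ σ), a σ ≤
      ∑ v ∈ η.toFinset, ∑' σ : List V, ind (v ∈ σ) * a σ := by
    rw [← Summable.tsum_finsetSum fun _ _ => ENNReal.summable, sum_eq_tsum_ind]
    refine ENNReal.tsum_le_tsum fun σ => ?_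
    rw [← Finset.sum_mul]
    refine mul_le_mul_left (le_trans (ind_mono fun e => ?_) (ind_exists_le _ _)) _
    simpa using (Finset.mem_filter.1 e).2
  have h2 : ((k : ℝ≥0∞) + 2) ≠ 0 := by simp
  have h3 : ((k : ℝ≥0∞) + 2) ≠ ⊤ := by simp
  refine h1.trans ((ENNReal.mul_le_mul_iff_right h2 h3).1 ?_)
  rw [Finset.mul_sum]
  refine (Finset.sum_le_card_nsmul _ _ ε₁ fun v _ => hM.sparse v).trans ?_
  rw [nsmul_eq_mul]
  refine mul_le_mul_left ?_ _
  exact_mod_cast (List.toFinset_card_le η).trans h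

namespace Env

variable (E : Env G) {φ₀ : ℝ≥0∞}

/-- If `π η = 0`, or some vertex of `η` is outside `R`, the left side vanishes. Call `F ω m` the
integrand on the left. `off_local` gives `F ω m ≤ F (ω \ Eta η) (mOff η m)`. With `t` the lists of
`LL R` meeting `η` (`m \ t = mOff η m`, and `2 * ∑ t a ≤ 1` by `sparse`), use `mul_w`, `Ex_tube`,
`Ex_lonely`, `Ex_mem` for the coin, and finally `surgery` and `esc_anti` pointwise. -/
theorem lonely_one (hπ : E.IsPat k π) (hM : IsMark G q k π a s cst ε₁) (hφ : ∀ y u, φ y u ≤ 1)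
    (hq : q ≤ 1) (hε : 2 * ε₁ ≤ 1) (R A : Finset V) (y : V) {η : List V} {u : V}
    (hu : η.head? = some u) :
    cst * π η * φ y u ^ 2 * E2 G q a R (fun ω m =>
        ind (u ∈ K0 G R y ω m ∧ (∀ σ ∈ m, u ∉ σ) ∧ ∀ v ∈ η.tail, v ∈ R ∧ v ∉ Kp G R y ω m) *
          E.esc (A ∪ K0 G R y ω m ∪ η.dropLast.toFinset) (η.getLastD u)) ≤
      2 * E3 G q a φ R y (fun ω m c =>
        ind (IsExit G R y ω m c η ∧ ∀ σ ∈ m, (∃ v ∈ η, v ∈ σ) → σ = η) *
          E.esc (A ∪ K0 G R y ω m) (η.getLastD u)) := by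
  classical
  by_cases h0 : π η = 0
  · simp [h0]
  obtain ⟨hn, -, h2, hk⟩ := hπ.supp η h0
  obtain ⟨F, hF⟩ : ∃ F : Finset (Sym2 V) → Finset (List V) → ℝ≥0∞, F = fun ω m =>
      ind (u ∈ K0 G R y ω m ∧ (∀ σ ∈ m, u ∉ σ) ∧ ∀ v ∈ η.tail, v ∈ R ∧ v ∉ Kp G R y ω m) *
        E.esc (A ∪ K0 G R y ω m ∪ η.dropLast.toFinset) (η.getLastD u) := ⟨_, rfl⟩
  rw [← hF]
  by_cases hR : ∀ v ∈ η, v ∈ R
  swap
  · have : E2 G q a R F = E2 G q a R (fun _ _ => 0) := E2_congr fun ω m _ _ => by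
      rw [hF]
      refine mul_eq_zero_of_left (ind_neg fun e => hR fun v hv => ?_) _
      cases η with
      | nil => simp at hv
      | cons b l =>
        obtain rfl : b = u := by simpa using hu
        rcases List.mem_cons.1 hv with rfl | hv
        · exact K0_subset e.1
        · exact (e.2.2 v hv).1
    rw [this, E2_const hq hM.le_one, mul_zero]
    exact zero_le
  have hη : η ∈ LL R := mem_LL.2 ⟨hn, hR⟩
  have huη : u ∈ η := List.mem_of_head? hu
  obtain ⟨t, ht⟩ : ∃ t, t = (LL R).filter (fun σ => ∃ v ∈ η, v ∈ σ) := ⟨_, rfl⟩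
  have ht1 : t ⊆ LL R := ht ▸ Finset.filter_subset _ _
  have ht2 : η ∈ t := ht ▸ Finset.mem_filter.2 ⟨hη, u, huη, huη⟩
  have ht3 : 2 * ∑ σ ∈ t, a σ ≤ 1 := by
    refine le_trans (mul_le_mul_right ?_ 2) hε
    refine le_trans (le_of_eq ?_) (sparse_sumLA hM R hk)
    rw [ht]
  have ht4 : ∀ m ⊆ LL R, m \ t = mOff η m := by
    intro m hm
    ext σ
    rw [mem_mOff, Finset.mem_sdiff, ht, Finset.mem_filter]
    exact and_congr_right fun e => ⟨fun e1 v hv hv' => e1 ⟨hm e, v, hv, hv'⟩,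
      fun e1 ⟨_, v, hv, hv'⟩ => e1 v hv hv'⟩
  have h3 : E2 G q a R F ≤ Ex (fun _ => q) (EP G R) fun ω =>
      Ex a (LL R) fun m => F (ω \ Eta G η) (m \ t) := by
    refine E2_mono (g := fun ω m => F (ω \ Eta G η) (m \ t)) fun ω m _ hm => ?_
    rw [ht4 m hm, hF]
    by_cases e : u ∈ K0 G R y ω m ∧ (∀ σ ∈ m, u ∉ σ) ∧ ∀ v ∈ η.tail, v ∈ R ∧ v ∉ Kp G R y ω m
    · obtain ⟨e1, e2⟩ := off_local hu (fun v hv => (e.2.2 v hv).1) (fun v hv => (e.2.2 v hv).2)
        e.2.1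
      simp only [e1, e2]
      exact mul_le_mul_left (ind_mono fun _ =>
        ⟨e.1, fun σ hσ => e.2.1 σ (mem_mOff.1 hσ).1, e.2.2⟩) _
    · simp only [ind_neg e, zero_mul]
      exact zero_le
  have h4 := Ex_tube (G := G) hq hR fun ω => Ex a (LL R) fun m => F ω (m \ t)
  rw [← hM.mul_w]
  calc a η * wR G q η * φ y u ^ 2 * E2 G q a R F
      ≤ φ y u ^ 2 * a η * (wR G q η * Ex (fun _ => q) (EP G R) fun ω =>
          Ex a (LL R) fun m => F (ω \ Eta G η) (m \ t)) :=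
        (mul_le_mul_right h3 _).trans (le_of_eq (by ring))
    _ ≤ _ := by
      rw [← h4, ← Ex_mul_left, E3, E2, ← Ex_mul_left]
      refine Ex_mono fun ω _ => ?_
      rw [mul_mul_mul_comm]
      refine (mul_le_mul_right (Ex_lonely hM.le_one ht1 ht2 ht3 (F (ω \ Eta G η))) _).trans ?_
      rw [mul_left_comm, ← Ex_mul_left]
      refine mul_le_mul_right (Ex_mono fun m hm => ?_) 2
      have h5 := Ex_mem (coin_le_one hφ y) hη fun _ =>
        ind (Tube G ω η) * (ind (m ∩ t = {η}) * F (ω \ Eta G η) (m \ t))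
      rw [Ex_const (coin_le_one hφ y), List.headD_eq_head?_getD, hu, Option.getD_some] at h5
      rw [mul_assoc, ← h5]
      refine Ex_mono fun c _ => ?_
      rw [ht4 m hm, hF, ← mul_assoc, ← mul_assoc, ← mul_assoc, ← ind_and, ← ind_and, ← ind_and]
      by_cases e : ((η ∈ c ∧ Tube G ω η) ∧ m ∩ t = {η}) ∧
        u ∈ K0 G R y (ω \ Eta G η) (mOff η m) ∧ (∀ σ ∈ mOff η m, u ∉ σ) ∧
          ∀ v ∈ η.tail, v ∈ R ∧ v ∉ Kp G R y (ω \ Eta G η) (mOff η m)
      · obtain ⟨⟨⟨e1, e2⟩, e3⟩, e4, e5, e6⟩ := id e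
        have e7 : η ∈ m := (Finset.mem_inter.1 (e3 ▸ Finset.mem_singleton_self η)).1
        have e8 : ∀ σ ∈ m, (∃ v ∈ η, v ∈ σ) → σ = η := fun σ g1 g2 =>
          Finset.mem_singleton.1 (e3 ▸ Finset.mem_inter.2
            ⟨g1, ht ▸ Finset.mem_filter.2 ⟨hm g1, g2⟩⟩)
        obtain ⟨g1, g2⟩ := surgery hn h2 e2 e7 e1 e8 hu e4 (fun v hv => (e6 v hv).1)
          fun v hv => (e6 v hv).2
        rw [ind_pos e, ind_pos ⟨g1, e8⟩]
        refine mul_le_mul_right (E.esc_anti ?_ _) _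
        rw [Finset.union_assoc]
        exact Finset.union_subset_union_right g2
      · rw [ind_neg e, zero_mul]
        exact zero_le

/-- Sum `lonely_one` over `u` and `η` with head `u`. On the right, lonely exits have distinct
last vertices, all in `Exits`. On the left use `IsPat.esc` with `B = A ∪ Kp`: the tail lies in
`ball y L` (`mem_ball_of_chain`), so avoiding `B` puts it in `R` and outside `Kp`. -/
theorem lonely_sum (hπ : E.IsPat k π) (hM : IsMark G q k π a s cst ε₁) (hφ : ∀ y u, φ y u ≤ 1)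
    (hq : q ≤ 1) (hε : 2 * ε₁ ≤ 1) (A : Finset V) (y : V) {L L₀ : ℕ} (hL : L₀ + k + 1 ≤ L) :
    cst * E2 G q a (ball G y L \ A) (fun ω m => ∑ u ∈ K0 G (ball G y L \ A) y ω m,
        φ y u ^ 2 * ind (u ∈ ball G y L₀ ∧ ∀ σ ∈ m, u ∉ σ) *
          ∑' x, E.P u x * E.esc (A ∪ Kp G (ball G y L \ A) y ω m) x) ≤
      2 * KK G q a φ (ball G y L \ A) y (fun S F => ∑ f ∈ F, E.esc (A ∪ S) f) := by
  obtain ⟨R, hR⟩ : ∃ R, R = ball G y L \ A := ⟨_, rfl⟩
  rw [← hR]
  have h1 : E2 G q a R (fun ω m => ∑ u ∈ K0 G R y ω m,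
        φ y u ^ 2 * ind (u ∈ ball G y L₀ ∧ ∀ σ ∈ m, u ∉ σ) *
          ∑' x, E.P u x * E.esc (A ∪ Kp G R y ω m) x) ≤
      E2 G q a R (fun ω m => ∑' x : V × List V, ind (x.2.head? = some x.1) * π x.2 *
        φ y x.1 ^ 2 * (ind (x.1 ∈ K0 G R y ω m ∧ (∀ σ ∈ m, x.1 ∉ σ) ∧
          ∀ v ∈ x.2.tail, v ∈ R ∧ v ∉ Kp G R y ω m) *
          E.esc (A ∪ K0 G R y ω m ∪ x.2.dropLast.toFinset) (x.2.getLastD x.1))) := by
    refine E2_mono fun ω m _ _ => ?_
    rw [sum_eq_tsum_ind, ENNReal.tsum_prod']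
    refine ENNReal.tsum_le_tsum fun u => ?_
    refine (mul_le_mul_right (mul_le_mul_right (hπ.esc u _) _) _).trans ?_
    rw [← ENNReal.tsum_mul_left, ← ENNReal.tsum_mul_left]
    refine ENNReal.tsum_le_tsum fun η => ?_
    by_cases h0 : π η = 0
    · simp [h0]
    obtain ⟨-, hc, -, hk⟩ := hπ.supp η h0
    by_cases e1 : u ∈ K0 G R y ω m
    swap
    · simp [ind_neg e1]
    by_cases e2 : u ∈ ball G y L₀ ∧ ∀ σ ∈ m, u ∉ σ
    swap
    · simp [ind_neg e2]
    by_cases e3 : η.head? = some u ∧ ∀ v ∈ η.tail, v ∉ A ∪ Kp G R y ω m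
    swap
    · simp only [ind_neg e3, zero_mul, mul_zero, zero_le]
    have e4 : ∀ v ∈ η.tail, v ∈ R ∧ v ∉ Kp G R y ω m := by
      intro v hv
      have g1 := Finset.notMem_union.1 (e3.2 v hv)
      refine ⟨hR ▸ Finset.mem_sdiff.2 ⟨ball_mono y (by omega) (mem_ball_trans e2.1
        (mem_ball_of_chain hc (List.mem_of_head? e3.1) (List.mem_of_mem_tail hv))), g1.1⟩, g1.2⟩
    simp only [ind_pos e1, ind_pos e2, ind_pos e3, ind_pos e3.1,
      ind_pos (And.intro e1 (And.intro e2.2 e4)), one_mul, mul_one]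
    rw [mul_left_comm, mul_assoc]
    exact mul_le_mul_right (mul_le_mul_right (E.esc_anti (Finset.union_subset_union_left
      (Finset.union_subset_union_right K0_subset_Kp)) _) _) _
  have h2 : E3 G q a φ R y (fun ω m c => ∑' x : V × List V, ind (x.2.head? = some x.1) *
      (ind (IsExit G R y ω m c x.2 ∧ ∀ σ ∈ m, (∃ v ∈ x.2, v ∈ σ) → σ = x.2) *
        E.esc (A ∪ K0 G R y ω m) (x.2.getLastD x.1))) ≤
      KK G q a φ R y (fun S F => ∑ f ∈ F, E.esc (A ∪ S) f) := by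
    refine E3_mono fun ω m c _ _ _ => ?_
    simp only [← mul_assoc, ← ind_and]
    have hl : ∀ x : V × List V, x.2.head? = some x.1 → x.2.getLast? = some (x.2.getLastD x.1) := by
      rintro ⟨u, η⟩ e
      cases η with
      | nil => simp at e
      | cons b l => rw [List.getLastD_eq_getLast?, List.getLast?_eq_some_getLast (by simp)]; rfl
    refine tsum_ind_injLA _ (fun x : V × List V => x.2.getLastD x.1) _
      (fun x e => mem_Exits.2 ⟨x.2, e.2.1, hl x e.1⟩) (fun x x' e e' h => ?_) _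
    have g1 : x'.2 = x.2 := e.2.2 _ e'.2.1.1 ⟨_, List.mem_of_getLast? (hl x e.1),
      h ▸ List.mem_of_getLast? (hl x' e'.1)⟩
    exact Prod.ext (Option.some.inj (e.1.symm.trans (g1 ▸ e'.1))) g1.symm
  refine (mul_le_mul_right h1 _).trans (le_trans ?_ (mul_le_mul_right h2 _))
  rw [E2_tsum, E3_tsum, ← ENNReal.tsum_mul_left, ← ENNReal.tsum_mul_left]
  refine ENNReal.tsum_le_tsum fun x => ?_
  rw [E2_mul_left, E3_mul_left]
  by_cases e : x.2.head? = some x.1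
  · rw [ind_pos e, one_mul, one_mul, ← mul_assoc, ← mul_assoc]
    exact E.lonely_one hπ hM hφ hq hε R A y e
  · simp [ind_neg e]

end Env

end Vale.Agent.P165
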