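import Mathlib
import Vale.Agent.P165.StageM

/-!
Lower bound on fresh exits: capacity.
-/

open scoped ENNReal

namespace Vale.Agent.P165

variable {V : Type*} [DecidableEq V] {G : SimpleGraph V} [G.LocallyFinite] {q : ℝ≥0∞} {k : ℕ}
  {π a : List V → ℝ≥0∞} {s cst ε₁ : ℝ≥0∞} {φ : Ker V}

omit [DecidableEq V] in
theorem stageLBAux_ind {L ω : Finset V} (h : ω ⊆ L) (g : V → ℝ≥0∞) :
    ∑ y ∈ ω, g y = ∑ y ∈ L, g y * ind (y ∈ ω) := by
  rw [← Finset.sum_subset h fun y _ hy => by rw [ind_neg hy, mul_zero]]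
  exact Finset.sum_congr rfl fun y hy => by rw [ind_pos hy, mul_one]

theorem stageLBAux_mem (ha : ∀ η, a η ≤ 1) (R : Finset V) (σ : List V)
    {f : Finset (Sym2 V) → Finset (List V) → ℝ≥0∞} (hf : ∀ ω, Antitone (f ω)) :
    E2 G q a R (fun ω m => ind (σ ∈ m) * f ω m) ≤ a σ * E2 G q a R f := by
  unfold E2
  rw [← Ex_mul_left]
  exact Ex_mono fun ω _ => Ex_mem_anti ha _ σ (hf ω)

theorem stageLBAux_anti (R : Finset V) (y u u' : V) (ω : Finset (Sym2 V)) :
    Antitone fun m => ind (u ∈ K0 G R y ω m ∧ u' ∈ K0 G R y ω m) := fun _ _ h =>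
  ind_mono fun h1 => ⟨K0_mono le_rfl le_rfl h h1.1, K0_mono le_rfl le_rfl h h1.2⟩

omit [DecidableEq V] in
theorem stageLBAux_rev (π : List V → ℝ≥0∞) (u z : V) :
    ∑' σ : List V, ind (σ.head? = some u ∧ σ.getLast? = some z) * π σ.reverse = PiK π z u := by
  unfold PiK
  rw [← (Function.Involutive.toPerm _ List.reverse_involutive).tsum_eq]
  refine tsum_congr fun σ => ?_
  simp only [Function.Involutive.coe_toPerm, List.head?_reverse, List.getLast?_reverse,
    List.reverse_reverse, and_comm]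

theorem stageLBAux_blk (hM : IsMark G q k π a s cst ε₁) (R : Finset V) (y u u' z : V) :
    E2 G q a R (fun ω m => ∑' σ : List V, ind (σ.head? = some u' ∧ σ.getLast? = some z) *
      (ind (σ ∈ m) * ind (u ∈ K0 G R y ω m ∧ u' ∈ K0 G R y ω m) +
        ind (σ.reverse ∈ m) * ind (u ∈ K0 G R y ω m ∧ u' ∈ K0 G R y ω m))) ≤
      (PiK π + ktr (PiK π)) z u' *
        (s * E2 G q a R (fun ω m => ind (u ∈ K0 G R y ω m ∧ u' ∈ K0 G R y ω m))) := by
  have e : (PiK π + ktr (PiK π)) z u' = ∑' σ : List V,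
      ind (σ.head? = some u' ∧ σ.getLast? = some z) * (π σ + π σ.reverse) := by
    simp only [mul_add, ENNReal.tsum_add, stageLBAux_rev]
    exact add_comm _ _
  rw [E2_tsum, e, ← ENNReal.tsum_mul_right]
  refine ENNReal.tsum_le_tsum fun σ => ?_
  rw [E2_mul_left, E2_add, mul_assoc]
  refine mul_le_mul_right ((add_le_add
    ((stageLBAux_mem hM.le_one R σ (stageLBAux_anti R y u u')).trans
      (mul_le_mul_left (hM.le_s σ) _))
    ((stageLBAux_mem hM.le_one R σ.reverse (stageLBAux_anti R y u u')).trans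
      (mul_le_mul_left (hM.le_s _) _))).trans (le_of_eq (by ring))) _

theorem stageLBAux_front {R : Finset V} {y u z : V} {ω : Finset (Sym2 V)} {m : Finset (List V)}
    (hu : u ∈ K0 G R y ω m) (hz : z ∈ Kp G R y ω m \ K0 G R y ω m) :
    1 ≤ ∑ u' ∈ R, ∑' σ : List V, ind (σ.head? = some u' ∧ σ.getLast? = some z) *
      (ind (σ ∈ m) * ind (u ∈ K0 G R y ω m ∧ u' ∈ K0 G R y ω m) +
        ind (σ.reverse ∈ m) * ind (u ∈ K0 G R y ω m ∧ u' ∈ K0 G R y ω m)) := by
  obtain ⟨σ, u', -, -, -, h1, h2, h3, -, h4⟩ :=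
    frontier (Finset.mem_sdiff.1 hz).1 (Finset.mem_sdiff.1 hz).2
  have h5 : u' ∈ K0 G R y ω m := K0_mono le_rfl Finset.sdiff_subset le_rfl h4
  refine le_trans ?_ (Finset.single_le_sum (fun _ _ => zero_le) (K0_subset h5))
  refine le_trans ?_ (ENNReal.le_tsum σ)
  rw [ind_pos ⟨h1, h2⟩, ind_pos (And.intro hu h5), one_mul, mul_one, mul_one]
  rcases h3 with h3 | h3
  · rw [ind_pos h3]; exact le_self_add
  · rw [ind_pos h3]; exact le_add_self

namespace Env

variable (E : Env G) {φ₀ : ℝ≥0∞}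

/-- union bound and `Ex_mem_anti` -/
theorem mark_err (hM : IsMark G q k π a s cst ε₁) (R : Finset V) (y : V) :
    E2 G q a R (fun ω m => ∑ u ∈ K0 G R y ω m, φ y u ^ 2 * ind (∃ σ ∈ m, u ∈ σ)) ≤
      ε₁ * nn G q a φ R y := by
  have h1 : ∀ u, ∑' σ : List V, ind (u ∈ σ) * a σ ≤ ε₁ := fun u =>
    le_trans (le_mul_of_one_le_left zero_le (le_add_left one_le_two)) (hM.sparse u)
  calc _ ≤ E2 G q a R (fun ω m => ∑ u ∈ R, φ y u ^ 2 * ∑' σ : List V, ind (u ∈ σ) *
        (ind (σ ∈ m) * ind (u ∈ K0 G R y ω m ∧ u ∈ K0 G R y ω m))) := by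
        refine E2_mono fun ω m _ _ => ?_
        refine le_trans (Finset.sum_le_sum fun u hu => mul_le_mul_right ?_ _)
          (Finset.sum_le_sum_of_subset K0_subset)
        refine (ind_exists_le_tsum _).trans (ENNReal.tsum_le_tsum fun σ => le_of_eq ?_)
        rw [ind_pos (And.intro hu hu), mul_one, ind_and, mul_comm]
    _ ≤ ∑ u ∈ R, φ y u ^ 2 *
        (ε₁ * E2 G q a R (fun ω m => ind (u ∈ K0 G R y ω m ∧ u ∈ K0 G R y ω m))) := by
        rw [E2_sum]
        refine Finset.sum_le_sum fun u _ => ?_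
        rw [E2_mul_left, E2_tsum]
        refine mul_le_mul_right (le_trans ?_ (mul_le_mul_left (h1 u) _)) _
        rw [← ENNReal.tsum_mul_right]
        refine ENNReal.tsum_le_tsum fun σ => ?_
        rw [E2_mul_left, mul_assoc]
        exact mul_le_mul_right (stageLBAux_mem hM.le_one R σ (stageLBAux_anti R y u u)) _
    _ ≤ _ := by
        rw [nn_eq, ← ENNReal.tsum_mul_left]
        refine le_trans (Finset.sum_le_sum fun u _ => le_of_eq ?_) (ENNReal.sum_le_tsum R)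
        simp only [and_self]
        rw [mul_left_comm]
        rfl

/-- By `frontier` and `K0_mono`, a frontier vertex `z` is the last vertex of some `σ` with head
`u' ∈ K0` and `σ ∈ m` or `σ.reverse ∈ m`. Union bound, `Ex_mem_anti`, `le_s`, then `set_bound` for
`kmul (kmul P H) (PiK π + ktr (PiK π))`. -/
theorem frontier_err (hπ : E.IsPat k π) (hM : IsMark G q k π a s cst ε₁) (hφ : E.IsWin φ φ₀)
    (R : Finset V) (y : V) :
    E2 G q a R (fun ω m => ∑ u ∈ K0 G R y ω m, φ y u ^ 2 *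
        ∑ z ∈ Kp G R y ω m \ K0 G R y ω m, kmul E.P E.H u z) ≤
      2 * s * E.CH ^ 2 * nn G q a φ R y := by
  obtain ⟨M, hMd⟩ : ∃ M, M = kmul (kmul E.P E.H) (PiK π + ktr (PiK π)) := ⟨_, rfl⟩
  have hPi : E.nw 2 (PiK π) ≤ E.CH := ((E.nw_mono_exp (by norm_num) _).trans hπ.nw_le).trans
    (mul_le_of_le_one_left zero_le (pow_le_one₀ zero_le E.ρ_lt.le))
  have hMn : E.nw 2 M ≤ E.CH * (E.CH + E.CH) := by
    rw [hMd]
    refine (E.nw_kmul_le _ _ _).trans (mul_le_mul' ((E.nw_mono _ E.kmul_P_H_le).trans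
      ((E.nw_mono_exp (by norm_num) _).trans E.nw_H)) ((E.nw_add_le _ _ _).trans ?_))
    rw [E.nw_ktr]
    exact add_le_add hPi hPi
  calc _ ≤ E2 G q a R (fun ω m => ∑ u ∈ R, ∑ u' ∈ R, ∑ z ∈ R, φ y u ^ 2 * (kmul E.P E.H u z *
        ∑' σ : List V, ind (σ.head? = some u' ∧ σ.getLast? = some z) *
          (ind (σ ∈ m) * ind (u ∈ K0 G R y ω m ∧ u' ∈ K0 G R y ω m) +
            ind (σ.reverse ∈ m) * ind (u ∈ K0 G R y ω m ∧ u' ∈ K0 G R y ω m)))) := by
        refine E2_mono fun ω m _ _ => ?_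
        refine le_trans (Finset.sum_le_sum fun u hu => ?_) (Finset.sum_le_sum_of_subset K0_subset)
        rw [Finset.sum_comm, Finset.mul_sum]
        refine le_trans (Finset.sum_le_sum fun z hz => ?_)
          (Finset.sum_le_sum_of_subset (Finset.sdiff_subset.trans Kp_subset))
        rw [← Finset.mul_sum, ← Finset.mul_sum]
        exact mul_le_mul_right (le_mul_of_one_le_right zero_le (stageLBAux_front hu hz)) _
    _ ≤ ∑ u ∈ R, ∑ u' ∈ R, s * (φ y u ^ 2 * M u u' *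
        E2 G q a R (fun ω m => ind (u ∈ K0 G R y ω m ∧ u' ∈ K0 G R y ω m))) := by
        rw [E2_sum]
        refine Finset.sum_le_sum fun u _ => ?_
        rw [E2_sum]
        refine Finset.sum_le_sum fun u' _ => ?_
        have h1 : ∑ z ∈ R, kmul E.P E.H u z * (PiK π + ktr (PiK π)) z u' ≤ M u u' := by
          rw [hMd]
          exact ENNReal.sum_le_tsum R
        rw [E2_sum]
        calc _ ≤ ∑ z ∈ R, φ y u ^ 2 * (kmul E.P E.H u z * ((PiK π + ktr (PiK π)) z u' *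
              (s * E2 G q a R (fun ω m => ind (u ∈ K0 G R y ω m ∧ u' ∈ K0 G R y ω m))))) := by
              refine Finset.sum_le_sum fun z _ => ?_
              rw [E2_mul_left, E2_mul_left]
              exact mul_le_mul_right (mul_le_mul_right (stageLBAux_blk hM R y u u' z) _) _
          _ = s * (φ y u ^ 2 * (∑ z ∈ R, kmul E.P E.H u z * (PiK π + ktr (PiK π)) z u') *
              E2 G q a R (fun ω m => ind (u ∈ K0 G R y ω m ∧ u' ∈ K0 G R y ω m))) := by
              rw [Finset.mul_sum, Finset.sum_mul, Finset.mul_sum]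
              exact Finset.sum_congr rfl fun z _ => by ring
          _ ≤ _ := mul_le_mul_right (mul_le_mul_left (mul_le_mul_right h1 _) _) _
    _ = s * E2 G q a R (fun ω m => ∑ u ∈ K0 G R y ω m, ∑ u' ∈ K0 G R y ω m,
        φ y u ^ 2 * M u u') := by
        simp only [← Finset.mul_sum, ← E2_mul_left, ← E2_sum]
        refine E2_congr fun ω m _ _ => congrArg _ ?_
        rw [stageLBAux_ind (K0_subset (G := G) (R := R) (x := y) (ω := ω) (m := m))]
        refine Finset.sum_congr rfl fun u _ => ?_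
        rw [stageLBAux_ind (K0_subset (G := G) (R := R) (x := y) (ω := ω) (m := m)),
          Finset.mul_sum, Finset.sum_mul]
        exact Finset.sum_congr rfl fun u' _ => by rw [ind_and]; ring
    _ ≤ s * (E.CH * (E.CH + E.CH) * nn G q a φ R y) := by
        refine mul_le_mul_right ?_ _
        rw [nn, ← E2_mul_left]
        exact E2_mono fun ω m _ _ => (E.set_bound M (φ y) (hφ.right y) _).trans
          (mul_le_mul_left hMn _)
    _ = _ := by ring

theorem stageLBAux_pt (hφ : E.IsWin φ φ₀) (A S T B : Finset V) (y u : V) (Q : Prop) :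
    φ y u ^ 2 ≤ φ y u ^ 2 * ind (u ∈ B ∧ ¬ Q) * ∑' x, E.P u x * E.esc (A ∪ T) x +
      (φ y u ^ 2 * ∑' x, E.P u x * E.hit S x + φ y u ^ 2 * ind Q +
        φ y u ^ 2 * ∑ z ∈ T \ S, kmul E.P E.H u z + ind (u ∉ B) + ∑ z ∈ A, E.H u z) := by
  have h0 : φ y u ^ 2 ≤ 1 := pow_le_one₀ zero_le (hφ.le_one y u)
  have h1 := E.P_hit_add_P_esc (A ∪ T) u
  have h2 : ∑' x, E.P u x * E.esc (A ∪ T) x ≤ 1 := h1 ▸ le_add_self
  have h3 : ∀ x, E.hit (A ∪ T) x ≤ E.hit A x + (E.hit S x + E.hit (T \ S) x) := fun x =>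
    (E.hit_union_le A T x).trans (add_le_add le_rfl
      ((E.hit_mono (by
        rw [Finset.union_sdiff_self_eq_union]; exact Finset.subset_union_right) x).trans (E.hit_union_le S (T \ S) x)))
  have h4 : ∑' x, E.P u x * E.hit (A ∪ T) x ≤ ∑ z ∈ A, E.H u z +
      (∑' x, E.P u x * E.hit S x + ∑ z ∈ T \ S, kmul E.P E.H u z) := by
    refine (ENNReal.tsum_le_tsum fun x => mul_le_mul_right (h3 x) _).trans ?_
    simp only [mul_add, ENNReal.tsum_add]
    exact add_le_add ((E.P_hit_le A u).trans (Finset.sum_le_sum fun z _ => E.kmul_P_H_le u z))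
      (add_le_add le_rfl (E.P_hit_le _ u))
  have h5 : ∑' x, E.P u x * E.esc (A ∪ T) x ≤
      ind (u ∈ B ∧ ¬ Q) * ∑' x, E.P u x * E.esc (A ∪ T) x + (ind Q + ind (u ∉ B)) := by
    by_cases hB : u ∈ B
    · by_cases hQ : Q
      · rw [ind_pos hQ]; exact h2.trans (le_add_left le_self_add)
      · rw [ind_pos ⟨hB, hQ⟩, one_mul]; exact le_self_add
    · rw [ind_pos hB]; exact h2.trans (le_add_left le_add_self)
  calc φ y u ^ 2 = φ y u ^ 2 * (∑' x, E.P u x * E.hit (A ∪ T) x +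
        ∑' x, E.P u x * E.esc (A ∪ T) x) := by rw [h1, mul_one]
    _ ≤ _ := mul_le_mul_right (add_le_add h4 h5) _
    _ = φ y u ^ 2 * ind (u ∈ B ∧ ¬ Q) * ∑' x, E.P u x * E.esc (A ∪ T) x +
      (φ y u ^ 2 * ∑' x, E.P u x * E.hit S x + φ y u ^ 2 * ind Q +
        φ y u ^ 2 * ∑ z ∈ T \ S, kmul E.P E.H u z + φ y u ^ 2 * ind (u ∉ B) +
          φ y u ^ 2 * ∑ z ∈ A, E.H u z) := by ring
    _ ≤ _ := add_le_add le_rfl (add_le_add (add_le_add le_rfl
      (mul_le_of_le_one_left zero_le h0)) (mul_le_of_le_one_left zero_le h0))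

/-- Pointwise `1 = P esc + P hit` (`P_hit_add_P_esc`), `hit (A ∪ Kp) ≤ hit A + hit S +
hit (Kp \ S)`, `capacity`, `P_hit_le`; then `mark_err`, `frontier_err`, `E2_sum_K0`. -/
theorem good_part (hπ : E.IsPat k π) (hM : IsMark G q k π a s cst ε₁) (hφ : E.IsWin φ φ₀)
    (R A : Finset V) (y : V) (L₀ : ℕ) :
    nn G q a φ R y ≤ E2 G q a R (fun ω m => ∑ u ∈ K0 G R y ω m,
        φ y u ^ 2 * ind (u ∈ ball G y L₀ ∧ ∀ σ ∈ m, u ∉ σ) *
          ∑' x, E.P u x * E.esc (A ∪ Kp G R y ω m) x) +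
      ((E.ρ + ε₁ + 2 * s * E.CH ^ 2) * nn G q a φ R y +
        ∑' u, ind (u ∉ ball G y L₀) * TT G q y u + ∑ z ∈ A, kmul (TT G q) E.H y z) := by
  have ht : ∀ u, t0 G q a R y u ≤ TT G q y u := fun u =>
    (t0_le_T0 q a R y u).trans (T0_le_TT hM.le_one y u)
  have h1 : E2 G q a R (fun ω m => ∑ u ∈ K0 G R y ω m,
      φ y u ^ 2 * ∑' x, E.P u x * E.hit (K0 G R y ω m) x) ≤ E.ρ * nn G q a φ R y := by
    rw [nn, ← E2_mul_left]
    exact E2_mono fun ω m _ _ => E.capacity (φ y) (hφ.right y) _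
  have h2 := mark_err (φ := φ) hM R y
  have h3 := E.frontier_err hπ hM hφ R y
  have h4 : E2 G q a R (fun ω m => ∑ u ∈ K0 G R y ω m, ind (u ∉ ball G y L₀)) ≤
      ∑' u, ind (u ∉ ball G y L₀) * TT G q y u := by
    rw [E2_sum_K0]
    exact ENNReal.tsum_le_tsum fun u => mul_le_mul_right (ht u) _
  have h5 : E2 G q a R (fun ω m => ∑ u ∈ K0 G R y ω m, ∑ z ∈ A, E.H u z) ≤
      ∑ z ∈ A, kmul (TT G q) E.H y z := by
    rw [E2_sum_K0]
    simp only [Finset.sum_mul]
    rw [Summable.tsum_finsetSum fun _ _ => ENNReal.summable]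
    exact Finset.sum_le_sum fun z _ => ENNReal.tsum_le_tsum fun u =>
      (mul_le_mul_right (ht u) _).trans (le_of_eq (mul_comm _ _))
  rw [add_mul, add_mul]
  refine le_trans ?_ (add_le_add le_rfl (add_le_add (add_le_add (add_le_add (add_le_add h1 h2) h3)
    h4) h5))
  rw [← E2_add, ← E2_add, ← E2_add, ← E2_add, ← E2_add]
  refine E2_mono fun ω m _ _ => ?_
  simp only [← Finset.sum_add_distrib]
  refine Finset.sum_le_sum fun u _ => ?_
  have h6 := E.stageLBAux_pt hφ A (K0 G R y ω m) (Kp G R y ω m) (ball G y L₀) y u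
    (∃ σ ∈ m, u ∈ σ)
  rw [ind_congr (Q := u ∈ ball G y L₀ ∧ ∀ σ ∈ m, u ∉ σ) (by simp)] at h6
  exact h6

end Env

end Vale.Agent.P165
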