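import Mathlib
import Vale.Agent.P165.StageLA
import Vale.Agent.P165.StageLB

/-!
Lower bound on the number of fresh exits.
-/

open scoped ENNReal

namespace Vale.Agent.P165

variable {V : Type*} [DecidableEq V] {G : SimpleGraph V} [G.LocallyFinite] {q : ℝ≥0∞} {k : ℕ}
  {π a : List V → ℝ≥0∞} {s cst ε₁ : ℝ≥0∞} {φ : Ker V}

namespace Env

variable (E : Env G) {φ₀ : ℝ≥0∞}

theorem stage_lower (hπ : E.IsPat k π) (hM : IsMark G q k π a s cst ε₁) (hφ : E.IsWin φ φ₀)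
    (hq : q ≤ 1) (hε : 2 * ε₁ ≤ 1) (A : Finset V) (y : V) {L L₀ : ℕ} (hL : L₀ + k + 1 ≤ L) :
    cst * nn G q a φ (ball G y L \ A) y ≤
      2 * KK G q a φ (ball G y L \ A) y (fun S F => ∑ f ∈ F, E.esc (A ∪ S) f) +
        cst * ((E.ρ + ε₁ + 2 * s * E.CH ^ 2) * nn G q a φ (ball G y L \ A) y +
          ∑' u, ind (u ∉ ball G y L₀) * TT G q y u + ∑ z ∈ A, kmul (TT G q) E.H y z) := by
  refine le_trans (mul_le_mul_right (E.good_part hπ hM hφ (ball G y L \ A) A y L₀) cst) ?_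
  rw [mul_add]
  exact add_le_add (E.lonely_sum hπ hM hφ.le_one hq hε A y hL) le_rfl

end Env

end Vale.Agent.P165
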