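import Mathlib
import Vale.Agent.P165.StageE
import Vale.Agent.P165.StageL
import Vale.Agent.P165.PotS

/-!
Validity of a stage under numerical hypotheses.
-/

open scoped ENNReal

namespace Vale.Agent.P165

variable {V : Type*} [DecidableEq V] {G : SimpleGraph V} [G.LocallyFinite]

/-- a term with `32 * t ≤ c` is at most `c / 32` -/
theorem validAux_div {t c : ℝ≥0∞} (h : 32 * t ≤ c) : t ≤ c / 32 := by
  rw [ENNReal.le_div_iff_mul_le (Or.inl (by norm_num)) (Or.inl (by norm_num)), mul_comm]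
  exact h

theorem validAux_q {cst q t κ n : ℝ≥0∞} (hq0 : q ≠ 0) (hq : q ≠ ⊤) (h : 32 * t ≤ q * κ) :
    32 * (cst / q * t * n) ≤ cst * κ * n := by
  calc 32 * (cst / q * t * n) = cst / q * (32 * t) * n := by ring
    _ ≤ cst / q * (q * κ) * n := by gcongr
    _ = cst * (q⁻¹ * q) * κ * n := by rw [div_eq_mul_inv]; ring
    _ = cst * κ * n := by rw [ENNReal.inv_mul_cancel hq0 hq, mul_one]

/-- the numerical core -/
theorem validAux_num {cst ρ n e1 e2 tail TH Kesc Kerr : ℝ≥0∞} (hρ : ρ < 1) (hcst : cst ≠ ⊤)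
    (hn : n ≠ ⊤) (h1 : 16 * e1 ≤ 1 - ρ) (h2 : 16 * e2 ≤ 1 - ρ) (h3 : 16 * tail ≤ (1 - ρ) * n)
    (hl : cst * n ≤ 2 * Kesc + cst * ((ρ + e1 + e2) * n + tail + TH))
    (he : Kerr ≤ 4 * (cst * (1 - ρ) * n / 32)) :
    cst / 4 * (1 - ρ) * n + Kerr ≤ Kesc + cst / 2 * TH := by
  obtain ⟨κ, hκ⟩ : ∃ κ, κ = 1 - ρ := ⟨_, rfl⟩
  have hρκ : ρ + κ = 1 := by rw [hκ]; exact add_tsub_cancel_of_le hρ.le
  have hκ1 : κ ≠ ⊤ := by rw [hκ]; exact ne_top_of_le_ne_top ENNReal.one_ne_top tsub_le_self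
  rw [← hκ] at h1 h2 h3 he ⊢
  obtain ⟨u, hu⟩ : ∃ u, u = cst * κ * n / 32 := ⟨_, rfl⟩
  have hu32 : 32 * u = cst * κ * n := by
    rw [hu]; exact ENNReal.mul_div_cancel (by norm_num) (by norm_num)
  have hut : u ≠ ⊤ := by
    rw [hu]
    exact ENNReal.div_ne_top (ENNReal.mul_ne_top (ENNReal.mul_ne_top hcst hκ1) hn) (by norm_num)
  rw [← hu] at he
  have key : ∀ t : ℝ≥0∞, 16 * t ≤ κ * n → cst * t ≤ 2 * u := fun t ht => by
    have h4 : 16 * (cst * t) ≤ 16 * (2 * u) := by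
      calc 16 * (cst * t) = cst * (16 * t) := by ring
        _ ≤ cst * (κ * n) := by gcongr
        _ = 32 * u := by rw [hu32]; ring
        _ = 16 * (2 * u) := by ring
    exact (ENNReal.mul_le_mul_iff_right (by norm_num) (by norm_num)).1 h4
  have a1 : cst * (e1 * n) ≤ 2 * u := key _ (by rw [← mul_assoc]; gcongr)
  have a2 : cst * (e2 * n) ≤ 2 * u := key _ (by rw [← mul_assoc]; gcongr)
  have a3 : cst * tail ≤ 2 * u := key _ h3
  have hfin : cst * ρ * n + 6 * u ≠ ⊤ :=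
    ENNReal.add_ne_top.2 ⟨ENNReal.mul_ne_top (ENNReal.mul_ne_top hcst hρ.ne_top) hn,
      ENNReal.mul_ne_top (by norm_num) hut⟩
  have b1 : (cst * ρ * n + 6 * u) + 26 * u ≤ (cst * ρ * n + 6 * u) + (2 * Kesc + cst * TH) := by
    calc (cst * ρ * n + 6 * u) + 26 * u = cst * ρ * n + 32 * u := by ring
      _ = cst * (ρ + κ) * n := by rw [hu32]; ring
      _ = cst * n := by rw [hρκ, mul_one]
      _ ≤ 2 * Kesc + cst * ((ρ + e1 + e2) * n + tail + TH) := hl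
      _ = 2 * Kesc + (cst * ρ * n + cst * (e1 * n) + cst * (e2 * n) + cst * tail + cst * TH) := by
        ring
      _ ≤ 2 * Kesc + (cst * ρ * n + 2 * u + 2 * u + 2 * u + cst * TH) := by gcongr
      _ = (cst * ρ * n + 6 * u) + (2 * Kesc + cst * TH) := by ring
  have b2 : 26 * u ≤ 2 * Kesc + cst * TH := (ENNReal.add_le_add_iff_left hfin).1 b1
  have c4 : (4 : ℝ≥0∞) * (cst / 4) = cst := ENNReal.mul_div_cancel (by norm_num) (by norm_num)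
  have c2 : (2 : ℝ≥0∞) * (cst / 2) = cst := ENNReal.mul_div_cancel (by norm_num) (by norm_num)
  have b3 : cst / 4 * κ * n = 8 * u := by
    refine (ENNReal.mul_right_inj (a := 4) (by norm_num) (by norm_num)).1 ?_
    calc 4 * (cst / 4 * κ * n) = 4 * (cst / 4) * κ * n := by ring
      _ = 32 * u := by rw [c4, hu32]
      _ = 4 * (8 * u) := by ring
  refine (ENNReal.mul_le_mul_iff_right (a := 2) (by norm_num) (by norm_num)).1 ?_
  calc 2 * (cst / 4 * κ * n + Kerr) ≤ 2 * (8 * u + 4 * u) := by rw [b3]; gcongr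
    _ = 24 * u := by ring
    _ ≤ 26 * u := by gcongr; norm_num
    _ ≤ 2 * Kesc + cst * TH := b2
    _ = 2 * (Kesc + cst / 2 * TH) := by rw [mul_add, ← mul_assoc, c2]

/-- the last step -/
theorem validAux_fin {cst κ n μ c₂ w g PT TH h Kesc Kerr Khit : ℝ≥0∞}
    (hen : w * (c₂ * g) ≤ n + w * (g * PT + c₂ * g * h))
    (hμ : μ = cst / 4 * κ * (w * (c₂ * g))) (hμ0 : μ ≠ 0) (hμ1 : μ ≠ ⊤) (hc₂ : c₂ ≠ ⊤)
    (hk : cst / 4 * κ * n + Kerr ≤ Kesc + cst / 2 * TH) :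
    μ + (Khit + Kerr) ≤ (Khit + Kesc) + μ * (h + (c₂⁻¹ * PT + cst / (2 * μ) * TH)) := by
  have hc0 : c₂ ≠ 0 := by
    rintro rfl
    exact hμ0 (by rw [hμ]; simp)
  have e1 : μ * c₂⁻¹ = cst / 4 * κ * (w * g) := by
    calc μ * c₂⁻¹ = cst / 4 * κ * (w * g) * (c₂ * c₂⁻¹) := by rw [hμ]; ring
      _ = _ := by rw [ENNReal.mul_inv_cancel hc0 hc₂, mul_one]
  have e2 : μ * (cst / (2 * μ)) = cst / 2 := by
    rw [div_eq_mul_inv, div_eq_mul_inv, ENNReal.mul_inv (Or.inl (by norm_num)) (Or.inl (by norm_num))]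
    calc μ * (cst * (2⁻¹ * μ⁻¹)) = cst * 2⁻¹ * (μ * μ⁻¹) := by ring
      _ = _ := by rw [ENNReal.mul_inv_cancel hμ0 hμ1, mul_one]
  have e3 : μ ≤ cst / 4 * κ * n + (μ * c₂⁻¹ * PT + μ * h) := by
    calc μ = cst / 4 * κ * (w * (c₂ * g)) := hμ
      _ ≤ cst / 4 * κ * (n + w * (g * PT + c₂ * g * h)) := by gcongr
      _ = cst / 4 * κ * n + (cst / 4 * κ * (w * g) * PT + cst / 4 * κ * (w * (c₂ * g)) * h) := by
        ring
      _ = _ := by rw [← e1, ← hμ]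
  calc μ + (Khit + Kerr) ≤ cst / 4 * κ * n + (μ * c₂⁻¹ * PT + μ * h) + (Khit + Kerr) := by gcongr
    _ = (cst / 4 * κ * n + Kerr) + (Khit + (μ * c₂⁻¹ * PT + μ * h)) := by ring
    _ ≤ (Kesc + cst / 2 * TH) + (Khit + (μ * c₂⁻¹ * PT + μ * h)) := by gcongr
    _ = _ := by rw [← e2]; ring

namespace Env

variable (E : Env G)

/-- If `y ∈ A` use `stage_trivial`. Otherwise `K = KK q a φ (ball y L \ A) y`; the fields of
`StageK` are the `KK_` lemmas. With `n = nn ..` (finite, at least `φ₀²`) and `κ = 1 - ρ`: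
`stage_lower` gives `cst n ≤ 2 K esc + cst ((ρ + 3κ/16) n + TH)`; `err_G` (with `tG = ε₀ Cp` by
`IsPat.loop` and `tr_diag`; `tr_local` with radius `2L`) and `err_U` give `K err ≤ cst κ n / 8`;
so `cst κ n / 4 + K err ≤ K esc + cst TH / 2`. Multiply `hen` by `cst κ / 4`, and use
`hit + esc = 1`. -/
theorem piece_valid {q p s cst ε₁ φ₀ ce c₂ g μ Cp ε₀ ε ηp : ℝ≥0∞} {k j L L₀ : ℕ}
    {π a : List V → ℝ≥0∞} {φ : Ker V} (hπ : E.IsPat k π) (hM : IsMark G q k π a s cst ε₁)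
    (hφ : E.IsWin φ φ₀) (hq0 : q ≠ 0) (hqp : q ≤ p) (hp : p ≤ 1)
    (h1 : 16 * ε₁ ≤ 1 - E.ρ) (h2 : 32 * s * E.CH ^ 2 ≤ 1 - E.ρ)
    (h3 : ∀ y, 16 * ∑' u, ind (u ∉ ball G y L₀) * TT G q y u ≤ (1 - E.ρ) * φ₀ ^ 2)
    (hL : L₀ + k + 1 ≤ L)
    (hen : ∀ (A : Finset V) (y : V), ce ^ j * (c₂ * g) ≤ nn G q a φ (ball G y L \ A) y +
      ce ^ j * (g * ∑ z ∈ A, kmul (kpow E.P j) (fun a b => TT G q a b * E.w1 a b ^ 4) y z +
        c₂ * g * E.hit A y))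
    (hμ : μ = cst / 4 * (1 - E.ρ) * (ce ^ j * (c₂ * g))) (hμ0 : μ ≠ 0) (hμ1 : μ ≠ ⊤)
    (hc₂ : c₂ ≠ ⊤)
    (hCp : ∑ i ∈ Finset.range (k + 1), E.Np (kmul (kmul (kpow E.P i) E.H) E.P) ≤ Cp)
    (h4 : 32 * (E.CH * ε) ≤ q * (1 - E.ρ)) (h5 : 32 * (ε₀ * Cp) ≤ q * (1 - E.ρ))
    (h6 : 32 * (s ^ 2 * E.CH ^ 2 * ε) ≤ cst * (1 - E.ρ))
    (h7 : 32 * ((((E.D : ℝ≥0∞) + 1) ^ L) ^ 2 * ((2 * E.Nm (ballK G (2 * L)) + 1) * ηp)) ≤
      cst * (1 - E.ρ) * φ₀ ^ 2)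
    {x : Ker V × Ker V} {v : Prof} (hx : E.Tr x.1 ε₀) (hv : E.Dec x v) (ha : E.ρ ^ k * v.a ≤ ε)
    (ha' : E.ρ ^ k * v.a' ≤ ε) (hb : v.b ≤ ηp) (hb' : v.b' ≤ ηp) (hs : v.s ≤ ηp)
    (A : Finset V) (y : V) :
    ∃ K, StageK (Psi G p) (fun y z => TT G q y z * ballK G L y z)
        ((cst / q) • kmul (fun y u => φ y u ^ 2 * T0 G q a y u) (PiK π)) A y K ∧
      Valid E.hit (c₂⁻¹ • kmul (kpow E.P j) (fun a b => TT G q a b * E.w1 a b ^ 4) +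
        (cst / (2 * μ)) • kmul (TT G q) E.H) μ x A y K := by
  by_cases hy : y ∈ A
  · exact stage_trivial (fun A L L' h => Psi_mono hp A h) _ _ _ _ _ (E.hit_of_mem hy).ge
  have hq : q ≤ 1 := hqp.trans hp
  have hqt : q ≠ ⊤ := ne_top_of_le_ne_top ENNReal.one_ne_top hq
  refine ⟨KK G q a φ (ball G y L \ A) y, ⟨fun f g h => KK_mono fun S F _ _ => h S F, KK_add,
    KK_smul, KK_const hq hM.le_one hφ.le_one,
    KK_psi hqp hp hM.le_one hφ.le_one Finset.sdiff_disjoint, KK_hS hM.le_one hφ.le_one A L,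
    KK_hF hM hq0 hq hφ.le_one _ y, KK_fin hq hM.le_one hφ.le_one⟩, ?_⟩
  have hε : 2 * ε₁ ≤ 1 :=
    le_trans (mul_le_mul_left (by norm_num) ε₁) (h1.trans tsub_le_self)
  have hl := E.stage_lower hπ hM hφ hq hε A y hL
  have hen' := hen A y
  obtain ⟨R, hR⟩ : ∃ R, R = ball G y L \ A := ⟨_, rfl⟩
  have hyR : y ∈ R := by rw [hR]; exact Finset.mem_sdiff.2 ⟨self_mem_ball y L, hy⟩
  have hRb : ∀ f ∈ R, ∀ z ∈ R, z ∈ ball G f (2 * L) := fun f hf z hz => by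
    rw [hR] at hf hz
    rw [two_mul]
    exact mem_ball_trans (mem_ball_symm (Finset.mem_sdiff.1 hf).1) (Finset.mem_sdiff.1 hz).1
  have hRc : (R.card : ℝ≥0∞) ≤ ((E.D : ℝ≥0∞) + 1) ^ L := by
    have h8 : R.card ≤ (E.D + 1) ^ L := by
      rw [hR]
      exact (Finset.card_le_card Finset.sdiff_subset).trans (card_ball_le E.deg_le y L)
    exact_mod_cast h8
  rw [← hR] at hl hen' ⊢
  have hn0 : φ₀ ^ 2 ≤ nn G q a φ R y := by
    rw [← hφ.diag y]; exact le_nn hq hM.le_one φ hyR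
  have hnt : nn G q a φ R y ≠ ⊤ := nn_ne_top hq hM.le_one hφ.le_one R y
  have hcst : cst ≠ ⊤ := by
    rintro rfl
    rw [ENNReal.top_div_of_ne_top (by norm_num)] at hμ
    rw [hμ] at hμ0 hμ1
    rw [mul_assoc] at hμ0 hμ1
    exact hμ1 (ENNReal.top_mul (right_ne_zero_of_mul hμ0))
  obtain ⟨Ga, Gb, Ua, Ub, Uc, d1, d2, d3, d4, d5, d6, d7⟩ := hv
  have hPi : E.nw 2 (PiK π) ≤ E.ρ ^ k * E.CH := (E.nw_mono_exp (by norm_num) _).trans hπ.nw_le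
  have hρk : E.ρ ^ k ≤ 1 := pow_le_one₀ zero_le E.ρ_lt.le
  have eG := E.err_G hM hφ hq0 hq R y d1 (b := ηp * E.Nm (ballK G (2 * L))) (tG := ε₀ * Cp)
    (fun f hf z hz => (E.tr_local d4 (hRb f hf z hz)).trans (by gcongr))
    (fun u => (hπ.loop x.1 (fun i => ε₀ * E.Np (kmul (kmul (kpow E.P i) E.H) E.P))
      (fun i b => E.tr_diag hx (((E.P_inv.kpow i).kmul E.H_inv).kmul E.P_inv) b) u).trans (by
        rw [← Finset.mul_sum]
        gcongr))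
  have eU := E.err_U hM hφ hq R y (U := x.2) (Ua := Ua) (Ub := Ub + Uc)
    (by rw [← add_assoc]; exact d2) (b := ηp * E.Nm (ballK G (2 * L)) + ηp)
    (fun f hf z hz => add_le_add ((E.tr_local d6 (hRb f hf z hz)).trans (by gcongr))
      ((d7 f z).trans hs))
  have n1 : E.nw 2 (kmul (PiK π) Ga) ≤ E.CH * ε := by
    calc E.nw 2 (kmul (PiK π) Ga) ≤ E.nw 2 (PiK π) * E.nw 2 Ga := E.nw_kmul_le _ _ _
      _ ≤ E.ρ ^ k * E.CH * v.a := by gcongr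
      _ = E.CH * (E.ρ ^ k * v.a) := by ring
      _ ≤ _ := by gcongr
  have n2 : nrm (kmul (kmul (PiK π) Ua) (ktr (PiK π))) ≤ E.CH ^ 2 * ε := by
    have h8 : nrm (PiK π) ≤ E.ρ ^ k * E.CH := (E.nrm_le_nw 2 _).trans hPi
    have h9 : nrm Ua ≤ v.a' := (E.nrm_le_nw 2 _).trans d5
    calc nrm (kmul (kmul (PiK π) Ua) (ktr (PiK π)))
        ≤ nrm (kmul (PiK π) Ua) * nrm (ktr (PiK π)) := nrm_kmul_le _ _
      _ ≤ nrm (PiK π) * nrm Ua * nrm (PiK π) := by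
        rw [nrm_ktr]
        exact mul_le_mul_left (nrm_kmul_le _ _) _
      _ ≤ E.ρ ^ k * E.CH * v.a' * (1 * E.CH) :=
        mul_le_mul' (mul_le_mul' h8 h9) (h8.trans (mul_le_mul_left hρk _))
      _ = E.CH ^ 2 * (E.ρ ^ k * v.a') := by ring
      _ ≤ _ := by gcongr
  obtain ⟨n, hn⟩ : ∃ n, n = nn G q a φ R y := ⟨_, rfl⟩
  rw [← hn] at hl hen' hn0 hnt eG eU
  have t1 := validAux_div (validAux_q (cst := cst) (n := n) hq0 hqt h4)
  have t2 := validAux_div (validAux_q (cst := cst) (n := n) hq0 hqt h5)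
  have t3 : s ^ 2 * (E.CH ^ 2 * ε) * n ≤ cst * (1 - E.ρ) * n / 32 := validAux_div (by
    calc 32 * (s ^ 2 * (E.CH ^ 2 * ε) * n) = 32 * (s ^ 2 * E.CH ^ 2 * ε) * n := by ring
      _ ≤ _ := by gcongr)
  have t4 := validAux_div (h7.trans (mul_le_mul_right hn0 (cst * (1 - E.ρ))))
  have he : KK G q a φ R y (fun S F => ∑ f ∈ F, ∑ z ∈ S, x.1 f z) +
      KK G q a φ R y (fun _ F => ∑ f ∈ F, ∑ f' ∈ F.erase f, x.2 f f') ≤
        4 * (cst * (1 - E.ρ) * n / 32) := by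
    calc _ ≤ (cst / q * (E.CH * ε + ε₀ * Cp) * n +
          (((E.D : ℝ≥0∞) + 1) ^ L) ^ 2 * (ηp * E.Nm (ballK G (2 * L)))) +
        (s ^ 2 * (E.CH ^ 2 * ε) * n +
          (((E.D : ℝ≥0∞) + 1) ^ L) ^ 2 * (ηp * E.Nm (ballK G (2 * L)) + ηp)) :=
          add_le_add (eG.trans (by gcongr)) (eU.trans (by gcongr))
      _ = cst / q * (E.CH * ε) * n + cst / q * (ε₀ * Cp) * n + s ^ 2 * (E.CH ^ 2 * ε) * n +
          (((E.D : ℝ≥0∞) + 1) ^ L) ^ 2 * ((2 * E.Nm (ballK G (2 * L)) + 1) * ηp) := by ring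
      _ ≤ _ := (add_le_add (add_le_add (add_le_add t1 t2) t3) t4).trans (le_of_eq (by ring))
  have hk := validAux_num E.ρ_lt hcst hnt h1 (e2 := 2 * s * E.CH ^ 2)
    (le_of_eq_of_le (by ring) h2) ((h3 y).trans (mul_le_mul_right hn0 _)) hl he
  have hf := validAux_fin (Khit := KK G q a φ R y (fun S F => ∑ f ∈ F, E.hit (A ∪ S) f))
    hen' hμ hμ0 hμ1 hc₂ hk
  unfold Valid
  refine le_of_eq_of_le ?_ (hf.trans (le_of_eq ?_))
  · rw [← KK_add, ← KK_add]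
    simp only [Finset.sum_add_distrib, add_assoc]
  · rw [← KK_add]
    simp only [← Finset.sum_add_distrib, E.hit_add_esc, Finset.sum_const, nsmul_eq_mul, mul_one,
      Pi.add_apply, Pi.smul_apply, smul_eq_mul, Finset.mul_sum]

end Env

end Vale.Agent.P165
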