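import Mathlib
import Vale.Agent.P165.Geo

/-!
Choice of the soft window.
-/

open scoped ENNReal

namespace Vale.Agent.P165

variable {V : Type*} [DecidableEq V] {G : SimpleGraph V} [G.LocallyFinite]

/-- powers of two with real exponent -/
private noncomputable def e2 (s : ℝ) : ℝ≥0∞ := (2 : ℝ≥0∞) ^ s

private theorem e2_add (s t : ℝ) : e2 (s + t) = e2 s * e2 t :=
  ENNReal.rpow_add _ _ two_ne_zero ENNReal.ofNat_ne_top

private theorem e2_mono {s t : ℝ} (h : s ≤ t) : e2 s ≤ e2 t :=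
  ENNReal.rpow_le_rpow_of_exponent_le one_le_two h

private theorem e2_zero : e2 0 = 1 := ENNReal.rpow_zero

private theorem e2_neg (s : ℝ) : e2 (-s) = (e2 s)⁻¹ := ENNReal.rpow_neg _ _

private theorem e2_pow (s : ℝ) (n : ℕ) : e2 s ^ n = e2 (n * s) := by
  rw [mul_comm, e2, e2, ENNReal.rpow_mul, ENNReal.rpow_natCast]

private theorem e2_ne_zero (s : ℝ) : e2 s ≠ 0 :=
  (ENNReal.rpow_pos two_pos ENNReal.ofNat_ne_top).ne'

private theorem e2_ne_top (s : ℝ) : e2 s ≠ ⊤ := by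
  have := e2_ne_zero (-s)
  rwa [e2_neg, ENNReal.inv_ne_zero] at this

private theorem e2_max (s : ℝ) : max (e2 s) (e2 (-s)) = e2 |s| := by
  rcases le_total 0 s with h | h
  · rw [abs_of_nonneg h, max_eq_left (e2_mono (by linarith))]
  · rw [abs_of_nonpos h, max_eq_right (e2_mono (by linarith))]

private theorem e2_logb {t : ℝ≥0∞} (h0 : t ≠ 0) (h1 : t ≠ ⊤) : e2 (Real.logb 2 t.toReal) = t := by
  have h2 : (2 : ℝ≥0∞) = ENNReal.ofReal 2 := by simp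
  rw [e2, h2, ENNReal.ofReal_rpow_of_pos two_pos,
    Real.rpow_logb two_pos (by norm_num) (ENNReal.toReal_pos h0 h1), ENNReal.ofReal_toReal h1]

private theorem e2_sum : ∑' j : ℤ, e2 (-|(j : ℝ)|) ≠ ⊤ := by
  have h1 : e2 (-1) < 1 := ENNReal.rpow_lt_one_of_one_lt_of_neg ENNReal.one_lt_two (by norm_num)
  have h2 : ∑' n : ℕ, e2 (-1) ^ n ≠ ⊤ := by
    rw [ENNReal.tsum_geometric]
    exact ENNReal.inv_ne_top.mpr (tsub_pos_of_lt h1).ne'
  rw [tsum_of_nat_of_neg_add_one ENNReal.summable ENNReal.summable]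
  refine ENNReal.add_ne_top.mpr ⟨ne_top_of_le_ne_top h2 (ENNReal.tsum_le_tsum fun n => ?_),
    ne_top_of_le_ne_top h2 (ENNReal.tsum_le_tsum fun n => ?_)⟩
  · rw [e2_pow]
    refine e2_mono ?_
    have := le_abs_self (((n : ℤ) : ℝ))
    push_cast at this ⊢
    linarith
  · rw [e2_pow]
    refine e2_mono ?_
    have := neg_le_abs (((-((n : ℤ) + 1) : ℤ) : ℝ))
    push_cast at this ⊢
    linarith

private theorem e2_key {U : Type*} (l : U → ℝ) (T : U → ℝ≥0∞) (c : ℤ) (B : ℝ≥0∞)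
    (h : ∀ d : ℤ, ∑' u, e2 (-4 * |l u - d|) * T u ≤ B * e2 (2 * |(d : ℝ) - c|)) :
    ∑' u, e2 (-3 * |l u - c|) * T u ≤ e2 7 * (∑' j : ℤ, e2 (-|(j : ℝ)|)) * B := by
  have h1 : ∀ u, e2 (-3 * |l u - c|) * T u ≤
      ∑' d : ℤ, e2 (7 - 3 * |(d : ℝ) - c|) * (e2 (-4 * |l u - d|) * T u) := by
    intro u
    refine le_trans ?_ (ENNReal.le_tsum ⌊l u⌋)
    rw [← mul_assoc, ← e2_add]
    refine mul_le_mul' (e2_mono ?_) le_rfl
    have a1 := Int.floor_le (l u)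
    have a2 := Int.lt_floor_add_one (l u)
    have a3 : |l u - ⌊l u⌋| ≤ 1 := abs_le.mpr ⟨by linarith, by linarith⟩
    have a4 := abs_sub_le (⌊l u⌋ : ℝ) (l u) c
    rw [abs_sub_comm (⌊l u⌋ : ℝ) (l u)] at a4
    linarith
  refine (ENNReal.tsum_le_tsum h1).trans ?_
  rw [ENNReal.tsum_comm, ← (Equiv.subRight c).tsum_eq fun j : ℤ => e2 (-|(j : ℝ)|),
    ← ENNReal.tsum_mul_left, ← ENNReal.tsum_mul_right]
  refine ENNReal.tsum_le_tsum fun d => ?_
  rw [ENNReal.tsum_mul_left]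
  refine (mul_le_mul' le_rfl (h d)).trans (le_of_eq ?_)
  rw [mul_comm B, ← mul_assoc, ← e2_add, ← e2_add, Equiv.subRight_apply, Int.cast_sub]
  exact congrArg (fun s => e2 s * B) (by ring)

namespace Env

variable (E : Env G)

/-- Take `φ y u = min (τ y u / w) (w / τ y u) ^ 2` with `w = 2 ^ d₀`, `d₀ : ℤ`. Let
`A d = ⨆ y, ∑' u, T y u * ind (2^d ≤ τ y u < 2^(d+1))`, `S = ⨆ d, A d * 4^(-|d|) ≤ χ`, and choose
`d₀` with `S ≤ 2 * A d₀ * 4^(-|d₀|)` (any `d₀` if `S = 0`). Then `A d₀ ≤ 16 g` for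
`g = ⨆ y, ∑' u, φ y u ^ 2 * T y u`, and `A d ≤ 2 * 4^|d - d₀| * A d₀`.
Last two bounds: `φ ^ 2 * (τ / w) ^ (±1) ≤ min (τ/w) (w/τ) ^ 3 ≤ 8 * 8^(-|d - d₀|)` on level `d`.
First bound: `nrm_le_schur`; where `τ y u ≤ 1`, `w1 ^ 6 * τ ^ n = τ ^ (n-6) ≤ τ ^ 6`, and
`∑' u, T y u * ind (τ y u ≤ 1) * τ y u ^ 6 ≤ C * S`; where `τ y u > 1` use `row_le` for
`F y u = T y u * ind (1 < τ y u) * τ u y ^ (n-6)` and the symmetry of `T`. Finally
`S * max w w⁻¹ ≤ 2 * A d₀`. -/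
theorem exists_win : ∃ C : ℝ≥0∞, C ≠ ⊤ ∧ ∀ T : Ker V, KInv G T → (∀ x y, T x y = T y x) →
    (∃ χ : ℝ≥0∞, χ ≠ ⊤ ∧ ∀ y, ∑' u, T y u ≤ χ) →
    ∃ (w φ₀ : ℝ≥0∞) (φ : Ker V), w ≠ 0 ∧ w ≠ ⊤ ∧ E.IsWin φ φ₀ ∧
      E.nw 6 T * max w w⁻¹ ≤ C * (⨆ y, ∑' u, φ y u ^ 2 * T y u) ∧
      (∀ y, ∑' u, φ y u ^ 2 * T y u * E.τ y u ≤ C * w * ⨆ y, ∑' u, φ y u ^ 2 * T y u) ∧
      (∀ y, ∑' u, φ y u ^ 2 * T y u * E.τ u y ≤ C * w⁻¹ * ⨆ y, ∑' u, φ y u ^ 2 * T y u) := by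
  set C0 : ℝ≥0∞ := e2 7 * ∑' j : ℤ, e2 (-|(j : ℝ)|) with hC0
  have hC0' : C0 ≠ ⊤ := ENNReal.mul_ne_top (e2_ne_top _) e2_sum
  set N : ℝ≥0∞ := (E.reps.card : ℝ≥0∞) with hN
  have hN' : N ≠ ⊤ := ENNReal.natCast_ne_top _
  refine ⟨(1 + N * (1 + N)) * (C0 * 2), by finiteness, fun T hT hsymm ⟨χ, hχ, hrow⟩ => ?_⟩
  obtain ⟨l, hl⟩ : ∃ l : V → V → ℝ, ∀ x y, l x y = Real.logb 2 (E.τ x y).toReal := ⟨_, fun _ _ => rfl⟩
  have hτ : ∀ x y, E.τ x y = e2 (l x y) := fun x y => by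
    rw [hl, e2_logb (E.τ_ne_zero x y) (E.τ_ne_top x y)]
  have hadd : ∀ x y z, l x y + l y z = l x z := fun x y z => by
    rw [hl, hl, hl, ← E.τ_mul x y z, ENNReal.toReal_mul, Real.logb_mul
      (ENNReal.toReal_pos (E.τ_ne_zero x y) (E.τ_ne_top x y)).ne'
      (ENNReal.toReal_pos (E.τ_ne_zero y z) (E.τ_ne_top y z)).ne']
  have hself : ∀ x, l x x = 0 := fun x => by linarith [hadd x x x]
  have hneg : ∀ x y, l y x = -l x y := fun x y => by linarith [hadd x y x, hself x]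
  have hinv : ∀ (ψ : G ≃g G) x y, l (ψ x) (ψ y) = l x y := fun ψ x y => by
    rw [hl, hl, E.τ_inv ψ x y]
  have hw1 : ∀ x y, E.w1 x y = e2 |l x y| := fun x y => by
    rw [w1, hτ, hτ, hneg x y, e2_max]
  obtain ⟨g, hg⟩ : ∃ g : ℤ → ℝ≥0∞, ∀ d, g d = ⨆ y, ∑' u, e2 (-4 * |l y u - d|) * T y u :=
    ⟨_, fun _ => rfl⟩
  have hg' : ∀ (d : ℤ) y, ∑' u, e2 (-4 * |l y u - d|) * T y u ≤ g d := fun d y => by
    rw [hg]; exact le_iSup (fun y => ∑' u, e2 (-4 * |l y u - d|) * T y u) y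
  have hle1 : ∀ s : ℝ, s ≤ 0 → e2 s ≤ 1 := fun s hs => e2_zero ▸ e2_mono hs
  set S : ℝ≥0∞ := ⨆ d : ℤ, g d * e2 (-2 * |(d : ℝ)|) with hS
  have hSχ : S ≤ χ := iSup_le fun d => by
    refine (mul_le_of_le_one_right' (hle1 _ (by linarith [abs_nonneg (d : ℝ)]))).trans ?_
    rw [hg]
    refine iSup_le fun y => le_trans (ENNReal.tsum_le_tsum fun u => ?_) (hrow y)
    exact mul_le_of_le_one_left' (hle1 _ (by linarith [abs_nonneg (l y u - d)]))
  have hgS : ∀ d : ℤ, g d ≤ S * e2 (2 * |(d : ℝ)|) := fun d => by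
    calc g d = g d * e2 (-2 * |(d : ℝ)|) * e2 (2 * |(d : ℝ)|) := by
          rw [mul_assoc, ← e2_add, neg_mul, neg_add_cancel, e2_zero, mul_one]
      _ ≤ _ := mul_le_mul' (le_iSup (fun d : ℤ => g d * e2 (-2 * |(d : ℝ)|)) d) le_rfl
  obtain ⟨c, hc⟩ : ∃ c : ℤ, S ≤ 2 * (g c * e2 (-2 * |(c : ℝ)|)) := by
    rcases eq_or_ne S 0 with h0 | h0
    · exact ⟨0, h0 ▸ zero_le⟩
    · obtain ⟨c, hc⟩ := lt_iSup_iff.mp (ENNReal.half_lt_self h0 (ne_top_of_le_ne_top hχ hSχ))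
      refine ⟨c, ?_⟩
      rw [two_mul]
      exact (ENNReal.add_halves S).symm.le.trans (add_le_add hc.le hc.le)
  have hφ : ∀ y u, e2 (-2 * |l y u - c|) ^ 2 = e2 (-4 * |l y u - c|) := fun y u => by
    rw [e2_pow]
    exact congrArg e2 (by push_cast; ring)
  have k1 : ∀ y, ∑' u, e2 (-3 * |l y u - c|) * T y u ≤ C0 * (2 * g c) := fun y =>
    e2_key (l y) (T y) c _ fun d => by
      refine (hg' d y).trans ((hgS d).trans ((mul_le_mul' hc le_rfl).trans ?_))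
      rw [mul_assoc, mul_assoc, mul_assoc, ← e2_add]
      refine mul_le_mul' le_rfl (mul_le_mul' le_rfl (e2_mono ?_))
      linarith [abs_sub_abs_le_abs_sub (d : ℝ) c]
  have k2 : ∀ y, ∑' u, e2 (-3 * |l y u|) * T y u ≤ C0 * S := fun y => by
    have := e2_key (l y) (T y) 0 S fun d => by
      rw [Int.cast_zero, sub_zero]
      exact (hg' d y).trans (hgS d)
    simpa only [Int.cast_zero, sub_zero] using this
  have k3 : ∀ (y : V) (σ : V → ℝ≥0∞) (w : ℝ≥0∞),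
      (∀ u, e2 (-4 * |l y u - c|) * σ u ≤ w * e2 (-3 * |l y u - c|)) →
      ∑' u, e2 (-4 * |l y u - c|) * T y u * σ u ≤ (1 + N * (1 + N)) * (C0 * 2) * w * g c := by
    intro y σ w h
    calc _ ≤ ∑' u, w * (e2 (-3 * |l y u - c|) * T y u) := ENNReal.tsum_le_tsum fun u => by
          rw [mul_right_comm, ← mul_assoc]
          exact mul_le_mul' (h u) le_rfl
      _ ≤ w * (C0 * (2 * g c)) := by
          rw [ENNReal.tsum_mul_left]
          exact mul_le_mul' le_rfl (k1 y)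
      _ = 1 * (C0 * 2) * w * g c := by ring
      _ ≤ _ := mul_le_mul' (mul_le_mul' (mul_le_mul' le_self_add le_rfl) le_rfl) le_rfl
  refine ⟨e2 c, e2 (-2 * |(0 : ℝ) - c|), fun y u => e2 (-2 * |l y u - c|), e2_ne_zero _,
    e2_ne_top _, ⟨fun y u => hle1 _ (by linarith [abs_nonneg (l y u - c)]),
      fun ψ x y => by simp only [hinv], fun y z u => ?_, fun y u z => ?_,
      fun y => by rw [hself], e2_ne_zero _⟩, ?_, fun y => ?_, fun y => ?_⟩
  · rw [hw1, e2_pow, ← e2_add]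
    refine e2_mono ?_
    have h1 := abs_sub (l y u - c) (l y z)
    rw [show l y u - c - l y z = l z u - c by linarith [hadd y z u]] at h1
    push_cast
    linarith
  · rw [hw1, e2_pow, ← e2_add]
    refine e2_mono ?_
    have h1 := abs_add_le (l y u - c) (l u z)
    rw [show l y u - c + l u z = l y z - c by linarith [hadd y u z]] at h1
    push_cast
    linarith
  · simp only [hφ]
    rw [← hg, ← e2_neg, e2_max]
    have hF : KInv G fun y u => e2 (-3 * |l y u|) * T y u := fun ψ x y => by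
      simp only [hinv, hT ψ x y]
    have h1 := E.row_le hF (m := C0 * S) fun b => by
      refine le_trans (le_of_eq (tsum_congr fun x => ?_)) (k2 b)
      rw [hneg b x, abs_neg, hsymm x b]
    have h2 : E.nw 6 T ≤ N * (C0 * S + N * (C0 * S)) := by
      refine E.nrm_le_schur (hT.mul (E.w1_inv.pow 6)) fun a => ?_
      refine le_trans (ENNReal.tsum_le_tsum fun u => ?_)
        (ENNReal.tsum_add.le.trans (add_le_add (k2 a) (h1 a)))
      have hn : (12 : ℝ) ≤ E.n := by exact_mod_cast E.n_ge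
      rw [hw1, hτ, e2_pow, e2_pow, e2_pow, mul_assoc, ← e2_add, mul_comm (T a u),
        mul_right_comm, ← e2_add, ← add_mul]
      refine mul_le_mul' ?_ le_rfl
      rcases le_total 0 (l a u) with h | h
      · refine le_add_left (e2_mono ?_)
        rw [abs_of_nonneg h]
        push_cast
        nlinarith
      · refine le_add_right (e2_mono ?_)
        rw [abs_of_nonpos h]
        push_cast
        nlinarith
    have h3 : S * e2 |(c : ℝ)| ≤ 2 * g c := by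
      refine (mul_le_mul' hc le_rfl).trans ?_
      rw [mul_assoc, mul_assoc, ← e2_add]
      exact mul_le_mul' le_rfl (mul_le_of_le_one_right' (hle1 _ (by linarith [abs_nonneg (c : ℝ)])))
    calc _ ≤ N * (C0 * S + N * (C0 * S)) * e2 |(c : ℝ)| := mul_le_mul' h2 le_rfl
      _ = N * (1 + N) * C0 * (S * e2 |(c : ℝ)|) := by ring
      _ ≤ (1 + N * (1 + N)) * C0 * (2 * g c) :=
          mul_le_mul' (mul_le_mul' le_add_self le_rfl) h3
      _ = _ := by ring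
  · simp only [hφ]
    rw [← hg]
    refine k3 y _ _ fun u => ?_
    rw [hτ, ← e2_add, ← e2_add]
    exact e2_mono (by linarith [le_abs_self (l y u - c)])
  · simp only [hφ]
    rw [← hg]
    refine k3 y (fun u => E.τ u y) _ fun u => ?_
    rw [hτ, ← e2_neg, ← e2_add, ← e2_add, hneg y u]
    exact e2_mono (by linarith [neg_le_abs (l y u - c)])

end Env

end Vale.Agent.P165
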