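import Mathlib
import Vale.Agent.P165.Valid
import Vale.Agent.P165.Entry
import Vale.Agent.P165.Win
import Vale.Agent.P165.Loop
import Vale.Agent.P165.Alg
import Vale.Agent.P165.Sched

/-!
Arithmetic helpers and norm bounds for one piece.
-/

open scoped ENNReal

namespace Vale.Agent.P165

variable {V : Type*} [DecidableEq V] {G : SimpleGraph V} [G.LocallyFinite]

namespace Env

variable (E : Env G)

/-- norm bounds for the exit kernel in terms of `μ` -/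
theorem phi_mu [Nonempty V] {k : ℕ} {π : List V → ℝ≥0∞} (hπ : E.IsPat k π) {T φ Φ : Ker V}
    {φ₀ w g Cw κ μ Λ : ℝ≥0∞} (hφ : E.IsWin φ φ₀) (hT : KInv G T) (hw0 : w ≠ 0) (hw1 : w ≠ ⊤)
    (hg : ∀ y, ∑' u, φ y u ^ 2 * T y u ≤ g)
    (ha : E.nw 6 T * max w w⁻¹ ≤ Cw * g)
    (hb : ∀ y, ∑' u, φ y u ^ 2 * T y u * E.τ y u ≤ Cw * w * g)
    (hc : ∀ y, ∑' u, φ y u ^ 2 * T y u * E.τ u y ≤ Cw * w⁻¹ * g)
    (hΦ : Φ = κ • kmul (fun y u => φ y u ^ 2 * T y u) (PiK π))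
    (hμ0 : μ ≠ 0) (hμ1 : μ ≠ ⊤) (hΛ : κ * g ≤ Λ * μ) :
    KInv G Φ ∧ E.nw 2 Φ ≤ κ * (E.nw 6 T * (E.ρ ^ k * E.CH)) ∧
      E.nw 2 (μ⁻¹ • Φ) ≤ Λ * Cw * E.CH * E.ρ ^ k ∧
      (∀ y, ∑' f, (μ⁻¹ • Φ) y f ≤ Λ * E.CH ^ 2) ∧
      E.Np (μ⁻¹ • Φ) * E.Nm Φ ≤
        (E.reps.card * (Cw + 1) * E.CH ^ 2 * E.r * Λ) ^ 2 * (E.r ^ 2) ^ k * μ ∧
      ∀ y y', μ⁻¹ * ((∑' f, Φ y f) * ∑' f, Φ y' f) ≤
        (E.reps.card * (Cw + 1) * E.CH ^ 2 * E.r * Λ) ^ 2 * (E.r ^ 2) ^ k * μ := by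
  obtain ⟨h1, h2, h3, h4, h5⟩ := E.phi_bounds hπ hφ hT hg hb hc hΦ
  have hR : (1 : ℝ≥0∞) ≤ E.reps.card := E.one_le_card_reps (Classical.arbitrary V)
  have hCH := E.one_le_CH
  have hr := E.one_le_r
  have hρk : E.ρ ^ k ≤ 1 := pow_le_one₀ zero_le E.ρ_lt.le
  have hmax : 1 ≤ max w w⁻¹ := by
    rcases le_total 1 w with h | h
    · exact h.trans (le_max_left _ _)
    · exact (ENNReal.one_le_inv.2 h).trans (le_max_right _ _)
  have hT1 : E.nw 6 T ≤ Cw * g := le_trans (le_mul_of_one_le_right' hmax) ha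
  have hTw : E.nw 6 T ≤ Cw * w * g := by
    calc E.nw 6 T = E.nw 6 T * w⁻¹ * w := by
          rw [mul_assoc, ENNReal.inv_mul_cancel hw0 hw1, mul_one]
      _ ≤ E.nw 6 T * max w w⁻¹ * w := by gcongr; exact le_max_right _ _
      _ ≤ Cw * g * w := by gcongr
      _ = Cw * w * g := by ring
  have hTw' : E.nw 6 T ≤ Cw * w⁻¹ * g := by
    calc E.nw 6 T = E.nw 6 T * w * w⁻¹ := by
          rw [mul_assoc, ENNReal.mul_inv_cancel hw0 hw1, mul_one]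
      _ ≤ E.nw 6 T * max w w⁻¹ * w⁻¹ := by gcongr; exact le_max_left _ _
      _ ≤ Cw * g * w⁻¹ := by gcongr
      _ = Cw * w⁻¹ * g := by ring
  have hrk : 1 ≤ E.r ^ (k + 1) := one_le_pow₀ hr
  have hCH2 : E.ρ ^ k * E.CH ≤ E.r ^ (k + 1) * E.CH ^ 2 :=
    mul_le_mul' (hρk.trans hrk) (by rw [sq]; exact le_mul_of_one_le_right' hCH)
  have hnrm : ∀ t, E.nw 6 T ≤ t →
      nrm Φ ≤ E.reps.card * (κ * (t * (E.r ^ (k + 1) * E.CH ^ 2))) := by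
    intro t ht
    refine (E.nrm_le_nw 2 Φ).trans (h2.trans (le_trans ?_ (le_mul_of_one_le_left' hR)))
    gcongr
  have hNp : E.Np Φ ≤ E.reps.card * (κ * (Cw * w * g * (E.r ^ (k + 1) * E.CH ^ 2))) :=
    max_le (hnrm _ hTw) h4
  have hNm : E.Nm Φ ≤ E.reps.card * (κ * (Cw * w⁻¹ * g * (E.r ^ (k + 1) * E.CH ^ 2))) :=
    max_le (hnrm _ hTw') h5
  refine ⟨h1, h2, ?_, fun y => ?_, ?_, fun y y' => ?_⟩
  · rw [E.nw_smul]
    refine inv_mul_le_of_le_mul hμ0 hμ1 (h2.trans ?_)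
    calc κ * (E.nw 6 T * (E.ρ ^ k * E.CH)) ≤ κ * (Cw * g * (E.ρ ^ k * E.CH)) := by gcongr
      _ = κ * g * (Cw * E.CH * E.ρ ^ k) := by ring
      _ ≤ Λ * μ * (Cw * E.CH * E.ρ ^ k) := by gcongr
      _ = _ := by ring
  · simp only [Pi.smul_apply, smul_eq_mul]
    rw [ENNReal.tsum_mul_left]
    refine inv_mul_le_of_le_mul hμ0 hμ1 ((h3 y).trans ?_)
    calc κ * (g * E.CH ^ 2) = κ * g * E.CH ^ 2 := by ring
      _ ≤ Λ * μ * E.CH ^ 2 := by gcongr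
      _ = _ := by ring
  · rw [E.Np_smul, mul_assoc]
    refine inv_mul_le_of_le_mul hμ0 hμ1 ((mul_le_mul' hNp hNm).trans ?_)
    calc (E.reps.card * (κ * (Cw * w * g * (E.r ^ (k + 1) * E.CH ^ 2)))) *
          (E.reps.card * (κ * (Cw * w⁻¹ * g * (E.r ^ (k + 1) * E.CH ^ 2))))
        = (w * w⁻¹) * ((E.reps.card * Cw * E.CH ^ 2 * E.r) ^ 2 * (E.r ^ 2) ^ k * (κ * g) ^ 2) := by
          ring
      _ = (E.reps.card * Cw * E.CH ^ 2 * E.r) ^ 2 * (E.r ^ 2) ^ k * (κ * g) ^ 2 := by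
          rw [ENNReal.mul_inv_cancel hw0 hw1, one_mul]
      _ ≤ (E.reps.card * (Cw + 1) * E.CH ^ 2 * E.r) ^ 2 * (E.r ^ 2) ^ k * (Λ * μ) ^ 2 := by
          gcongr
          exact le_self_add
      _ = _ := by ring
  · refine inv_mul_le_of_le_mul hμ0 hμ1 ((mul_le_mul' (h3 y) (h3 y')).trans ?_)
    have h6 : 1 ≤ (E.r ^ 2) ^ k := one_le_pow₀ (one_le_pow₀ hr)
    have h7 : E.CH ^ 2 ≤ E.reps.card * (Cw + 1) * E.CH ^ 2 * E.r := by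
      calc E.CH ^ 2 = 1 * 1 * E.CH ^ 2 * 1 := by ring
        _ ≤ _ := by
          gcongr
          exact le_add_self
    calc κ * (g * E.CH ^ 2) * (κ * (g * E.CH ^ 2)) = (E.CH ^ 2) ^ 2 * 1 * (κ * g) ^ 2 := by ring
      _ ≤ (E.reps.card * (Cw + 1) * E.CH ^ 2 * E.r) ^ 2 * (E.r ^ 2) ^ k * (Λ * μ) ^ 2 := by gcongr
      _ = _ := by ring

/-- bounds for the kernel `Hs` -/
theorem hs_bounds {T : Ker V} {c₂ t M CL C' A δ₁ : ℝ≥0∞} {j j' : ℕ} (hM : E.nw 6 T ≤ M)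
    (hM1 : 1 ≤ M) (ht : t * M ≤ A) (hL : E.Tr (fun a b => T a b * E.w1 a b ^ 4) CL)
    (hj : E.Np (kpow E.P j) ≤ δ₁)
    (hC' : ∀ (T : Ker V) (t : ℝ≥0∞), E.Tr T t →
      E.Tr (kmul T E.H) (t * C' + nrm T * (E.ρ ^ j' * E.CH))) :
    E.nw 2 (c₂⁻¹ • kmul (kpow E.P j) (fun a b => T a b * E.w1 a b ^ 4) + t • kmul T E.H) ≤
        (c₂⁻¹ + A * E.CH) * M ∧
      E.Tr (c₂⁻¹ • kmul (kpow E.P j) (fun a b => T a b * E.w1 a b ^ 4) + t • kmul T E.H)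
        (c₂⁻¹ * (δ₁ * CL) + (t * (CL * C') + A * E.CH * E.ρ ^ j')) := by
  have hT : T ≤ fun a b => T a b * E.w1 a b ^ 4 := fun a b =>
    le_mul_of_one_le_right' (one_le_pow₀ (E.one_le_w1 a b))
  constructor
  · refine (E.nw_add_le 2 _ _).trans ?_
    rw [E.nw_smul, E.nw_smul, add_mul]
    refine add_le_add (mul_le_mul_right ?_ _) ?_
    · refine (E.nw_kmul_le 2 _ _).trans ?_
      rw [E.nw_mul_w1]
      have h1 : E.nw 2 (kpow E.P j) ≤ 1 :=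
        (E.nw_mono_exp (by norm_num) _).trans ((E.nw_kpow_P j).trans
          (pow_le_one₀ zero_le E.ρ_lt.le))
      calc _ ≤ 1 * M := mul_le_mul' h1 hM
        _ = M := one_mul M
    · have h2 : E.nw 2 (kmul T E.H) ≤ M * E.CH :=
        (E.nw_kmul_le 2 _ _).trans (mul_le_mul' ((E.nw_mono_exp (by norm_num) _).trans hM)
          ((E.nw_mono_exp (by norm_num) _).trans E.nw_H))
      calc t * E.nw 2 (kmul T E.H) ≤ t * (M * E.CH) := mul_le_mul_right h2 _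
        _ = t * M * E.CH * 1 := by ring
        _ ≤ A * E.CH * M := by gcongr
  · refine E.tr_add (E.tr_smul _ (E.tr_mono (E.tr_left (E.P_inv.kpow j) hL) le_rfl
      (mul_le_mul_left hj _))) (E.tr_mono (E.tr_smul t (hC' T CL (E.tr_mono hL hT le_rfl))) le_rfl ?_)
    rw [mul_add]
    refine add_le_add le_rfl ?_
    have h3 : nrm T ≤ M := (E.nrm_le_nw 6 T).trans hM
    calc t * (nrm T * (E.ρ ^ j' * E.CH)) ≤ t * (M * (E.ρ ^ j' * E.CH)) := by gcongr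
      _ = t * M * E.CH * E.ρ ^ j' := by ring
      _ ≤ _ := by gcongr

end Env

end Vale.Agent.P165
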