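import Mathlib
import Vale.Agent.P165.PFA

/-!
The family of pieces, and the abstract system.
-/

open scoped ENNReal

namespace Vale.Agent.P165

variable {V : Type*} [DecidableEq V] {G : SimpleGraph V} [G.LocallyFinite]

namespace Env

variable (E : Env G)

theorem sys [Nonempty V] :
    Sys (Good G) E.Dec (fun x t => E.Tr x.1 t) (fun x t => ∀ y z, x.2 y z ≤ t)
      (fun p x m => CC (Psi G p) E.hit x m) capThin ((0, 0) : Ker V × Ker V) where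
  dec_mono := fun x v w h h1 h2 h3 h4 h5 => E.dec_mono x v w h h1 h2 h3 h4 h5
  tr_mono := fun _ _ _ h ht => E.tr_mono h le_rfl ht
  sup_mono := fun _ _ _ h ht y z => (h y z).trans ht
  fresh := fun x η h h' => E.dec_fresh x η h h'
  ct_sup := fun _ _ _ _ => mul_le_of_le_one_right' (min_le_left _ _)
  ct_tr := fun _ _ _ h => h
  ct_dec := fun t x v h => E.dec_capThin t x v h
  ct_C := fun _ _ _ _ hp ht h => CC_capThin (fun A _ _ hL => Psi_mono hp.1 A hL) ht h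
  tr₀ := E.tr_zero
  sup₀ := fun _ _ => le_rfl
  C₀ := fun _ hp => CC_start (card_le_Psi hp.1) fun _ _ hy => (E.hit_of_mem hy).ge
  bound := fun _ hp => ⟨_, hp.2 (Classical.arbitrary V), fun _ _ h =>
    (CC_bound h _ (E.hit_empty _)).trans (Psi_single_le hp.1 _)⟩

set_option maxHeartbeats 400000 in
/-- one piece, with all constants exposed -/
theorem piece [Nonempty V] {q₀ q c₀ c₁ Cp Cw CL ε₀ ε ce ε₂ η δ₁ lam Λ A C' δ γ₀ K M : ℝ≥0∞}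
    {j j' k : ℕ} (h0 : q₀ ≠ 0) (hg : Good G q) (hq₀ : q₀ ≤ q) (hc₁0 : c₁ ≠ 0)
    (hc₁ : c₁ ≤ min q (1 - q) ^ E.D) (hc₀1 : c₀ ≤ c₁) (hc₀0 : c₀ ≠ 0)
    (hc₀2 : c₀ * (2 * ((E.D : ℝ≥0∞) + 1)) ≤ 1)
    (hCp : ∀ k, ∑ i ∈ Finset.range (k + 1), E.Np (kmul (kmul (kpow E.P i) E.H) E.P) ≤ Cp)
    (hCw : ∀ T : Ker V, KInv G T → (∀ x y, T x y = T y x) →
      (∃ χ : ℝ≥0∞, χ ≠ ⊤ ∧ ∀ y, ∑' u, T y u ≤ χ) →
      ∃ (w φ₀ : ℝ≥0∞) (φ : Ker V), w ≠ 0 ∧ w ≠ ⊤ ∧ E.IsWin φ φ₀ ∧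
        E.nw 6 T * max w w⁻¹ ≤ Cw * (⨆ y, ∑' u, φ y u ^ 2 * T y u) ∧
        (∀ y, ∑' u, φ y u ^ 2 * T y u * E.τ y u ≤ Cw * w * ⨆ y, ∑' u, φ y u ^ 2 * T y u) ∧
        (∀ y, ∑' u, φ y u ^ 2 * T y u * E.τ u y ≤ Cw * w⁻¹ * ⨆ y, ∑' u, φ y u ^ 2 * T y u))
    (hCL : E.Tr (fun a b => TT G q a b * E.w1 a b ^ 4) CL)
    (hε₀1 : ε₀ ≤ 1) (hε₀ : 32 * Cp * ε₀ ≤ q₀ * (1 - E.ρ))
    (hε1 : ε ≤ 1) (hε : 32 * E.CH * ε ≤ q₀ * (1 - E.ρ))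
    (hce0 : ce ≠ 0) (hce1 : ce ≤ 1) (hce : 2 * E.r ^ 4 * ce ≤ q₀)
    (hε₂0 : ε₂ ≠ 0) (hε₂1 : ε₂ ≤ 1)
    (hε₂ : 32 * ((E.D : ℝ≥0∞) + 1) * E.CH ^ 2 * ε₂ ≤ c₁ ^ 2 * (1 - E.ρ))
    (hδ₁ : 4 * ((ce ^ E.D0 / 2)⁻¹ * CL) * δ₁ ≤ η) (hj : E.Np (kpow E.P j) ≤ δ₁)
    (hlam : lam = (1 - E.ρ) / 4 * (ce ^ j * (ce ^ E.D0 / 2))) (hΛ : Λ = (q₀ * lam)⁻¹)
    (hA : A = Λ * Cw) (hj' : 4 * (A * E.CH) * E.ρ ^ j' ≤ η)
    (hC' : ∀ (T : Ker V) (t : ℝ≥0∞), E.Tr T t →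
      E.Tr (kmul T E.H) (t * C' + nrm T * (E.ρ ^ j' * E.CH)))
    (hδ1 : δ ≤ 1) (hδ : 4 * δ ≤ η)
    (hγ₀ : ∀ K : Ker V, KInv G K → (∀ y, ∑' f, K y f ≤ Λ * E.CH ^ 2) → nrm K ≤ γ₀ → E.Np K ≤ δ)
    (hk1 : 1 ≤ k) (hk : Λ * Cw * E.CH * E.ρ ^ k ≤ min 1 γ₀)
    (hK1 : 2 * E.CH ≤ K) (hK2 : q₀⁻¹ * E.CH ≤ K) (hK3 : 2 * Cw ≤ K * (ε₂ * c₁ ^ 2 * lam))
    (hK4 : (E.reps.card * (Cw + 1) * E.CH ^ 2 * E.r * Λ) ^ 2 ≤ K)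
    (hK5 : 2 * E.CH + ((ce ^ E.D0 / 2)⁻¹ + A * E.CH) + 1 ≤ K) (hK6 : Λ * Cw * E.CH ≤ K)
    (hM : M = E.nw 6 (TT G q)) (hM1 : 1 ≤ M) (hM2 : 4 * (A * (CL * C')) ≤ M * η)
    (hMk : M * (c₀ * c₁ * E.ρ) ^ k * K ≤ 1) :
    ∃ (op : Ker V × Ker V → Ker V × Ker V) (μ ηp B' ϑ : ℝ≥0∞), ηp ≠ 0 ∧
      M * (c₀ * c₁) ^ k ≤ K * μ ∧ μ ≠ ⊤ ∧ B' ≠ ⊤ ∧ ϑ ≤ K * (E.r ^ 2) ^ k * μ ∧
      (∀ x v, E.Dec x v → E.Dec (op x) (Lam (K * M ^ 2) B' (K * E.ρ ^ k) ϑ v)) ∧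
      (∀ x : Ker V × Ker V, E.Tr x.1 ε₀ → E.Tr (op x).1 η) ∧
      ∀ p (x : Ker V × Ker V) (v : Prof) m, Good G p → q ≤ p → m ≠ ⊤ → E.Tr x.1 ε₀ → E.Dec x v →
        E.ρ ^ k * v.a ≤ ε → E.ρ ^ k * v.a' ≤ ε → v.b ≤ ηp → v.b' ≤ ηp → v.s ≤ ηp →
        CC (Psi G p) E.hit x m → CC (Psi G p) E.hit (op x) (μ * m) := by
  have hq1 : q ≤ 1 := hg.1
  have hq0 : q ≠ 0 := (lt_of_lt_of_le (pos_iff_ne_zero.2 h0) hq₀).ne'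
  have hq₀1 : q₀ ≤ 1 := hq₀.trans hq1
  have hκ0 : 1 - E.ρ ≠ 0 := (tsub_pos_of_lt E.ρ_lt).ne'
  have hκ1 : 1 - E.ρ ≤ 1 := tsub_le_self
  have hCH := E.one_le_CH
  have hc₁1 : c₁ ≤ 1 := hc₁.trans (pow_le_one₀ zero_le ((min_le_left _ _).trans hq1))
  have hc₀le : c₀ ≤ 1 := hc₀1.trans hc₁1
  have hD1 : (1 : ℝ≥0∞) ≤ (E.D : ℝ≥0∞) + 1 := le_add_self
  have hMt : M ≠ ⊤ := hM ▸ E.nw_TT_ne_top hg
  have hM0 : M ≠ 0 := (lt_of_lt_of_le zero_lt_one hM1).ne'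
  obtain ⟨π, hπ⟩ := E.exists_pat hk1
  -- the marks
  obtain ⟨s, hs⟩ : ∃ x : ℝ≥0∞, x = ε₂ * c₀ ^ k := ⟨_, rfl⟩
  have hc₀k : c₀ ^ k ≤ 1 := pow_le_one₀ zero_le hc₀le
  have hsε : s ≤ ε₂ := hs ▸ mul_le_of_le_one_right' hc₀k
  have hb : 32 * ε₂ * E.CH ^ 2 ≤ c₁ ^ 2 * (1 - E.ρ) := by
    refine le_trans ?_ hε₂
    calc 32 * ε₂ * E.CH ^ 2 = 32 * 1 * E.CH ^ 2 * ε₂ := by ring
      _ ≤ _ := by gcongr
  have hc₁2 : c₁ ^ 2 ≤ 1 := pow_le_one₀ zero_le hc₁1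
  have h2 : 32 * s * E.CH ^ 2 ≤ 1 - E.ρ := by
    calc 32 * s * E.CH ^ 2 ≤ 32 * ε₂ * E.CH ^ 2 := by gcongr
      _ ≤ c₁ ^ 2 * (1 - E.ρ) := hb
      _ ≤ 1 - E.ρ := mul_le_of_le_one_left' hc₁2
  have hs1 : s * E.CH ^ 2 ≤ 1 := by
    refine le_trans ?_ (h2.trans hκ1)
    calc s * E.CH ^ 2 = 1 * s * E.CH ^ 2 := by ring
      _ ≤ 32 * s * E.CH ^ 2 := by gcongr; norm_num
  obtain ⟨ε₁, hε₁⟩ : ∃ x : ℝ≥0∞, x = 2 * ((E.D : ℝ≥0∞) + 1) * E.CH ^ 2 * ε₂ := ⟨_, rfl⟩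
  have h1 : 16 * ε₁ ≤ 1 - E.ρ := by
    calc 16 * ε₁ = 32 * ((E.D : ℝ≥0∞) + 1) * E.CH ^ 2 * ε₂ := by rw [hε₁]; ring
      _ ≤ c₁ ^ 2 * (1 - E.ρ) := hε₂
      _ ≤ 1 - E.ρ := mul_le_of_le_one_left' hc₁2
  have hsp : ((k : ℝ≥0∞) + 2) * (s * (((E.D : ℝ≥0∞) + 1) ^ (k + 1) * E.CH ^ 2)) ≤ ε₁ := by
    have h3 : (c₀ * (2 * ((E.D : ℝ≥0∞) + 1))) ^ k ≤ 1 := pow_le_one₀ zero_le hc₀2
    calc ((k : ℝ≥0∞) + 2) * (s * (((E.D : ℝ≥0∞) + 1) ^ (k + 1) * E.CH ^ 2))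
        ≤ (2 * 2 ^ k) * (s * (((E.D : ℝ≥0∞) + 1) ^ (k + 1) * E.CH ^ 2)) :=
          mul_le_mul_left (cast_add_two_le k) _
      _ = ε₁ * (c₀ * (2 * ((E.D : ℝ≥0∞) + 1))) ^ k := by
          rw [hε₁, hs, mul_pow, mul_pow]; ring
      _ ≤ ε₁ := mul_le_of_le_one_right' h3
  obtain ⟨a, hMk'⟩ := E.exists_mark hπ hq1 hc₁0 hc₁ hs1 hsp
  obtain ⟨cst, hcst⟩ : ∃ x : ℝ≥0∞, x = s * c₁ ^ (k + 2) := ⟨_, rfl⟩
  rw [← hcst] at hMk'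
  have hcst' : cst = ε₂ * c₁ ^ 2 * (c₀ * c₁) ^ k := by rw [hcst, hs, mul_pow]; ring
  have hcst0 : cst ≠ 0 := by
    rw [hcst']
    exact mul_ne_zero (mul_ne_zero hε₂0 (pow_ne_zero _ hc₁0))
      (pow_ne_zero _ (mul_ne_zero hc₀0 hc₁0))
  have hcstc : cst ≤ (c₀ * c₁) ^ k := by
    rw [hcst']
    exact mul_le_of_le_one_left' (mul_le_one' hε₂1 hc₁2)
  have hcst1 : cst ≤ 1 := hcstc.trans (pow_le_one₀ zero_le (mul_le_one' hc₀le hc₁1))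
  have hcstt : cst ≠ ⊤ := ne_top_of_le_ne_top ENNReal.one_ne_top hcst1
  have hMρ : ∀ t, t ≤ K → t * cst * E.ρ ^ k * M ≤ 1 := by
    intro t ht
    refine le_trans ?_ hMk
    calc t * cst * E.ρ ^ k * M ≤ K * (c₀ * c₁) ^ k * E.ρ ^ k * M := by gcongr
      _ = _ := by rw [mul_pow (c₀ * c₁)]; ring
  have hU : M ≤ 2 * E.nw 6 (T0 G q a) := by
    rw [hM]
    refine E.nw_TT_le hπ hMk' hq1 ?_
    rw [← hM]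
    refine le_trans (le_of_eq ?_) (hMρ _ hK1)
    ring
  -- the window
  obtain ⟨χ, hχ, hχ'⟩ := E.good_bound hg
  have hT0 : T0 G q a ≤ TT G q := T0_le_TT hMk'.le_one
  obtain ⟨w, φ₀, φ, hw0, hw1, hφ, hwa, hwb, hwc⟩ := hCw (T0 G q a) (T0_inv hMk'.inv) T0_symm
    ⟨χ, hχ, fun y => (ENNReal.tsum_le_tsum fun u => hT0 y u).trans (hχ' y)⟩
  obtain ⟨g, hgdef⟩ : ∃ x : ℝ≥0∞, x = ⨆ y, ∑' u, φ y u ^ 2 * T0 G q a y u := ⟨_, rfl⟩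
  rw [← hgdef] at hwa hwb hwc
  have hgy : ∀ y, ∑' u, φ y u ^ 2 * T0 G q a y u ≤ g := fun y => by
    rw [hgdef]
    exact le_iSup (fun y => ∑' u, φ y u ^ 2 * T0 G q a y u) y
  have hgt : g ≠ ⊤ := by
    rw [hgdef]
    refine ne_top_of_le_ne_top hχ (iSup_le fun y => le_trans (ENNReal.tsum_le_tsum fun u => ?_)
      (hχ' y))
    exact (mul_le_of_le_one_left' (pow_le_one₀ zero_le (hφ.le_one y u))).trans (hT0 y u)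
  have hmax : 1 ≤ max w w⁻¹ := by
    rcases le_total 1 w with h | h
    · exact h.trans (le_max_left _ _)
    · exact (ENNReal.one_le_inv.2 h).trans (le_max_right _ _)
  have hMg : M ≤ 2 * (Cw * g) :=
    hU.trans (mul_le_mul_right (le_trans (le_mul_of_one_le_right' hmax) hwa) _)
  have hg0 : g ≠ 0 := by
    rintro h
    rw [h, mul_zero, mul_zero] at hMg
    exact hM0 (le_zero_iff.1 hMg)
  -- the entry inequality and the radius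
  have hsparse : ∀ v, 2 * ∑' η : List V, ind (v ∈ η) * a η ≤ 1 := by
    intro v
    calc 2 * ∑' η : List V, ind (v ∈ η) * a η
        ≤ ((k : ℝ≥0∞) + 2) * ∑' η : List V, ind (v ∈ η) * a η := mul_le_mul_left le_add_self _
      _ ≤ ε₁ := hMk'.sparse v
      _ ≤ 16 * ε₁ := le_mul_of_one_le_left' (by norm_num)
      _ ≤ 1 := h1.trans hκ1
  obtain ⟨L₁, hen⟩ := E.entry_ineq (ce := ce) hφ hq1 hMk'.le_one hMk'.inv hsparse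
    (by rw [mul_comm]; exact hce.trans hq₀) hgdef hgt
  obtain ⟨δt, hδt0, -, hδt⟩ := exists_small (a := 16) (b := (1 - E.ρ) * φ₀ ^ 2) (by norm_num)
    (mul_ne_zero hκ0 (pow_ne_zero _ hφ.pos))
  obtain ⟨L₀, hL₀⟩ := E.tail_small hg hδt0
  obtain ⟨L, hL⟩ : ∃ x : ℕ, x = j + L₁ + (L₀ + k + 1) := ⟨_, rfl⟩
  obtain ⟨c₂, hc₂⟩ : ∃ x : ℝ≥0∞, x = ce ^ E.D0 / 2 := ⟨_, rfl⟩
  have hc₂0 : c₂ ≠ 0 := hc₂ ▸ (ENNReal.div_pos (pow_ne_zero _ hce0) (by norm_num)).ne'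
  rw [← hc₂] at hen hδ₁ hlam hK5
  have hc₂t : c₂ ≠ ⊤ := hc₂ ▸ ENNReal.div_ne_top
    (ne_top_of_le_ne_top ENNReal.one_ne_top (pow_le_one₀ zero_le hce1)) (by norm_num)
  have hcet : ce ^ j ≠ ⊤ := ne_top_of_le_ne_top ENNReal.one_ne_top (pow_le_one₀ zero_le hce1)
  have hlam0 : lam ≠ 0 := by
    rw [hlam]
    exact mul_ne_zero (ENNReal.div_pos hκ0 (by norm_num)).ne'
      (mul_ne_zero (pow_ne_zero _ hce0) hc₂0)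
  have hlamt : lam ≠ ⊤ := by
    rw [hlam]
    exact ENNReal.mul_ne_top (ENNReal.div_ne_top
      (ne_top_of_le_ne_top ENNReal.one_ne_top hκ1) (by norm_num)) (ENNReal.mul_ne_top hcet hc₂t)
  obtain ⟨μ, hμ⟩ : ∃ x : ℝ≥0∞, x = cst * lam * g := ⟨_, rfl⟩
  have hμ' : μ = cst / 4 * (1 - E.ρ) * (ce ^ j * (c₂ * g)) := by
    rw [hμ, hlam, div_eq_mul_inv, div_eq_mul_inv]; ring
  have hμ0 : μ ≠ 0 := hμ ▸ mul_ne_zero (mul_ne_zero hcst0 hlam0) hg0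
  have hμt : μ ≠ ⊤ := hμ ▸ ENNReal.mul_ne_top (ENNReal.mul_ne_top hcstt hlamt) hgt
  have hΛ1 : Λ * (q₀ * lam) = 1 := by
    rw [hΛ]
    exact ENNReal.inv_mul_cancel (mul_ne_zero h0 hlam0)
      (ENNReal.mul_ne_top (ne_top_of_le_ne_top ENNReal.one_ne_top hq₀1) hlamt)
  have hΛg : cst * g ≤ q₀ * (Λ * μ) := by
    calc cst * g = Λ * (q₀ * lam) * (cst * g) := by rw [hΛ1, one_mul]
      _ = q₀ * (Λ * μ) := by rw [hμ]; ring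
      _ ≤ _ := le_rfl
  have hκg : cst / q * g ≤ Λ * μ := by
    rw [div_eq_mul_inv, mul_comm cst, mul_assoc]
    refine inv_mul_le_of_le_mul hq0 (ne_top_of_le_ne_top ENNReal.one_ne_top hq1) (hΛg.trans ?_)
    rw [mul_comm]
    gcongr
  have htM : cst / (2 * μ) * M ≤ A := by
    rw [div_eq_mul_inv, mul_comm cst, mul_assoc]
    refine inv_mul_le_of_le_mul (mul_ne_zero (by norm_num) hμ0)
      (ENNReal.mul_ne_top (by norm_num) hμt) ?_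
    calc cst * M ≤ cst * (2 * (Cw * g)) := by gcongr
      _ = 2 * Cw * (cst * g) := by ring
      _ ≤ 2 * Cw * (1 * (Λ * μ)) :=
          mul_le_mul_right (hΛg.trans (mul_le_mul_left hq₀1 _)) _
      _ = A * (2 * μ) := by rw [hA]; ring
  -- the kernels
  obtain ⟨Φ, hΦ⟩ : ∃ x : Ker V,
      x = (cst / q) • kmul (fun y u => φ y u ^ 2 * T0 G q a y u) (PiK π) := ⟨_, rfl⟩
  obtain ⟨Tt, hTt⟩ : ∃ x : Ker V, x = fun y z => TT G q y z * ballK G L y z := ⟨_, rfl⟩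
  obtain ⟨Hs, hHs⟩ : ∃ x : Ker V,
    x = c₂⁻¹ • kmul (kpow E.P j) (fun a b => TT G q a b * E.w1 a b ^ 4) +
    (cst / (2 * μ)) • kmul (TT G q) E.H := ⟨_, rfl⟩
  obtain ⟨p1, p2, p3, p4, p5, p6⟩ := E.phi_mu hπ hφ (T0_inv hMk'.inv) hw0 hw1 hgy hwa hwb hwc hΦ
    hμ0 hμt hκg
  obtain ⟨s1, s2⟩ := E.hs_bounds (c₂ := c₂) hM.ge hM1 htM hCL hj hC'
  rw [← hHs] at s1 s2
  have hNp : E.Np (μ⁻¹ • Φ) ≤ δ := hγ₀ _ (p1.smul _) p4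
    ((E.nrm_le_nw 2 _).trans (p3.trans (hk.trans (min_le_right _ _))))
  have hTtinv : KInv G Tt := hTt ▸ (TT_inv q).mul (ballK_inv L)
  have hTt1 : Tt ≤ TT G q := by
    rw [hTt]
    exact fun y z => mul_le_of_le_one_right' (ind_le_one _)
  have hB' : E.Nm Tt ≠ ⊤ := by
    rw [hTt]
    exact E.Nm_ne_top_of_range (c := 1) ENNReal.one_ne_top L fun x y =>
      mul_le_mul_left (TT_le_one hq1 x y) _
  have hNb : E.Nm (ballK G (2 * L)) ≠ ⊤ :=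
    E.Nm_ne_top_of_range (c := 1) ENNReal.one_ne_top (2 * L) fun x y => (one_mul _).ge
  obtain ⟨ηp, hηp0, -, hηp⟩ := exists_small
    (a := 32 * ((((E.D : ℝ≥0∞) + 1) ^ L) ^ 2 * (2 * E.Nm (ballK G (2 * L)) + 1)))
    (b := cst * (1 - E.ρ) * φ₀ ^ 2)
    (ENNReal.mul_ne_top (by norm_num) (ENNReal.mul_ne_top
      (ENNReal.pow_ne_top (ENNReal.pow_ne_top (by simp)))
      (ENNReal.add_ne_top.2 ⟨ENNReal.mul_ne_top (by norm_num) hNb, by simp⟩)))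
    (mul_ne_zero (mul_ne_zero hcst0 hκ0) (pow_ne_zero _ hφ.pos))
  have hK0 : 1 ≤ K := le_trans le_add_self hK5
  refine ⟨stepOp E.H Hs Tt Φ μ, μ, ηp, E.Nm Tt,
    (E.reps.card * (Cw + 1) * E.CH ^ 2 * E.r * Λ) ^ 2 * (E.r ^ 2) ^ k * μ, hηp0, ?_, hμt, hB',
    by gcongr, fun x v hv => ?_, fun x hx => ?_, fun p x v m hp hqp hm hx hv ha ha' hb hb' hs' hC => ?_⟩
  · calc M * (c₀ * c₁) ^ k ≤ 2 * (Cw * g) * (c₀ * c₁) ^ k := by gcongr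
      _ = 2 * Cw * (g * (c₀ * c₁) ^ k) := by ring
      _ ≤ K * (ε₂ * c₁ ^ 2 * lam) * (g * (c₀ * c₁) ^ k) := by gcongr
      _ = K * μ := by rw [hμ, hcst']; ring
  · have hM2' : M ≤ M ^ 2 := by rw [sq]; exact le_mul_of_one_le_right' hM1
    have q2 : E.nw 2 Φ ≤ 1 := by
      refine p2.trans (le_trans ?_ (hMρ _ hK2))
      have : E.nw 6 (T0 G q a) ≤ M := (E.nw_mono 6 hT0).trans hM.ge
      calc cst / q * (E.nw 6 (T0 G q a) * (E.ρ ^ k * E.CH))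
          ≤ cst * q₀⁻¹ * (M * (E.ρ ^ k * E.CH)) := by
            rw [div_eq_mul_inv]
            gcongr
        _ = _ := by ring
    have q6 : E.nw 2 Tt ≤ M :=
      ((E.nw_mono 2 hTt1).trans (E.nw_mono_exp (by norm_num) _)).trans hM.ge
    have q7 : (2 * E.CH + (c₂⁻¹ + A * E.CH) * M) * M + 1 ≤ K * M ^ 2 := by
      calc (2 * E.CH + (c₂⁻¹ + A * E.CH) * M) * M + 1
          = 2 * E.CH * M + (c₂⁻¹ + A * E.CH) * M ^ 2 + 1 := by ring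
        _ ≤ 2 * E.CH * M ^ 2 + (c₂⁻¹ + A * E.CH) * M ^ 2 + M ^ 2 := by
            gcongr
            exact hM1.trans hM2'
        _ = (2 * E.CH + (c₂⁻¹ + A * E.CH) + 1) * M ^ 2 := by ring
        _ ≤ K * M ^ 2 := by gcongr
    have q8 : (c₂⁻¹ + A * E.CH) * M ≤ K * M ^ 2 :=
      mul_le_mul' (le_trans (le_trans le_add_self le_self_add) hK5) hM2'
    refine E.dec_mono _ _ _ (E.dec_step p1 hTtinv p3 q2 (hNp.trans hδ1) p5 p6 q6 le_rfl s1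
      (hk.trans (min_le_left _ _)) q8 q7 (hM2'.trans (le_mul_of_one_le_left' hK0)) x v hv)
      ?_ le_rfl ?_ le_rfl le_rfl
    · simp only [Lam]
      gcongr
    · simp only [Lam]
      gcongr
  · refine E.tr_mono (E.tr_step p1 s2 hNp x hx) le_rfl ?_
    have e1 : 4 * (c₂⁻¹ * (δ₁ * CL)) ≤ η := le_trans (le_of_eq (by ring)) hδ₁
    have e2 : 4 * (cst / (2 * μ) * (CL * C')) ≤ η := by
      refine (ENNReal.mul_le_mul_iff_right hM0 hMt).1 (le_trans ?_ hM2)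
      calc M * (4 * (cst / (2 * μ) * (CL * C'))) = 4 * (cst / (2 * μ) * M * (CL * C')) := by ring
        _ ≤ _ := by gcongr
    have e3 : 4 * (A * E.CH * E.ρ ^ j') ≤ η := le_trans (le_of_eq (by ring)) hj'
    have e4 : 4 * (δ * ε₀) ≤ η := le_trans (mul_le_mul_right (mul_le_of_le_one_right' hε₀1) _) hδ
    refine (ENNReal.mul_le_mul_iff_right (a := 4) (by norm_num) (by norm_num)).1 ?_
    calc 4 * (c₂⁻¹ * (δ₁ * CL) + (cst / (2 * μ) * (CL * C') + A * E.CH * E.ρ ^ j') + δ * ε₀)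
        = 4 * (c₂⁻¹ * (δ₁ * CL)) + 4 * (cst / (2 * μ) * (CL * C')) + 4 * (A * E.CH * E.ρ ^ j') +
          4 * (δ * ε₀) := by ring
      _ ≤ η + η + η + η := by gcongr
      _ = 4 * η := by ring
  · refine CC_step hμ0 hμt hm (fun A S y => (E.hit_union_le A S y).trans
      (add_le_add le_rfl (E.hit_le_H S y))) (fun A y => ?_) hC
    rw [hΦ, hTt, hHs]
    refine E.piece_valid (L₀ := L₀) (Cp := Cp) hπ hMk' hφ hq0 hqp hp.1 h1 h2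
      (fun y => (mul_le_mul_right (hL₀ y) _).trans hδt) (by omega)
      (fun A y => hen j L A y (by omega)) hμ' hμ0 hμt hc₂t (hCp k) ?_ ?_ ?_ ?_ hx hv ha ha' hb hb'
      hs' A y
    · refine le_trans (le_of_eq (by ring)) (hε.trans ?_)
      gcongr
    · refine le_trans (le_of_eq (by ring)) (hε₀.trans ?_)
      gcongr
    · calc 32 * (s ^ 2 * E.CH ^ 2 * ε) = s * c₀ ^ k * (32 * ε₂ * E.CH ^ 2) * ε := by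
            rw [hs]; ring
        _ ≤ s * c₁ ^ k * (c₁ ^ 2 * (1 - E.ρ)) * 1 := by gcongr
        _ = cst * (1 - E.ρ) := by rw [hcst]; ring
    · exact le_trans (le_of_eq (by ring)) hηp

theorem piece_family [Nonempty V] {q₀ q₁ c₁ : ℝ≥0∞} (h0 : q₀ ≠ 0) (hg₀ : Good G q₀)
    (h1 : q₁ < 1) (hle : ∀ q, Good G q → q ≤ q₁) (hc₁ : c₁ = min q₀ (1 - q₁) ^ E.D)
    (hunb : ∀ M₀ : ℝ≥0∞, M₀ ≠ ⊤ → ∃ q, Good G q ∧ M₀ < E.nw 6 (TT G q)) :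
    ∃ ε₀ ε : ℝ≥0∞, ε₀ ≠ 0 ∧ ε ≠ 0 ∧
      PieceFamily (Good G) E.Dec (fun x t => E.Tr x.1 t) (fun p x m => CC (Psi G p) E.hit x m)
        (min c₁ (2 * ((E.D : ℝ≥0∞) + 1))⁻¹ * c₁) E.ρ (E.r ^ 2) ε₀ ε := by
  have hκ0 : 1 - E.ρ ≠ 0 := (tsub_pos_of_lt E.ρ_lt).ne'
  have hκt : 1 - E.ρ ≠ ⊤ := ne_top_of_le_ne_top ENNReal.one_ne_top tsub_le_self
  have hCH := E.CH_ne_top
  have hq₀t : q₀ ≠ ⊤ := ne_top_of_le_ne_top ENNReal.one_ne_top hg₀.1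
  have hm0 : min q₀ (1 - q₁) ≠ 0 :=
    (lt_min (pos_iff_ne_zero.2 h0) (tsub_pos_of_lt h1)).ne'
  have hc₁0 : c₁ ≠ 0 := hc₁ ▸ pow_ne_zero _ hm0
  have hDt : 2 * ((E.D : ℝ≥0∞) + 1) ≠ ⊤ := ENNReal.mul_ne_top (by norm_num) (by simp)
  have hD0 : 2 * ((E.D : ℝ≥0∞) + 1) ≠ 0 := by simp
  set c₀ : ℝ≥0∞ := min c₁ (2 * ((E.D : ℝ≥0∞) + 1))⁻¹ with hc₀
  have hc₀0 : c₀ ≠ 0 := (lt_min (pos_iff_ne_zero.2 hc₁0) (ENNReal.inv_pos.2 hDt)).ne'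
  have hc₀2 : c₀ * (2 * ((E.D : ℝ≥0∞) + 1)) ≤ 1 :=
    (mul_le_mul_left (min_le_right _ _) _).trans (ENNReal.inv_mul_cancel hD0 hDt).le
  obtain ⟨Cp, hCpt, hCp⟩ := E.np_sum
  obtain ⟨Cw, hCwt, hCw⟩ := E.exists_win
  obtain ⟨CL, hCLt, hCL⟩ := E.exists_loop h0
  obtain ⟨ε₀, hε₀0, hε₀1, hε₀⟩ := exists_small (a := 32 * Cp) (b := q₀ * (1 - E.ρ))
    (ENNReal.mul_ne_top (by norm_num) hCpt) (mul_ne_zero h0 hκ0)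
  obtain ⟨ε, hε0, hε1, hε⟩ := exists_small (a := 32 * E.CH) (b := q₀ * (1 - E.ρ))
    (ENNReal.mul_ne_top (by norm_num) hCH) (mul_ne_zero h0 hκ0)
  obtain ⟨ce, hce0, hce1, hce⟩ := exists_small (a := 2 * E.r ^ 4) (b := q₀)
    (ENNReal.mul_ne_top (by norm_num) (ENNReal.pow_ne_top E.r_ne_top)) h0
  obtain ⟨ε₂, hε₂0, hε₂1, hε₂⟩ := exists_small (a := 32 * ((E.D : ℝ≥0∞) + 1) * E.CH ^ 2)
    (b := c₁ ^ 2 * (1 - E.ρ))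
    (ENNReal.mul_ne_top (ENNReal.mul_ne_top (by norm_num) (by simp)) (ENNReal.pow_ne_top hCH))
    (mul_ne_zero (pow_ne_zero _ hc₁0) hκ0)
  refine ⟨ε₀, ε, hε₀0, hε0, fun η hη => ?_⟩
  have hc₂0 : ce ^ E.D0 / 2 ≠ 0 := (ENNReal.div_pos (pow_ne_zero _ hce0) (by norm_num)).ne'
  have hc₂i : (ce ^ E.D0 / 2)⁻¹ ≠ ⊤ := ENNReal.inv_ne_top.2 hc₂0
  obtain ⟨δ₁, hδ₁0, -, hδ₁⟩ := exists_small (a := 4 * ((ce ^ E.D0 / 2)⁻¹ * CL)) (b := η)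
    (ENNReal.mul_ne_top (by norm_num) (ENNReal.mul_ne_top hc₂i hCLt)) hη
  obtain ⟨j, hj⟩ := E.np_small hδ₁0
  set lam : ℝ≥0∞ := (1 - E.ρ) / 4 * (ce ^ j * (ce ^ E.D0 / 2)) with hlam
  have hlam0 : lam ≠ 0 := mul_ne_zero (ENNReal.div_pos hκ0 (by norm_num)).ne'
    (mul_ne_zero (pow_ne_zero _ hce0) hc₂0)
  set Λ : ℝ≥0∞ := (q₀ * lam)⁻¹ with hΛ
  have hΛt : Λ ≠ ⊤ := ENNReal.inv_ne_top.2 (mul_ne_zero h0 hlam0)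
  set A : ℝ≥0∞ := Λ * Cw with hA
  have hAt : A ≠ ⊤ := ENNReal.mul_ne_top hΛt hCwt
  obtain ⟨j', hj'⟩ := exists_pow_small (a := 4 * (A * E.CH)) E.ρ_lt
    (ENNReal.mul_ne_top (by norm_num) (ENNReal.mul_ne_top hAt hCH)) hη
  obtain ⟨C', hC't, hC'⟩ := E.tr_TH j'
  obtain ⟨δ, hδ0, hδ1, hδ⟩ := exists_small (a := 4) (by norm_num) hη
  obtain ⟨γ₀, hγ₀0, hγ₀⟩ := E.np_small_of (C := Λ * E.CH ^ 2) hδ0
    (ENNReal.mul_ne_top hΛt (ENNReal.pow_ne_top hCH))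
  obtain ⟨k₀, hk₀⟩ := exists_pow_small (a := Λ * Cw * E.CH) (b := min 1 γ₀) E.ρ_lt
    (ENNReal.mul_ne_top hAt hCH) (lt_min zero_lt_one (pos_iff_ne_zero.2 hγ₀0)).ne'
  obtain ⟨K₃, hK₃t, hK₃⟩ := exists_large (a := 2 * Cw) (b := ε₂ * c₁ ^ 2 * lam)
    (ENNReal.mul_ne_top (by norm_num) hCwt)
    (mul_ne_zero (mul_ne_zero hε₂0 (pow_ne_zero _ hc₁0)) hlam0)
  obtain ⟨M₁, hM₁t, hM₁⟩ := exists_large (a := 4 * (A * (CL * C'))) (b := η)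
    (ENNReal.mul_ne_top (by norm_num) (ENNReal.mul_ne_top hAt (ENNReal.mul_ne_top hCLt hC't))) hη
  have t4 : (E.reps.card * (Cw + 1) * E.CH ^ 2 * E.r * Λ) ^ 2 ≠ ⊤ :=
    ENNReal.pow_ne_top (ENNReal.mul_ne_top (ENNReal.mul_ne_top (ENNReal.mul_ne_top
      (ENNReal.mul_ne_top (by simp) (by simpa using hCwt)) (ENNReal.pow_ne_top hCH))
      E.r_ne_top) hΛt)
  have t5 : 2 * E.CH + ((ce ^ E.D0 / 2)⁻¹ + A * E.CH) + 1 ≠ ⊤ :=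
    ENNReal.add_ne_top.2 ⟨ENNReal.add_ne_top.2 ⟨ENNReal.mul_ne_top (by norm_num) hCH,
      ENNReal.add_ne_top.2 ⟨hc₂i, ENNReal.mul_ne_top hAt hCH⟩⟩, by simp⟩
  have t2 : q₀⁻¹ * E.CH ≠ ⊤ := ENNReal.mul_ne_top (ENNReal.inv_ne_top.2 h0) hCH
  obtain ⟨K, hKt, hK2, hK3, hK4, hK5, hK6, hK7⟩ : ∃ K : ℝ≥0∞, K ≠ ⊤ ∧ q₀⁻¹ * E.CH ≤ K ∧ K₃ ≤ K ∧
      (E.reps.card * (Cw + 1) * E.CH ^ 2 * E.r * Λ) ^ 2 ≤ K ∧
      2 * E.CH + ((ce ^ E.D0 / 2)⁻¹ + A * E.CH) + 1 ≤ K ∧ A * E.CH ≤ K ∧ (k₀ : ℝ≥0∞) ≤ K := by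
    refine ⟨max (q₀⁻¹ * E.CH) (max K₃ (max ((E.reps.card * (Cw + 1) * E.CH ^ 2 * E.r * Λ) ^ 2)
      (max (2 * E.CH + ((ce ^ E.D0 / 2)⁻¹ + A * E.CH) + 1) (max (A * E.CH) k₀)))), ?_, by simp,
      by simp, by simp, by simp, by simp, by simp⟩
    exact (max_lt t2.lt_top (max_lt hK₃t.lt_top (max_lt t4.lt_top (max_lt t5.lt_top
      (max_lt (ENNReal.mul_ne_top hAt hCH).lt_top (ENNReal.natCast_lt_top _)))))).ne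
  have hK0 : 1 ≤ K := le_trans le_add_self hK5
  refine ⟨K, hK0, hKt, fun M₀ hM₀ => ?_⟩
  obtain ⟨q, hg, hq⟩ := hunb (max M₀ (max M₁ (max 1 (E.nw 6 (TT G q₀)))))
    (max_lt hM₀.lt_top (max_lt hM₁t.lt_top (max_lt ENNReal.one_lt_top
      (E.nw_TT_ne_top hg₀).lt_top))).ne
  simp only [max_lt_iff] at hq
  obtain ⟨m0, m1, m2, m3⟩ := hq
  have hq₀ : q₀ ≤ q := by
    by_contra h
    exact absurd (E.nw_mono 6 (TT_mono_p (not_le.1 h).le hg₀.1)) (not_le.2 m3)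
  refine ⟨E.nw 6 (TT G q), q, m0.le, E.nw_TT_ne_top hg, hg, fun k hk hMk => ?_⟩
  have hk1 : 1 ≤ k := by exact_mod_cast hK0.trans hk
  have hkk : k₀ ≤ k := by exact_mod_cast hK7.trans hk
  refine E.piece (c₀ := c₀) h0 hg hq₀ hc₁0 ?_ (min_le_left _ _) hc₀0 hc₀2 hCp hCw
    (hCL q hg hq₀) hε₀1 hε₀ hε1 hε hce0 hce1 hce hε₂0 hε₂1 hε₂ hδ₁ hj hlam hΛ hA (hj' j' le_rfl)
    hC' hδ1 hδ hγ₀ hk1 (hk₀ k hkk) (le_trans (le_trans le_self_add le_self_add) hK5) hK2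
    (hK₃.trans (mul_le_mul_left hK3 _)) hK4 hK5 hK6 rfl m2.le
    (hM₁.trans (mul_le_mul_left m1.le _)) hMk
  rw [hc₁]
  exact pow_le_pow_left₀ zero_le (min_le_min hq₀ (tsub_le_tsub_left (hle q hg) _)) _

end Env

end Vale.Agent.P165
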