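import Mathlib
import Vale.Agent.P165.Renew

/-!
Sharpness of the phase transition (Duminil-Copin–Tassion): the subcritical part.
-/

open scoped ENNReal

namespace Vale.Agent.P165

variable {V : Type*} [DecidableEq V] {G : SimpleGraph V} [G.LocallyFinite]

/-- expected number of boundary edges of `S` at vertices joined to `x` inside `S`, times `p` -/
noncomputable def phiS (G : SimpleGraph V) [G.LocallyFinite] (p : ℝ≥0∞) (x : V) (S : Finset V) :
    ℝ≥0∞ :=
  p * ∑ u ∈ S, tc G p S x u * ((G.neighborFinset u \ S).card : ℝ≥0∞)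

theorem phiS_mono {p q : ℝ≥0∞} (hq : q ≤ p) (hp : p ≤ 1) (x : V) (S : Finset V) :
    phiS G q x S ≤ phiS G p x S := by
  unfold phiS
  refine mul_le_mul' hq (Finset.sum_le_sum fun u _ => mul_le_mul' (tc_mono_p hq hp S x u) le_rfl)

theorem phiS_image (p : ℝ≥0∞) (φ : G ≃g G) (x : V) (S : Finset V) :
    phiS G p (φ x) (S.image φ) = phiS G p x S := by
  unfold phiS
  rw [Finset.sum_image fun a _ b _ h => φ.injective h]
  refine congrArg _ (Finset.sum_congr rfl fun u _ => ?_)
  rw [tc_image]
  have : G.neighborFinset (φ u) \ S.image φ = (G.neighborFinset u \ S).image φ := by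
    ext z
    obtain ⟨w, rfl⟩ := φ.surjective z
    have h1 : ∀ T : Finset V, φ w ∈ T.image φ ↔ w ∈ T := fun T =>
      φ.injective.mem_finset_image
    change φ w ∈ _ ↔ φ w ∈ _
    rw [h1, Finset.mem_sdiff, Finset.mem_sdiff, h1, SimpleGraph.mem_neighborFinset,
      SimpleGraph.mem_neighborFinset, φ.map_adj_iff]
  rw [this, Finset.card_image_of_injective _ φ.injective]

theorem Ex_zero_param {ι : Type*} [DecidableEq ι] (J : Finset ι) (f : Finset ι → ℝ≥0∞) :
    Ex (fun _ => 0) J f = f ∅ := by
  induction J using Finset.induction_on with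
  | empty => exact Ex_empty _ _
  | insert e J he ih => rw [Ex_insert he, ih]; simp

theorem sum_ind_mem_le {α : Type*} [DecidableEq α] (R T : Finset α) :
    ∑ v ∈ R, ind (v ∈ T) ≤ (T.card : ℝ≥0∞) := by
  have h1 : ∑ v ∈ R, ind (v ∈ T) = ((R ∩ T).card : ℝ≥0∞) := by
    rw [← Finset.filter_mem_eq_inter, Finset.card_filter]
    push_cast
    refine Finset.sum_congr rfl fun v _ => ?_
    by_cases hv : v ∈ T
    · rw [ind_pos hv, if_pos hv]
    · rw [ind_neg hv, if_neg hv]
  rw [h1]
  exact_mod_cast Finset.card_le_card Finset.inter_subset_right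

open Classical in
theorem dct_a_step {p : ℝ≥0∞} (hp : p ≤ 1) {R S : Finset V} {x : V} (hxS : x ∈ S) {χ : ℝ≥0∞}
    (hχ : ∀ z ∈ R, ∑ v ∈ R, tc G p R z v ≤ χ) :
    ∑ v ∈ R, tc G p R x v ≤ S.card + phiS G p x S * χ := by
  have hp' : ∀ e : Sym2 V, (fun _ => p) e ≤ 1 := fun _ => hp
  set C : Finset (Sym2 V) → Finset V := fun ω => (S ∩ R).filter (Conn G (S ∩ R) ω x ·) with hC
  have hmem : ∀ ω u, u ∈ C ω ↔ Conn G (S ∩ R) ω x u := fun ω u => by
    rw [hC, Finset.mem_filter]
    exact ⟨fun h => h.2, fun h => ⟨h.right, h⟩⟩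
  have hren := fun v => renewal (G := G) (p := p) (q := p) (δ := 0) hp zero_le (by simp) R x v C
    (fun ω hx => (hmem ω x).2 (Conn.refl ω (Finset.mem_inter.2 ⟨hxS, hx⟩)))
    (fun ω ω' h => by
      ext v
      rw [hmem, hmem]
      refine conn_local (fun a b ha => ?_) v
      have := h s(a, b) ⟨a, (hmem ω a).2 ha, Sym2.mem_mk_left a b⟩
      unfold Op
      rw [this])
  simp only [Ex_zero_param, Finset.union_empty] at hren
  have hA : ∀ z ∈ R, Ex (fun _ => p) (EP G R)
      (fun ω => ind (z ∉ C ω ∧ ∃ u ∈ C ω, Op G ω u z)) ≤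
      ∑ u ∈ S, ind (z ∈ G.neighborFinset u \ S) * (p * tc G p S x u) := by
    intro z hz
    calc _ ≤ Ex (fun _ => p) (EP G R) (fun ω => ∑ u ∈ S, ind (z ∈ G.neighborFinset u \ S) *
          (ind (s(u, z) ∈ ω) * ind (Conn G (S ∩ R) ω x u))) := by
          refine Ex_mono fun ω _ => ?_
          by_cases h : z ∉ C ω ∧ ∃ u ∈ C ω, Op G ω u z
          · obtain ⟨hz', u, hu, hop⟩ := h
            have hu' := (hmem ω u).1 hu
            have huS : u ∈ S := (Finset.mem_inter.1 hu'.right).1
            have hzS : z ∉ S := fun hzS =>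
              hz' ((hmem ω z).2 (hu'.tail hop (Finset.mem_inter.2 ⟨hzS, hz⟩)))
            refine (ind_le_one _).trans (le_trans ?_ (Finset.single_le_sum (f := fun u =>
              ind (z ∈ G.neighborFinset u \ S) * (ind (s(u, z) ∈ ω) *
                ind (Conn G (S ∩ R) ω x u))) (fun _ _ => zero_le) huS))
            rw [ind_pos hu', ind_pos hop.2, ind_pos (Finset.mem_sdiff.2
              ⟨(G.mem_neighborFinset u z).2 hop.1, hzS⟩)]
            simp
          · rw [ind_neg h]; exact zero_le
      _ ≤ _ := by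
          rw [Ex_sum]
          refine Finset.sum_le_sum fun u _ => ?_
          rw [Ex_mul_left]
          by_cases hzu : z ∈ G.neighborFinset u \ S
          · refine mul_le_mul' le_rfl ?_
            obtain ⟨hadj, hzS⟩ := Finset.mem_sdiff.1 hzu
            rw [SimpleGraph.mem_neighborFinset] at hadj
            have he : s(u, z) ∈ EP G R := by
              rw [Sym2.eq_swap]; exact mk_mem_EP hadj.symm hz
            rw [Ex_mem hp' he]
            refine mul_le_mul' le_rfl ?_
            refine le_trans (Ex_mono fun ω _ => ind_mono fun hc => ?_)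
              ((tc_eq hp (Finset.inter_subset_right (s₁ := S)) x u).le.trans
                (tc_mono hp Finset.inter_subset_left x u))
            refine Conn.congr (fun a ha b hb _ hab => ?_) hc
            rcases Finset.mem_insert.1 hab with h | h
            · exfalso
              have hz2 : z ∈ s(a, b) := by rw [h]; exact Sym2.mem_mk_right u z
              rcases Sym2.mem_iff.1 hz2 with rfl | rfl
              · exact hzS (Finset.mem_inter.1 ha).1
              · exact hzS (Finset.mem_inter.1 hb).1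
            · exact h
          · rw [ind_neg hzu]; simp
  refine (Finset.sum_le_sum fun v _ => hren v).trans ?_
  rw [Finset.sum_add_distrib]
  refine add_le_add ?_ ?_
  · rw [← Ex_sum]
    refine Ex_le_const hp' fun ω _ => (sum_ind_mem_le R (C ω)).trans ?_
    exact_mod_cast Finset.card_le_card
      ((Finset.filter_subset _ _).trans Finset.inter_subset_left)
  · rw [Finset.sum_comm]
    calc _ ≤ ∑ z ∈ R, (∑ u ∈ S, ind (z ∈ G.neighborFinset u \ S) * (p * tc G p S x u)) * χ := by
          refine Finset.sum_le_sum fun z hz => ?_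
          rw [← Finset.mul_sum]
          exact mul_le_mul' (hA z hz) (hχ z hz)
      _ ≤ _ := by
          rw [← Finset.sum_mul, Finset.sum_comm]
          refine mul_le_mul' ?_ le_rfl
          unfold phiS
          rw [Finset.mul_sum]
          refine Finset.sum_le_sum fun u _ => ?_
          rw [← Finset.sum_mul, mul_comm, mul_assoc]
          exact mul_le_mul' le_rfl (mul_le_mul' le_rfl (sum_ind_mem_le _ _))

/-- Choose `S a` for the representatives and transport by automorphisms (`tc_image`), so that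
`|S x| ≤ N` and `phiS ≤ θ < 1`. For finite `R` let `χ` be the maximum over `x ∈ R` of
`∑_{v ∈ R} tc R x v`. `renewal` with `δ = 0` and the cluster of `x` inside `S x ∩ R`
(`conn_local`) gives `χ ≤ N + θ χ`: a frontier vertex `z ∈ R` is outside `S x`, and the edge `u z`
is independent of the connection inside `S x` (`Conn.congr`, `Ex_mem`). Conclude by `tsum_TT`. -/
theorem Env.dct_a (E : Env G) {p : ℝ≥0∞} (hp : p ≤ 1)
    (h : ∀ x, ∃ S : Finset V, x ∈ S ∧ phiS G p x S < 1) : Good G p := by
  choose S hS hφ using h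
  set N : ℕ := E.reps.sup fun a => (S a).card with hN
  set θ : ℝ≥0∞ := E.reps.sup fun a => phiS G p a (S a) with hθ
  have hθ1 : θ < 1 := (Finset.sup_lt_iff (by simp)).2 fun a _ => hφ a
  have hunif : ∀ x, ∃ T : Finset V, x ∈ T ∧ (T.card : ℝ≥0∞) ≤ N ∧ phiS G p x T ≤ θ := by
    intro x
    obtain ⟨a, ha, φ, rfl⟩ := E.cover x
    refine ⟨(S a).image φ, Finset.mem_image_of_mem _ (hS a), ?_, ?_⟩
    · exact_mod_cast Finset.card_image_le.trans
        (Finset.le_sup (f := fun a => (S a).card) ha)
    · rw [phiS_image]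
      exact Finset.le_sup (f := fun a => phiS G p a (S a)) ha
  have h1θ : 1 - θ ≠ 0 := (tsub_pos_of_lt hθ1).ne'
  have hbd : ∀ (R : Finset V), ∀ x ∈ R, ∑ v ∈ R, tc G p R x v ≤ N / (1 - θ) := by
    intro R
    set χ : ℝ≥0∞ := R.sup fun x => ∑ v ∈ R, tc G p R x v with hχ
    have hle : ∀ z ∈ R, ∑ v ∈ R, tc G p R z v ≤ χ := fun z hz =>
      Finset.le_sup (f := fun x => ∑ v ∈ R, tc G p R x v) hz
    have hfin : χ ≠ ⊤ := by
      refine ne_top_of_le_ne_top (ENNReal.natCast_ne_top R.card) (Finset.sup_le fun z _ => ?_)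
      refine (Finset.sum_le_sum fun v _ => tc_le_one hp R z v).trans ?_
      simp
    have hrec : χ ≤ N + θ * χ := by
      refine Finset.sup_le fun z _ => ?_
      obtain ⟨T, hzT, hT, hφT⟩ := hunif z
      exact (dct_a_step hp hzT hle).trans (add_le_add hT (mul_le_mul' hφT le_rfl))
    have h2 : (1 - θ) * χ + θ * χ = χ := by
      rw [← add_mul, tsub_add_cancel_of_le hθ1.le, one_mul]
    have h3 : (1 - θ) * χ ≤ N := by
      have h4 : (1 - θ) * χ + θ * χ ≤ N + θ * χ := h2.le.trans hrec
      exact (ENNReal.add_le_add_iff_right (ENNReal.mul_ne_top (hθ1.trans ENNReal.one_lt_top).ne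
        hfin)).1 h4
    intro x hx
    refine (hle x hx).trans ?_
    rw [ENNReal.le_div_iff_mul_le (Or.inl h1θ) (Or.inl (by simp)), mul_comm]
    exact h3
  refine ⟨hp, fun x => ?_⟩
  refine ne_top_of_le_ne_top (ENNReal.div_ne_top (ENNReal.natCast_ne_top N) h1θ) ?_
  have := tsum_TT (G := G) hp x fun _ => 1
  simp only [mul_one] at this
  rw [this]
  refine iSup_le fun R => ?_
  rw [tsum_eq_sum (s := R) fun v hv => tc_eq_zero p (Or.inr hv)]
  by_cases hx : x ∈ R
  · exact hbd R x hx
  · rw [Finset.sum_eq_zero fun v _ => tc_eq_zero p (Or.inl hx)]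
    exact zero_le

end Vale.Agent.P165
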