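import Mathlib
import Vale.Agent.P165.SharpA

/-!
Sharpness of the phase transition: the supercritical part, by discrete sprinkling.
-/

open scoped ENNReal

namespace Vale.Agent.P165

variable {V : Type*} [DecidableEq V] {G : SimpleGraph V} [G.LocallyFinite]

theorem one_sub_pow_add_le {δ : ℝ≥0∞} (hδ1 : δ ≤ 1) (b : ℕ) (h : δ * b ≤ 1) :
    (1 - δ) ^ b + δ / 2 * b ≤ 1 := by
  lift δ to NNReal using ne_top_of_le_ne_top ENNReal.one_ne_top hδ1 with d
  have hd1 : d ≤ 1 := by exact_mod_cast hδ1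
  have hd1' : (d : ℝ) ≤ 1 := by exact_mod_cast hd1
  have hd0 : (0 : ℝ) ≤ d := d.2
  have hb : (d : ℝ) * b ≤ 1 := by exact_mod_cast h
  have key : ∀ n : ℕ, (1 - (d : ℝ)) ^ n * (1 + n * d) ≤ 1 := by
    intro n
    induction n with
    | zero => simp
    | succ n ih =>
      have h0 : 0 ≤ (1 - (d : ℝ)) ^ n := pow_nonneg (by linarith) n
      have h1 : (1 - (d : ℝ)) * (1 + (n + 1) * d) ≤ 1 + n * d := by
        have : (0 : ℝ) ≤ (n + 1) * (d * d) := by positivity
        nlinarith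
      push_cast
      calc (1 - (d : ℝ)) ^ (n + 1) * (1 + (n + 1) * d)
          = (1 - (d : ℝ)) ^ n * ((1 - d) * (1 + (n + 1) * d)) := by ring
        _ ≤ (1 - (d : ℝ)) ^ n * (1 + n * d) := mul_le_mul_of_nonneg_left h1 h0
        _ ≤ 1 := ih
  have hreal : (1 - (d : ℝ)) ^ b + d / 2 * b ≤ 1 := by
    have h0 : 0 ≤ (1 - (d : ℝ)) ^ b := pow_nonneg (by linarith) b
    have ht : (0 : ℝ) ≤ d * b := by positivity
    have k := key b
    by_contra hc
    push Not at hc
    nlinarith [mul_nonneg ht (sub_nonneg.2 hb),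
      mul_pos (sub_pos.2 hc) (by linarith : (0 : ℝ) < 1 + d * b)]
  have h2 : (1 - d) ^ b + d / 2 * b ≤ 1 := by
    rw [← NNReal.coe_le_coe]
    push_cast [NNReal.coe_sub hd1]
    exact hreal
  have h3 : (((1 - d) ^ b + d / 2 * b : NNReal) : ℝ≥0∞) ≤ 1 := by exact_mod_cast h2
  simpa [ENNReal.coe_div] using h3

theorem out_of_conn {R : Finset V} {ω : Finset (Sym2 V)} {x y : V} (h : Conn G R ω x y)
    (hy : Out G R ω y) : Out G R ω x := by
  obtain ⟨u, v, h1, h2, h3⟩ := hy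
  exact ⟨u, v, h.trans h1, h2, h3⟩

open Classical in
theorem notOut_local {R : Finset V} {ω ω' : Finset (Sym2 V)}
    (h : ∀ e : Sym2 V, (¬ ∀ v ∈ e, v ∈ R.filter (¬ Out G R ω ·)) → (e ∈ ω ↔ e ∈ ω')) :
    R.filter (¬ Out G R ω' ·) = R.filter (¬ Out G R ω ·) := by
  have hop : ∀ a b, b ∉ R.filter (¬ Out G R ω ·) → (Op G ω a b ↔ Op G ω' a b) := by
    intro a b hb
    have := h s(a, b) fun hall => hb (hall b (Sym2.mem_mk_right a b))
    unfold Op
    rw [this]
  refine Finset.filter_congr fun v hv => not_congr ⟨?_, ?_⟩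
  · rintro ⟨u, w, hc, hw, ho⟩
    by_contra hn
    have key : ∀ a, Relation.ReflTransGen (fun a b => b ∈ R ∧ Op G ω' a b) v a →
        a ∈ R ∧ ¬ Out G R ω a := by
      intro a ha
      induction ha with
      | refl => exact ⟨hv, hn⟩
      | tail _ hab ih =>
        refine ⟨hab.1, fun hb => ih.2 ?_⟩
        have h1 := (hop _ _ fun hm => (Finset.mem_filter.1 hm).2 hb).2 hab.2
        exact out_of_conn ((Conn.refl ω ih.1).tail h1 hab.1) hb
    have hu := key u hc.2
    exact hu.2 ⟨u, w, Conn.refl ω hu.1, hw,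
      (hop _ _ fun hm => hw (Finset.mem_filter.1 hm).1).2 ho⟩
  · rintro ⟨u, w, hc, hw, ho⟩
    refine ⟨u, w, ⟨hv, ?_⟩, hw, (hop _ _ fun hm => hw (Finset.mem_filter.1 hm).1).1 ho⟩
    have h2 := hc.2
    clear hc hv
    induction h2 using Relation.ReflTransGen.head_induction_on with
    | refl => exact Relation.ReflTransGen.refl
    | head hab hrest ih =>
      refine Relation.ReflTransGen.head ⟨hab.1, (hop _ _ fun hm => ?_).1 hab.2⟩ ih
      exact (Finset.mem_filter.1 hm).2 ⟨u, w, ⟨hab.1, hrest⟩, hw, ho⟩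

open Classical in
/-- edges from the cluster of `x` inside `S` to the complement of `S` -/
noncomputable def bdE (G : SimpleGraph V) [G.LocallyFinite] (S : Finset V) (x : V)
    (ω : Finset (Sym2 V)) : Finset (Sym2 V) :=
  (S.filter (Conn G S ω x ·)).biUnion fun u => (G.neighborFinset u \ S).image fun z => s(u, z)

theorem card_bdE (S : Finset V) (x : V) (ω : Finset (Sym2 V)) :
    ((bdE G S x ω).card : ℝ≥0∞) =
      ∑ u ∈ S, ind (Conn G S ω x u) * ((G.neighborFinset u \ S).card : ℝ≥0∞) := by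
  classical
  unfold bdE
  rw [Finset.card_biUnion]
  · push_cast
    rw [Finset.sum_filter]
    refine Finset.sum_congr rfl fun u hu => ?_
    by_cases hc : Conn G S ω x u
    · rw [if_pos hc, ind_pos hc, one_mul, Finset.card_image_of_injective]
      intro z z' hz
      exact Sym2.congr_right.1 hz
    · rw [if_neg hc, ind_neg hc, zero_mul]
  · intro u hu u' hu' hne
    refine Finset.disjoint_left.2 fun e he he' => ?_
    obtain ⟨z, hz, rfl⟩ := Finset.mem_image.1 he
    obtain ⟨z', hz', h⟩ := Finset.mem_image.1 he'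
    have hu1 : u ∈ S := (Finset.mem_filter.1 (Finset.mem_coe.1 hu)).1
    rcases Sym2.eq_iff.1 h with ⟨h1, _⟩ | ⟨_, h2⟩
    · exact hne h1.symm
    · exact (Finset.mem_sdiff.1 hz').2 (h2 ▸ hu1)

theorem bdE_subset {R S : Finset V} (h : S ⊆ R) (x : V) (ω : Finset (Sym2 V)) :
    bdE G S x ω ⊆ EP G R := by
  classical
  intro e he
  obtain ⟨u, hu, he⟩ := Finset.mem_biUnion.1 he
  obtain ⟨z, hz, rfl⟩ := Finset.mem_image.1 he
  exact mk_mem_EP ((G.mem_neighborFinset u z).1 (Finset.mem_sdiff.1 hz).1)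
    (h (Finset.mem_filter.1 hu).1)

/-- One sprinkling step. Explore `S ω = R.filter (¬ Out R ω ·)`; it is determined by the edges
that do not have both ends in `S ω`. If `x` is not joined to the outside in `ω ∪ σ` then
`x ∈ S ω` and `σ` avoids the `b` edges from the cluster of `x` inside `S ω` to the complement of
`S ω`; this has probability `(1 - δ)^b`, and `(1 - δ)^b + δ b / 2 ≤ 1` as `δ b ≤ 1`. Swap the
expectations, use `Ex_markov`, and `1 ≤ phiS q x S ≤ ` the mean of `b`. -/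
theorem dct_step {q δ : ℝ≥0∞} (hq : q ≤ 1) (hδ1 : δ ≤ 1) {R : Finset V} {x : V}
    (hφ : ∀ S : Finset V, x ∈ S → 1 ≤ phiS G q x S) (hδ : δ * (EP G R).card ≤ 1) (hx : x ∈ R) :
    Ex (fun _ => q + (1 - q) * δ) (EP G R) (fun ω => ind (¬ Out G R ω x)) +
        δ / 2 * Ex (fun _ => q) (EP G R) (fun ω => ind (¬ Out G R ω x)) ≤
      Ex (fun _ => q) (EP G R) (fun ω => ind (¬ Out G R ω x)) := by
  classical
  have hq' : ∀ e : Sym2 V, (fun _ => q) e ≤ 1 := fun _ => hq
  have hδ' : ∀ e : Sym2 V, (fun _ => δ) e ≤ 1 := fun _ => hδ1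
  set S : Finset (Sym2 V) → Finset V := fun ω => R.filter (¬ Out G R ω ·) with hS
  have hSR : ∀ ω, S ω ⊆ R := fun ω => Finset.filter_subset _ _
  have hxS : ∀ ω, x ∈ S ω ↔ ¬ Out G R ω x := fun ω => by
    rw [hS, Finset.mem_filter]; exact ⟨fun h => h.2, fun h => ⟨hx, h⟩⟩
  set b : Finset (Sym2 V) → ℕ := fun ω => (bdE G (S ω) x ω).card with hb
  have h1 : ∀ ω, Ex (fun _ => δ) (EP G R) (fun σ => ind (¬ Out G R (ω ∪ σ) x)) ≤
      ind (¬ Out G R ω x) * (1 - δ) ^ b ω := by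
    intro ω
    have h2 := Ex_none hδ' (bdE_subset (G := G) (hSR ω) x ω) fun _ => ind (¬ Out G R ω x)
    rw [Ex_const hδ', Finset.prod_const, mul_comm] at h2
    rw [← h2]
    refine Ex_mono fun σ _ => ?_
    rw [← ind_and]
    refine ind_mono fun hn => ⟨Finset.disjoint_left.2 fun e he he' => hn ?_,
      fun ho => hn (ho.mono Finset.subset_union_left)⟩
    obtain ⟨u, hu, he'⟩ := Finset.mem_biUnion.1 he'
    obtain ⟨z, hz, rfl⟩ := Finset.mem_image.1 he'
    obtain ⟨hadj, hzS⟩ := Finset.mem_sdiff.1 hz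
    have hc : Conn G R (ω ∪ σ) x u :=
      (Finset.mem_filter.1 hu).2.mono (hSR ω) Finset.subset_union_left
    have hop : Op G (ω ∪ σ) u z :=
      ⟨(G.mem_neighborFinset u z).1 hadj, Finset.mem_union_right _ he⟩
    by_cases hzR : z ∈ R
    · have hzo : Out G R ω z := by
        by_contra hzo
        exact hzS (Finset.mem_filter.2 ⟨hzR, hzo⟩)
      exact out_of_conn (hc.tail hop hzR) (hzo.mono Finset.subset_union_left)
    · exact ⟨u, z, hc, hzR, hop⟩
  have h2 : Ex (fun _ => q) (EP G R) (fun ω => ind (¬ Out G R ω x)) ≤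
      Ex (fun _ => q) (EP G R) (fun ω => ind (¬ Out G R ω x) * b ω) := by
    have hm := Ex_markov hq' (EP G R) S (fun T => {e | ¬ ∀ v ∈ e, v ∈ T})
      (fun ω ω' h => notOut_local h)
      (fun T ω => ind (x ∈ T) * ((bdE G T x ω).card : ℝ≥0∞)) (by
        intro T ω ω' h
        have hc : ∀ u, Conn G T ω x u ↔ Conn G T ω' x u := fun u => by
          have h3 : ∀ a ∈ T, ∀ c ∈ T, (s(a, c) ∈ ω ↔ s(a, c) ∈ ω') := fun a ha c hc =>
            h _ fun hn => hn fun v hv => by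
              rcases Sym2.mem_iff.1 hv with rfl | rfl
              exacts [ha, hc]
          exact ⟨Conn.congr fun a ha c hc _ => (h3 a ha c hc).1,
            Conn.congr fun a ha c hc _ => (h3 a ha c hc).2⟩
        simp only [card_bdE, hc])
    simp only [hxS] at hm
    refine le_trans (Ex_mono fun ω _ => ?_) hm.ge
    rw [Ex_mul_left]
    by_cases hn : ¬ Out G R ω x
    · rw [ind_pos hn, one_mul]
      refine (hφ (S ω) ((hxS ω).2 hn)).trans ?_
      simp only [card_bdE]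
      rw [Ex_sum]
      unfold phiS
      refine (mul_le_of_le_one_left' hq).trans (Finset.sum_le_sum fun u _ => ?_)
      rw [Ex_mul_right, tc_eq hq (hSR ω)]
    · rw [ind_neg hn]; exact zero_le
  rw [Ex_union_law hq' hδ' (fun _ => rfl)]
  refine (add_le_add (Ex_mono fun ω _ => h1 ω) (mul_le_mul' le_rfl h2)).trans ?_
  rw [← Ex_mul_left, ← Ex_add]
  refine Ex_mono fun ω _ => ?_
  rw [mul_left_comm, ← mul_add]
  refine mul_le_of_le_one_right' (one_sub_pow_add_le hδ1 _ (le_trans (mul_le_mul' le_rfl ?_) hδ))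
  exact_mod_cast Finset.card_le_card (bdE_subset (hSR ω) x ω)

/-- Iterate `dct_step` `J` times with `δ = c₀ / J`, where `p = p₁ + (1 - p₁) c₀`
(`exists_sprinkle`, `c₀ ≠ 0`) and `J ≥ |EP R|`; the parameters stay below `p` (Bernoulli's
inequality), and `f_J (1 + δ/2)^J ≤ 1` gives `f_J (1 + c₀/2) ≤ 1`. -/
theorem dct_b {p₁ p : ℝ≥0∞} (h1 : p₁ < p) (hp : p ≤ 1) {x : V}
    (hφ : ∀ S : Finset V, x ∈ S → 1 ≤ phiS G p₁ x S) :
    ∃ c : ℝ≥0∞, c ≠ 0 ∧ ∀ R : Finset V, x ∈ R →
      c ≤ Ex (fun _ => p) (EP G R) (fun ω => ind (Out G R ω x)) := by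
  obtain ⟨c₀, hc1, hc⟩ := exists_sprinkle h1.le hp
  have hc0 : c₀ ≠ 0 := by
    rintro rfl
    simp only [mul_zero, add_zero] at hc
    exact h1.ne' hc
  have hp₁ : p₁ ≤ 1 := h1.le.trans hp
  have hlt : (1 + c₀ / 2)⁻¹ < 1 := by
    rw [ENNReal.inv_lt_one]
    exact ENNReal.lt_add_right ENNReal.one_ne_top (by simp [hc0])
  refine ⟨1 - (1 + c₀ / 2)⁻¹, (tsub_pos_of_lt hlt).ne', fun R hx => ?_⟩
  set J : ℕ := (EP G R).card + 1 with hJ
  have hJ0 : (J : ℝ≥0∞) ≠ 0 := by simp [hJ]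
  set δ : ℝ≥0∞ := c₀ / J with hδ
  have hJδ : J * δ = c₀ := ENNReal.mul_div_cancel hJ0 (ENNReal.natCast_ne_top J)
  have hδc : δ * (EP G R).card ≤ 1 := by
    refine le_trans ?_ hc1
    rw [← hJδ, mul_comm]
    refine mul_le_mul' ?_ le_rfl
    exact_mod_cast Nat.le_succ _
  have hδ1 : δ ≤ 1 := by
    refine le_trans ?_ hc1
    rw [← hJδ]
    refine le_mul_of_one_le_left' ?_
    exact_mod_cast Nat.succ_le_succ (Nat.zero_le _)
  set f : ℝ≥0∞ → ℝ≥0∞ := fun q => Ex (fun _ => q) (EP G R) (fun ω => ind (¬ Out G R ω x)) with hf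
  have key : ∀ j : ℕ, ∃ q, p₁ ≤ q ∧ q ≤ 1 ∧ q ≤ p₁ + (1 - p₁) * (j * δ) ∧
      f q * (1 + j * δ / 2) ≤ 1 := by
    intro j
    induction j with
    | zero =>
      refine ⟨p₁, le_rfl, hp₁, le_self_add, ?_⟩
      simp only [Nat.cast_zero, zero_mul, ENNReal.zero_div, add_zero, mul_one]
      exact Ex_le_const (fun _ => hp₁) fun ω _ => ind_le_one _
    | succ j ih =>
      obtain ⟨q, hq0, hq1, hq2, hq3⟩ := ih
      have hstep := dct_step hq1 hδ1 (fun S hS => (hφ S hS).trans (phiS_mono hq0 hq1 x S)) hδc hx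
      change f (q + (1 - q) * δ) + δ / 2 * f q ≤ f q at hstep
      refine ⟨q + (1 - q) * δ, hq0.trans le_self_add, ?_, ?_, ?_⟩
      · calc q + (1 - q) * δ ≤ q + (1 - q) := add_le_add le_rfl (mul_le_of_le_one_right' hδ1)
          _ = 1 := add_tsub_cancel_of_le hq1
      · push_cast
        rw [add_mul, one_mul, mul_add, ← add_assoc]
        exact add_le_add hq2 (mul_le_mul' (tsub_le_tsub_left hq0 1) le_rfl)
      · have ha : f (q + (1 - q) * δ) ≤ f q := le_self_add.trans hstep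
        have hb : f (q + (1 - q) * δ) * (1 + δ / 2) ≤ f q := by
          rw [mul_add, mul_one, mul_comm _ (δ / 2)]
          exact (add_le_add le_rfl (mul_le_mul' le_rfl ha)).trans hstep
        have hc' : 1 + ((j + 1 : ℕ) : ℝ≥0∞) * δ / 2 ≤ (1 + δ / 2) * (1 + j * δ / 2) := by
          push_cast
          rw [add_mul, one_mul, ENNReal.add_div, add_mul, one_mul, mul_add, mul_one, ← add_assoc,
            ← add_assoc]
          exact le_self_add
        calc _ ≤ f (q + (1 - q) * δ) * ((1 + δ / 2) * (1 + j * δ / 2)) := mul_le_mul' le_rfl hc'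
          _ ≤ f q * (1 + j * δ / 2) := by rw [← mul_assoc]; exact mul_le_mul' hb le_rfl
          _ ≤ 1 := hq3
  obtain ⟨q, -, hq1, hq2, hq3⟩ := key J
  rw [hJδ] at hq2 hq3
  rw [← hc] at hq2
  have h2 : f q ≤ (1 + c₀ / 2)⁻¹ := by
    rw [ENNReal.le_inv_iff_mul_le]; exact hq3
  have h3 : Ex (fun _ => q) (EP G R) (fun ω => ind (Out G R ω x)) + f q = 1 := by
    rw [hf, ← Ex_add]
    simp only [ind_add_not]
    exact Ex_const (fun _ => hq1) _ _
  refine le_trans ?_ (Ex_mono_p (fun _ => hq2) (fun _ => hp) _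
    fun ω ω' h => ind_mono (Out.mono h))
  rw [tsub_le_iff_right]
  exact h3.ge.trans (add_le_add le_rfl h2)

end Vale.Agent.P165
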