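import Mathlib
import Vale.Agent.P165.SharpB

/-!
Sharpness of the phase transition.
-/

open scoped ENNReal

namespace Vale.Agent.P165

variable {V : Type*} [DecidableEq V] {G : SimpleGraph V} [G.LocallyFinite]

theorem Env.sharp (E : Env G) {p₁ p : ℝ≥0∞} (h : ¬ Good G p₁) (h1 : p₁ < p) (hp : p ≤ 1) :
    ∃ (x : V) (c : ℝ≥0∞), c ≠ 0 ∧ ∀ R : Finset V, x ∈ R →
      c ≤ Ex (fun _ => p) (EP G R) (fun ω => ind (Out G R ω x)) := by
  by_contra hcon
  refine h (E.dct_a (h1.le.trans hp) fun x => ?_)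
  by_contra hx
  push Not at hx
  exact hcon ⟨x, dct_b h1 hp hx⟩

end Vale.Agent.P165
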