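import Mathlib
import Vale.Agent.P165.PF
import Vale.Agent.P165.Sharp
import Vale.Agent.P165.Open
import Vale.Agent.P165.Bridge
import Vale.Agent.P165.EnvEx

/-!
Assembly.
-/

open MeasureTheory ProbabilityTheory unitInterval
open scoped ENNReal

namespace Vale.Agent.P165

variable {V : Type*} [DecidableEq V] {G : SimpleGraph V} [G.LocallyFinite]

theorem exists_pow_le {ρ c : ℝ≥0∞} (hρ : ρ < 1) (hc : c ≠ 0) : ∃ N : ℕ, 0 < N ∧ ρ ^ N ≤ c := by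
  have h := ENNReal.tendsto_pow_atTop_nhds_zero_of_lt_one hρ
  have h2 := (h.eventually (ge_mem_nhds (pos_iff_ne_zero.2 hc))).and (Filter.eventually_gt_atTop 0)
  obtain ⟨N, h3, h4⟩ := h2.exists
  exact ⟨N, h4, h3⟩

theorem exists_root {ρ : ℝ≥0∞} (hρ : ρ < 1) {N : ℕ} (hN : 0 < N) :
    ∃ ϱ : ℝ≥0∞, 1 < ϱ ∧ ρ * ϱ ^ N < 1 := by
  rcases eq_or_ne ρ 0 with rfl | h0
  · exact ⟨2, by norm_num, by simp⟩
  have h1 : (1 : ℝ≥0∞) < ρ⁻¹ := ENNReal.one_lt_inv.2 hρ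
  obtain ⟨t, ht1, ht2⟩ := exists_between h1
  have hNr : (0 : ℝ) < N := by exact_mod_cast hN
  refine ⟨t ^ (1 / (N : ℝ)), ENNReal.one_lt_rpow ht1 (by positivity), ?_⟩
  rw [← ENNReal.rpow_natCast, ← ENNReal.rpow_mul, one_div_mul_cancel hNr.ne', ENNReal.rpow_one]
  calc ρ * t < ρ * ρ⁻¹ := ENNReal.mul_lt_mul_right h0 hρ.ne_top ht2
    _ = 1 := ENNReal.mul_inv_cancel h0 hρ.ne_top

theorem norm_bounded [Nonempty V] (hc : G.Preconnected) (hq : QuasiTransitive G)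
    (hN : Nonamenable G) : ∃ M : ℝ≥0∞, M ≠ ⊤ ∧ ∀ q, Good G q → nrm (TT G q) ≤ M := by
  obtain ⟨D, ρ, hρ1, hρ0, hE⟩ := exists_env hc hq hN
  obtain ⟨E₀, -, -, -⟩ := hE 2 (by norm_num)
  obtain ⟨q₁, hq₁, hle⟩ := E₀.good_le hN
  by_cases hex : ∃ q₀, Good G q₀ ∧ q₀ ≠ 0
  swap
  · refine ⟨1, ENNReal.one_ne_top, fun q hg => ?_⟩
    have : q = 0 := by
      by_contra h
      exact hex ⟨q, hg, h⟩
    subst this
    exact (nrm_mono TT_zero_le).trans nrm_kid_le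
  obtain ⟨q₀, hg₀, h0⟩ := hex
  by_contra hcon
  set c₁ : ℝ≥0∞ := min q₀ (1 - q₁) ^ D with hc₁
  have hm0 : min q₀ (1 - q₁) ≠ 0 := by
    have : 1 - q₁ ≠ 0 := (tsub_pos_of_lt hq₁).ne'
    exact (lt_min (pos_iff_ne_zero.2 h0) (pos_iff_ne_zero.2 this)).ne'
  have hc₁0 : c₁ ≠ 0 := pow_ne_zero _ hm0
  have hc₁1 : c₁ ≤ 1 := pow_le_one₀ zero_le ((min_le_left _ _).trans hg₀.1)
  set c : ℝ≥0∞ := min c₁ (2 * ((D : ℝ≥0∞) + 1))⁻¹ * c₁ with hcdef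
  have hc0 : c ≠ 0 := by
    refine mul_ne_zero (lt_min (pos_iff_ne_zero.2 hc₁0) ?_).ne' hc₁0
    exact ENNReal.inv_pos.2 (ENNReal.mul_ne_top (by norm_num) (by simp))
  have hc1 : c ≤ 1 := mul_le_one' ((min_le_left _ _).trans hc₁1) hc₁1
  obtain ⟨N₁, hN₁, hN⟩ := exists_pow_le hρ1 (mul_ne_zero hc0 hρ0)
  obtain ⟨ϱ, hϱ1, hϱ⟩ := exists_root hρ1 (N := 2 * (20 * N₁)) (by omega)
  obtain ⟨E, hD, hρ, hr⟩ := hE ϱ hϱ1
  have hunb : ∀ M₀ : ℝ≥0∞, M₀ ≠ ⊤ → ∃ q, Good G q ∧ M₀ < E.nw 6 (TT G q) := by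
    intro M₀ hM₀
    by_contra h
    push Not at h
    exact hcon ⟨M₀, hM₀, fun q hg => (E.nrm_le_nw 6 _).trans (h q hg)⟩
  obtain ⟨ε₀, ε, hε₀, hε, pf⟩ := E.piece_family h0 hg₀ hq₁ hle (c₁ := c₁) (by rw [hD]) hunb
  rw [hD, hρ] at pf
  refine sched E.sys hc0 hc1 hρ0 hρ1 hε₀ hε ?_ hN₁ hN pf
  refine lt_of_le_of_lt ?_ hϱ
  rw [← pow_mul]
  gcongr

theorem pc_lt_pu [Infinite V] (hc : G.Preconnected) (hq : QuasiTransitive G)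
    (hN : Nonamenable G) : pc G < pu G := by
  obtain ⟨M, hM, hb⟩ := norm_bounded hc hq hN
  obtain ⟨D, ρ, -, -, hE⟩ := exists_env hc hq hN
  obtain ⟨E, -, -, -⟩ := hE 2 (by norm_num)
  obtain ⟨q₁, hq₁, hle⟩ := E.good_le hN
  obtain ⟨p₁, p₂, hng, h12, h2, hfin⟩ := openness E.deg_le hq₁ hle hM hb
  obtain ⟨p₃, h13, h32⟩ := exists_between h12
  have h3 : p₃ ≤ 1 := h32.le.trans h2
  have t2 : p₂ ≠ ⊤ := ne_top_of_le_ne_top ENNReal.one_ne_top h2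
  have t3 : p₃ ≠ ⊤ := h32.ne_top
  have r2 : p₂.toReal ≤ 1 := by simpa using ENNReal.toReal_mono ENNReal.one_ne_top h2
  have r3 : p₃.toReal ≤ 1 := by simpa using ENNReal.toReal_mono ENNReal.one_ne_top h3
  let P₂ : I := ⟨p₂.toReal, ENNReal.toReal_nonneg, r2⟩
  let P₃ : I := ⟨p₃.toReal, ENNReal.toReal_nonneg, r3⟩
  have e3 : ENNReal.ofReal (P₃ : ℝ) = p₃ := ENNReal.ofReal_toReal t3
  have hlt : P₃ < P₂ := (ENNReal.toReal_lt_toReal t3 t2).2 h32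
  obtain ⟨x, c, hc0, hx⟩ := E.sharp hng h13 h3
  have hA : pc G ≤ P₃ := sInf_le (E.perc_pos P₃ hc0 (by rw [e3]; exact hx))
  have hB : P₂ ≤ pu G := by
    refine le_sInf fun p hp => ?_
    by_contra hlt'
    have h4 : (p : ℝ) ≤ p₂.toReal := (not_le.1 hlt').le
    have h5 : ENNReal.ofReal (p : ℝ) ≤ p₂ := ENNReal.ofReal_le_of_le_toReal h4
    have h6 := E.nrm_top_of_unique p hp
    exact hfin (top_le_iff.1 (h6 ▸ nrm_mono (TT_mono_p h5 h2)))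
  exact hA.trans_lt (hlt.trans_le hB)

end Vale.Agent.P165
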